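/-
Row 324 (S0582), PDE core, module W (architect helper427; this file: helper217).   Blueprint 7.3, preliminaries of W0/W1.
`SmI f`: `f` is smooth near every point of `[-1,1]` (weights are quotients whose denominators vanish somewhere outside `[-1,1]`, so `ContDiff ℝ ∞` on `ℝ` is too much).
Calculus of `tt f = -(1-y²) f'` and of `ttp f = tt f + y f` on this class.
-/
import Claimed.Agent.R324.Core.PR.Sm
import Claimed.Agent.R324.Core.Bgd

set_option autoImplicit false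

namespace Claimed.Agent.R324.Core

open Set Filter Topology
open scoped ContDiff

noncomputable section

/-- smooth near `[-1,1]`. -/
def SmI (f : ℝ → ℝ) : Prop := ∀ y ∈ Icc (-1 : ℝ) 1, ContDiffAt ℝ ∞ f y

variable {f g : ℝ → ℝ} {y : ℝ}

theorem smI_of_contDiff (h : ContDiff ℝ ∞ f) : SmI f := fun _ _ => h.contDiffAt

theorem Sm.smI {F : Fn} (h : Sm F) {t : ℝ} (ht : t < 0) : SmI (Core.sl F t) := smI_of_contDiff (h.sl ht)

theorem smI_const (c : ℝ) : SmI (fun _ => c) := fun _ _ => contDiffAt_const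

theorem smI_id : SmI (fun y => y) := fun _ _ => contDiffAt_id

theorem smI_Xf : SmI Xf := by
  intro y _
  unfold Xf
  exact contDiffAt_const.sub (contDiffAt_id.pow 2)

theorem SmI.add (hf : SmI f) (hg : SmI g) : SmI (fun y => f y + g y) := fun y hy => (hf y hy).add (hg y hy)

theorem SmI.sub (hf : SmI f) (hg : SmI g) : SmI (fun y => f y - g y) := fun y hy => (hf y hy).sub (hg y hy)

theorem SmI.neg (hf : SmI f) : SmI (fun y => -f y) := fun y hy => (hf y hy).neg

theorem SmI.mul (hf : SmI f) (hg : SmI g) : SmI (fun y => f y * g y) := fun y hy => (hf y hy).mul (hg y hy)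

theorem SmI.pow (hf : SmI f) (n : ℕ) : SmI (fun y => f y ^ n) := fun y hy => (hf y hy).pow n

theorem SmI.const_mul (c : ℝ) (hf : SmI f) : SmI (fun y => c * f y) := (smI_const c).mul hf

theorem SmI.inv (hf : SmI f) (h0 : ∀ y ∈ Icc (-1 : ℝ) 1, f y ≠ 0) : SmI (fun y => (f y)⁻¹) :=
  fun y hy => (hf y hy).inv (h0 y hy)

theorem SmI.div (hf : SmI f) (hg : SmI g) (h0 : ∀ y ∈ Icc (-1 : ℝ) 1, g y ≠ 0) : SmI (fun y => f y / g y) :=
  fun y hy => (hf y hy).div (hg y hy) (h0 y hy)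

theorem SmI.comp {φ : ℝ → ℝ} (hφ : ContDiff ℝ ∞ φ) (hf : SmI f) : SmI (fun y => φ (f y)) :=
  fun y hy => hφ.contDiffAt.comp y (hf y hy)

theorem SmI.sqrt (hf : SmI f) (h0 : ∀ y ∈ Icc (-1 : ℝ) 1, f y ≠ 0) : SmI (fun y => Real.sqrt (f y)) :=
  fun y hy => (hf y hy).sqrt (h0 y hy)

theorem SmI.congr (hf : SmI f) (h : ∀ y ∈ Icc (-1 : ℝ) 1, g =ᶠ[𝓝 y] f) : SmI g :=
  fun y hy => (hf y hy).congr_of_eventuallyEq (h y hy)

theorem smI_sum {ι : Type} (s : Finset ι) {F : ι → ℝ → ℝ} (h : ∀ k ∈ s, SmI (F k)) :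
    SmI (fun y => ∑ k ∈ s, F k y) := fun y hy => ContDiffAt.sum (fun k hk => h k hk y hy)

theorem SmI.differentiableAt (hf : SmI f) (hy : y ∈ Icc (-1 : ℝ) 1) : DifferentiableAt ℝ f y :=
  (hf y hy).differentiableAt (by simp)

theorem SmI.continuousOn (hf : SmI f) : ContinuousOn f (Icc (-1 : ℝ) 1) :=
  fun y hy => (hf y hy).continuousAt.continuousWithinAt

theorem SmI.deriv (hf : SmI f) : SmI (_root_.deriv f) := by
  intro y hy
  have h : ContDiffAt ℝ ∞ (fderiv ℝ f) y := (hf y hy).fderiv_right (m := ∞) (by simp)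
  have h2 : _root_.deriv f = fun z => fderiv ℝ f z 1 := by
    funext z
    exact fderiv_apply_one_eq_deriv.symm
  rw [h2]
  exact h.clm_apply contDiffAt_const

theorem SmI.tt (hf : SmI f) : SmI (Core.tt f) := by
  have h : Core.tt f = fun y => -(1 - y ^ 2) * _root_.deriv f y := rfl
  rw [h]
  exact (((smI_const 1).sub (smI_id.pow 2)).neg).mul hf.deriv

theorem SmI.ttp (hf : SmI f) : SmI (Core.ttp f) := hf.tt.add (smI_id.mul hf)

theorem SmI.tt_iter (hf : SmI f) (j : ℕ) : SmI (Core.tt^[j] f) := by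
  induction j with
  | zero => exact hf
  | succ j ih =>
    rw [Function.iterate_succ_apply']
    exact ih.tt

/-- bounded on `[-1,1]`. -/
theorem SmI.bdd (hf : SmI f) : ∃ C : ℝ, 0 ≤ C ∧ ∀ y ∈ Icc (-1 : ℝ) 1, |f y| ≤ C := by
  obtain ⟨C, hC⟩ := isCompact_Icc.exists_bound_of_continuousOn hf.continuousOn
  refine ⟨max C 0, le_max_right _ _, fun y hy => ?_⟩
  have := hC y hy
  rw [Real.norm_eq_abs] at this
  exact this.trans (le_max_left _ _)

/-! ### rules for `tt` (pointwise) -/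

theorem tt_apply (f : ℝ → ℝ) (y : ℝ) : tt f y = -(1 - y ^ 2) * deriv f y := rfl

theorem tt_eq_Xf (f : ℝ → ℝ) (y : ℝ) : tt f y = -(Xf y) * deriv f y := rfl

theorem ttp_apply (f : ℝ → ℝ) (y : ℝ) : ttp f y = tt f y + y * f y := rfl

theorem tt_congr (h : g =ᶠ[𝓝 y] f) : tt g y = tt f y := by
  rw [tt_apply, tt_apply, h.deriv_eq]

theorem tt_const (c : ℝ) (y : ℝ) : tt (fun _ => c) y = 0 := by simp [tt_apply]

theorem tt_id (y : ℝ) : tt (fun z => z) y = -(Xf y) := by simp [tt_apply, Xf]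

theorem tt_Xf (y : ℝ) : tt Xf y = 2 * y * Xf y := by
  rw [tt_eq_Xf, (hasDerivAt_Xf y).deriv]
  ring

theorem tt_add (hf : DifferentiableAt ℝ f y) (hg : DifferentiableAt ℝ g y) :
    tt (fun z => f z + g z) y = tt f y + tt g y := by
  rw [tt_apply, tt_apply, tt_apply, deriv_fun_add hf hg]
  ring

theorem tt_sub (hf : DifferentiableAt ℝ f y) (hg : DifferentiableAt ℝ g y) :
    tt (fun z => f z - g z) y = tt f y - tt g y := by
  rw [tt_apply, tt_apply, tt_apply, deriv_fun_sub hf hg]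
  ring

theorem tt_neg (f : ℝ → ℝ) (y : ℝ) : tt (fun z => -f z) y = -tt f y := by
  rw [tt_apply, tt_apply, deriv.fun_neg]
  ring

theorem tt_mul (hf : DifferentiableAt ℝ f y) (hg : DifferentiableAt ℝ g y) :
    tt (fun z => f z * g z) y = tt f y * g y + f y * tt g y := by
  rw [tt_apply, tt_apply, tt_apply, deriv_fun_mul hf hg]
  ring

theorem tt_const_mul (c : ℝ) (hf : DifferentiableAt ℝ f y) : tt (fun z => c * f z) y = c * tt f y := by
  rw [tt_apply, tt_apply, deriv_const_mul _ hf]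
  ring

theorem tt_pow (hf : DifferentiableAt ℝ f y) (n : ℕ) :
    tt (fun z => f z ^ n) y = n * f y ^ (n - 1) * tt f y := by
  rw [tt_apply, tt_apply, deriv_fun_pow hf]
  ring

theorem tt_inv (hf : DifferentiableAt ℝ f y) (h0 : f y ≠ 0) :
    tt (fun z => (f z)⁻¹) y = -tt f y / f y ^ 2 := by
  rw [tt_apply, tt_apply, (hf.hasDerivAt.fun_inv h0).deriv]
  ring

theorem tt_div (hf : DifferentiableAt ℝ f y) (hg : DifferentiableAt ℝ g y) (h0 : g y ≠ 0) :
    tt (fun z => f z / g z) y = (tt f y * g y - f y * tt g y) / g y ^ 2 := by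
  rw [tt_apply, tt_apply, tt_apply, deriv_fun_div hf hg h0]
  ring

theorem tt_comp {φ : ℝ → ℝ} (hφ : DifferentiableAt ℝ φ (f y)) (hf : DifferentiableAt ℝ f y) :
    tt (fun z => φ (f z)) y = deriv φ (f y) * tt f y := by
  have h : deriv (fun z => φ (f z)) y = deriv φ (f y) * deriv f y := (hφ.hasDerivAt.comp y hf.hasDerivAt).deriv
  rw [tt_apply, tt_apply, h]
  ring

/-- `tt² f = X² f'' - 2 y X f'`. -/
theorem tt_tt (hf : SmI f) (hy : y ∈ Icc (-1 : ℝ) 1) :
    tt (tt f) y = (Xf y) ^ 2 * deriv (deriv f) y - 2 * y * Xf y * deriv f y := by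
  have h1 : tt f = fun z => (-(Xf z)) * deriv f z := rfl
  rw [h1, tt_mul ((smI_Xf.neg).differentiableAt hy) (hf.deriv.differentiableAt hy), tt_neg, tt_Xf, tt_eq_Xf]
  ring

/-- hygiene. -/
theorem core_w_ttcalc_hygiene : True := by
  have := @SmI.eq_1
  trivial

end

end Claimed.Agent.R324.Core
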