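/-
Row 324 (S0582), PDE core, module W (architect helper427; this file: helper217).   Blueprint 7.3, W1 (first half): calculus of `𝕀[f] = ∫_0^π f(cos ϑ) dϑ` and the integration by parts
      𝕀[F · tt G] = - 𝕀[ttp F · G],      ttp F = tt F + y F          (no boundary terms; F, G smooth near [-1,1]: class `SmI` of Core/W/TtCalc.lean).
All hypotheses are on `[-1,1]` only.   `CI f` := `ContinuousOn f (Icc (-1) 1)`.
-/
import Claimed.Agent.R324.Core.W.TtCalc

set_option autoImplicit false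

namespace Claimed.Agent.R324.Core

open Set Filter Topology MeasureTheory intervalIntegral
open scoped ContDiff

noncomputable section

/-- continuous on `[-1,1]`. -/
abbrev CI (f : ℝ → ℝ) : Prop := ContinuousOn f (Icc (-1 : ℝ) 1)

variable {f g : ℝ → ℝ}

theorem cos_mem_Icc (ϑ : ℝ) : Real.cos ϑ ∈ Icc (-1 : ℝ) 1 := ⟨Real.neg_one_le_cos ϑ, Real.cos_le_one ϑ⟩

theorem ii_continuous (hf : CI f) : Continuous (fun ϑ => f (Real.cos ϑ)) :=
  hf.comp_continuous Real.continuous_cos cos_mem_Icc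

theorem ii_integrable (hf : CI f) (a b : ℝ) : IntervalIntegrable (fun ϑ => f (Real.cos ϑ)) volume a b :=
  (ii_continuous hf).intervalIntegrable a b

theorem ii_congr (h : ∀ y ∈ Icc (-1 : ℝ) 1, f y = g y) : II f = II g := by
  unfold II
  exact integral_congr (fun ϑ _ => h _ (cos_mem_Icc ϑ))

theorem ii_add (hf : CI f) (hg : CI g) : II (fun y => f y + g y) = II f + II g := by
  unfold II
  exact integral_add (ii_integrable hf _ _) (ii_integrable hg _ _)

theorem ii_sub (hf : CI f) (hg : CI g) : II (fun y => f y - g y) = II f - II g := by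
  unfold II
  exact integral_sub (ii_integrable hf _ _) (ii_integrable hg _ _)

theorem ii_neg (f : ℝ → ℝ) : II (fun y => -f y) = -II f := by
  unfold II
  exact integral_neg

theorem ii_const_mul (c : ℝ) (f : ℝ → ℝ) : II (fun y => c * f y) = c * II f := by
  unfold II
  exact integral_const_mul c _

theorem ii_mul_const (c : ℝ) (f : ℝ → ℝ) : II (fun y => f y * c) = II f * c := by
  unfold II
  exact integral_mul_const c _

theorem ii_const (c : ℝ) : II (fun _ => c) = Real.pi * c := by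
  unfold II
  simp

theorem ii_sum {ι : Type} (s : Finset ι) {F : ι → ℝ → ℝ} (h : ∀ k ∈ s, CI (F k)) :
    II (fun y => ∑ k ∈ s, F k y) = ∑ k ∈ s, II (F k) := by
  unfold II
  exact integral_finsetSum (fun k hk => ii_integrable (h k hk) _ _)

theorem ii_mono (hf : CI f) (hg : CI g) (h : ∀ y ∈ Icc (-1 : ℝ) 1, f y ≤ g y) : II f ≤ II g := by
  unfold II
  exact integral_mono_on Real.pi_pos.le (ii_integrable hf _ _) (ii_integrable hg _ _)
    (fun ϑ _ => h _ (cos_mem_Icc ϑ))

theorem ii_nonneg (h : ∀ y ∈ Icc (-1 : ℝ) 1, 0 ≤ f y) : 0 ≤ II f := by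
  unfold II
  exact integral_nonneg Real.pi_pos.le (fun ϑ _ => h _ (cos_mem_Icc ϑ))

theorem ii_abs_le (f : ℝ → ℝ) : |II f| ≤ II (fun y => |f y|) := by
  unfold II
  exact abs_integral_le_integral_abs Real.pi_pos.le

/-- `d/dϑ [sin ϑ F(cos ϑ)] = (ttp F)(cos ϑ)`. -/
theorem ii_hasDerivAt {F : ℝ → ℝ} (hF : SmI F) (ϑ : ℝ) :
    HasDerivAt (fun s => Real.sin s * F (Real.cos s)) (ttp F (Real.cos ϑ)) ϑ := by
  have h1 : HasDerivAt F (deriv F (Real.cos ϑ)) (Real.cos ϑ) :=
    (hF.differentiableAt (cos_mem_Icc ϑ)).hasDerivAt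
  have h2 : HasDerivAt (fun s => F (Real.cos s)) (deriv F (Real.cos ϑ) * (-Real.sin ϑ)) ϑ :=
    h1.comp ϑ (Real.hasDerivAt_cos ϑ)
  have h3 := (Real.hasDerivAt_sin ϑ).mul h2
  have e : ttp F (Real.cos ϑ)
      = Real.cos ϑ * F (Real.cos ϑ) + Real.sin ϑ * (deriv F (Real.cos ϑ) * (-Real.sin ϑ)) := by
    rw [ttp_apply, tt_apply]
    have := Real.sin_sq_add_cos_sq ϑ
    have h4 : 1 - Real.cos ϑ ^ 2 = Real.sin ϑ ^ 2 := by linarith
    rw [h4]
    ring
  rw [e]
  exact h3

/-- `𝕀[ttp F] = 0`. -/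
theorem ii_ttp {F : ℝ → ℝ} (hF : SmI F) : II (ttp F) = 0 := by
  unfold II
  rw [integral_eq_sub_of_hasDerivAt (fun ϑ _ => ii_hasDerivAt hF ϑ) (ii_integrable hF.ttp.continuousOn _ _)]
  simp

/-- **integration by parts.** -/
theorem ii_ibp {F G : ℝ → ℝ} (hF : SmI F) (hG : SmI G) :
    II (fun y => F y * tt G y) = -II (fun y => ttp F y * G y) := by
  have h := ii_ttp (hF.mul hG)
  have e : II (ttp (fun y => F y * G y)) = II (fun y => ttp F y * G y + F y * tt G y) := by
    refine ii_congr (fun y hy => ?_)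
    rw [ttp_apply, ttp_apply, tt_mul (hF.differentiableAt hy) (hG.differentiableAt hy)]
    ring
  rw [e, ii_add (hF.ttp.mul hG).continuousOn (hF.mul hG.tt).continuousOn] at h
  linarith

/-- `𝕀[F f tt f] = -½ 𝕀[ttp F f²]`. -/
theorem ii_ibp_sq {F G : ℝ → ℝ} (hF : SmI F) (hG : SmI G) :
    II (fun y => F y * G y * tt G y) = -(1 / 2) * II (fun y => ttp F y * G y ^ 2) := by
  have h := ii_ibp hF (hG.pow 2)
  have e : II (fun y => F y * tt (fun z => G z ^ 2) y) = 2 * II (fun y => F y * G y * tt G y) := by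
    rw [← ii_const_mul]
    refine ii_congr (fun y hy => ?_)
    rw [tt_pow (hG.differentiableAt hy)]
    push_cast
    ring
  rw [e] at h
  linarith

end

end Claimed.Agent.R324.Core
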