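/-
Row 324 (S0582), PDE core, module W (architect helper427; W0, WC, W1, W2: helper217).   Blueprint 7.3 (origin/helper232:docs/R324_blueprint.md).   FILE WtA
   Λ = -t,  X = Xf y = 1 - y²,  X̃ = Xt y,  ℓ² = ell2 q t = (q-1)/100 Λ^(2γ),  γ = gaF q = 8/bAl q,  2 < bAl q < 3 (`bAl_bounds`, q ≥ 100),  r̂² = rh2 = ℓ² + X̃,  Θ = Th = Λ + X̃   (Core/Defs.lean).
   tt f = -X f',  ttp f = tt f + y f;   pointwise rules and the class `SmI` (smooth near [-1,1]): Core/W/TtCalc.lean.     𝕀 = II: Core/W/Ibp.lean.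
W0 (a).   ALREADY AVAILABLE (Core/AP/Cal/ClsA.lean, sorry-free): `Xt_eq` (y ≥ 1/2 ⟹ Xt y = Xf y), `Xt_mem` (-1 ≤ y ≤ 1/2 ⟹ 3/4 ≤ Xt y ≤ 1), `Xt_nonneg` (|y| ≤ 1 ⟹ 0 ≤ Xt y ≤ 1).
* `w0_sgY_N`, `w0_sgY_S`: `Real.smoothTransition.one_of_one_le`, `Real.smoothTransition.zero_of_nonpos`; unfold sgY; ring.     `w0_Xt_S`: unfold Xt; norm_num.
* `w0_contDiff_Xt`: `Real.smoothTransition.contDiff` composed with 2y; products, sums.
* `w0_Xf_le_Xt`: y ≥ 1/2: equality (`Xt_eq`) and X ≥ 0;  y ≤ 1/2: X ≤ 1 ≤ (4/3)(3/4) (`Xt_mem`).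
-/
import Claimed.Agent.R324.Core.W.Ibp
import Claimed.Agent.R324.Core.AP.Cal.Cls
import Claimed.Agent.R324.Bohm.Alpha

set_option autoImplicit false

namespace Claimed.Agent.R324.Core

open Set Filter Topology MeasureTheory
open scoped ContDiff

noncomputable section

variable {q Γ t y : ℝ} {a M : ℕ}

/-! ### (a) -/

theorem w0_sgY_N (hy : 1 / 2 ≤ y) : sgY y = y := by
  unfold sgY
  rw [Real.smoothTransition.one_of_one_le (by linarith)]
  ring

theorem w0_sgY_S (hy : y ≤ 0) : sgY y = 1 / 4 := by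
  unfold sgY
  rw [Real.smoothTransition.zero_of_nonpos (by linarith)]
  ring

theorem w0_Xt_S (hy : y ≤ 0) : Xt y = 15 / 16 := by
  unfold Xt
  rw [w0_sgY_S hy]
  norm_num

theorem w0_contDiff_Xt : ContDiff ℝ ∞ Xt := by
  have h1 : ContDiff ℝ ∞ (fun y : ℝ => Real.smoothTransition (2 * y)) :=
    Real.smoothTransition.contDiff.comp (contDiff_const.mul contDiff_id)
  have h2 : ContDiff ℝ ∞ sgY := by
    unfold sgY
    exact contDiff_const.add ((contDiff_id.sub contDiff_const).mul h1)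
  unfold Xt
  exact contDiff_const.sub (h2.pow 2)

theorem w0_Xf_nonneg (hy : y ∈ Icc (-1 : ℝ) 1) : 0 ≤ Xf y := by
  unfold Xf
  nlinarith [hy.1, hy.2]

theorem w0_Xf_le_one (y : ℝ) : Xf y ≤ 1 := by
  unfold Xf
  nlinarith [sq_nonneg y]

theorem w0_Xf_le_Xt (hy : y ∈ Icc (-1 : ℝ) 1) : Xf y ≤ 4 / 3 * Xt y := by
  rcases le_total y (1 / 2) with h | h
  · have h1 := (Xt_mem h hy.1).1
    have h2 := w0_Xf_le_one y
    linarith
  · rw [Xt_eq h]
    have h0 := w0_Xf_nonneg hy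
    linarith

end

end Claimed.Agent.R324.Core
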