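/-
Row 324 (S0582), PDE core, module W (architect helper427; W0, WC, W1, W2: helper217).   Blueprint 7.3 (origin/helper232:docs/R324_blueprint.md).   FILE WtB
   Λ = -t,  X = Xf y = 1 - y²,  X̃ = Xt y,  ℓ² = ell2 q t = (q-1)/100 Λ^(2γ),  γ = gaF q = 8/bAl q,  2 < bAl q < 3 (`bAl_bounds`, q ≥ 100),  r̂² = rh2 = ℓ² + X̃,  Θ = Th = Λ + X̃   (Core/Defs.lean).
   tt f = -X f',  ttp f = tt f + y f;   pointwise rules and the class `SmI` (smooth near [-1,1]): Core/W/TtCalc.lean.     𝕀 = II: Core/W/Ibp.lean.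
W0 (b), (e).   The threshold of module W is EXPLICIT:   Λ ≤ 100/q   (then ℓ² ≤ Λ).
* `w0_ell2_pos`: unfold ell2 lam2; `Real.rpow_pos_of_pos`.
* `w0_ell2_le`: Λ ≤ 1, 2γ = 16/α ≥ 2 (α < 3) ⟹ Λ^(2γ) ≤ Λ^2 (`Real.rpow_le_rpow_of_exponent_ge`, `Real.rpow_natCast`);  (q-1)/100 Λ² ≤ Λ since (q-1)/100 Λ ≤ (q-1)/q ≤ 1.
* `w0_wH_le_wL`, `w0_wL_le_wH`:   wL = wH * ((1+Γ)Λ + X̃)/Θ  and  Θ ≤ (1+Γ)Λ + X̃ ≤ (1+Γ) Θ   (X̃ ≥ 0, Λ > 0, Γ ≥ 0);   `div_le_div_iff_of_pos`/`le_div_iff₀`, pow_succ.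
-/
import Claimed.Agent.R324.Core.W.WtA

set_option autoImplicit false

namespace Claimed.Agent.R324.Core

open Set Filter Topology MeasureTheory
open scoped ContDiff

noncomputable section

variable {q Γ t y : ℝ} {a M : ℕ}

/-! ### (b) -/

theorem w0_ell2_pos (hq : 1 < q) (ht : t < 0) : 0 < ell2 q t := by
  unfold ell2 lam2
  have h1 : 0 < (-t) ^ (2 * gaF q) := Real.rpow_pos_of_pos (by linarith) _
  have h2 : 0 < (q - 1) / 100 := by linarith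
  exact mul_pos h2 h1

theorem w0_ell2_le (hq : 100 ≤ q) (ht : t < 0) (hΛ : -t ≤ 100 / q) : ell2 q t ≤ -t := by
  obtain ⟨ha2, ha3⟩ := bAl_bounds hq
  have hq0 : 0 < q := by linarith
  have hL0 : 0 < -t := by linarith
  have hL1 : -t ≤ 1 := hΛ.trans (by rw [div_le_one hq0]; exact hq)
  have hg : (2 : ℝ) ≤ 2 * gaF q := by
    unfold gaF
    have : 1 ≤ 8 / bAl q := by
      rw [le_div_iff₀ (by linarith)]
      linarith
    linarith
  have h1 : (-t) ^ (2 * gaF q) ≤ (-t) ^ (2 : ℝ) := Real.rpow_le_rpow_of_exponent_ge hL0 hL1 hg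
  have h2 : (-t) ^ (2 : ℝ) = (-t) ^ 2 := by
    rw [← Real.rpow_natCast]
    norm_num
  rw [h2] at h1
  have h3 : q * (-t) ≤ 100 := by
    rw [le_div_iff₀ hq0] at hΛ
    linarith
  have h4 : (q - 1) / 100 * (-t) ≤ 1 := by nlinarith
  have h5 : 0 ≤ (q - 1) / 100 := by linarith
  unfold ell2 lam2
  calc (q - 1) / 100 * (-t) ^ (2 * gaF q) ≤ (q - 1) / 100 * (-t) ^ 2 := mul_le_mul_of_nonneg_left h1 h5
    _ = ((q - 1) / 100 * (-t)) * (-t) := by ring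
    _ ≤ 1 * (-t) := mul_le_mul_of_nonneg_right h4 hL0.le
    _ = -t := one_mul _

theorem w0_rh2_pos (hq : 1 < q) (ht : t < 0) (hy : y ∈ Icc (-1 : ℝ) 1) : 0 < rh2 q t y := by
  have := (Xt_nonneg hy.1 hy.2).1
  have := w0_ell2_pos hq ht
  unfold rh2
  linarith

theorem w0_Th_pos (ht : t < 0) (hy : y ∈ Icc (-1 : ℝ) 1) : 0 < Th t y := by
  have := (Xt_nonneg hy.1 hy.2).1
  unfold Th
  linarith

theorem w0_rh2_le_Th (hq : 100 ≤ q) (ht : t < 0) (hΛ : -t ≤ 100 / q) (y : ℝ) : rh2 q t y ≤ Th t y := by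
  have := w0_ell2_le hq ht hΛ
  unfold rh2 Th
  linarith

theorem w0_Th_le_two (ht : -1 ≤ t) (hy : y ∈ Icc (-1 : ℝ) 1) : Th t y ≤ 2 := by
  have := (Xt_nonneg hy.1 hy.2).2
  unfold Th
  linarith

theorem w0_Lam_le_Th (hy : y ∈ Icc (-1 : ℝ) 1) : -t ≤ Th t y := by
  have := (Xt_nonneg hy.1 hy.2).1
  unfold Th
  linarith

theorem w0_Xf_le_rh2 (hq : 1 < q) (ht : t < 0) (hy : y ∈ Icc (-1 : ℝ) 1) : Xf y ≤ 4 / 3 * rh2 q t y := by
  have := w0_Xf_le_Xt hy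
  have := w0_ell2_pos hq ht
  unfold rh2
  linarith

theorem w0_Xf_le_Th (ht : t < 0) (hy : y ∈ Icc (-1 : ℝ) 1) : Xf y ≤ 4 / 3 * Th t y := by
  have := w0_Xf_le_Xt hy
  unfold Th
  linarith

/-! ### (e) -/

theorem w0_wL_add_two (a M : ℕ) (q Γ t y : ℝ) : wL (a + 2) M q Γ t y = (rh2 q t y) ^ 2 * wL a M q Γ t y := by
  unfold wL
  ring

theorem w0_wH_add (a b M : ℕ) (q t y : ℝ) : wH (a + b) M q t y = (rh2 q t y) ^ b * wH a M q t y := by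
  unfold wH
  ring

theorem w0_wL_Th (ht : t < 0) (hy : y ∈ Icc (-1 : ℝ) 1) :
    wL a M q Γ t y = (Th t y) ^ 2 * wL a (M + 2) q Γ t y := by
  have := (w0_Th_pos ht hy).ne'
  unfold wL
  field_simp
  ring

theorem w0_wH_Th (b : ℕ) (ht : t < 0) (hy : y ∈ Icc (-1 : ℝ) 1) :
    wH a M q t y = (Th t y) ^ b * wH a (M + b) q t y := by
  have := (w0_Th_pos ht hy).ne'
  unfold wH
  field_simp
  ring

theorem w0_wH_pos (hq : 1 < q) (ht : t < 0) (hy : y ∈ Icc (-1 : ℝ) 1) : 0 < wH a M q t y := by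
  have := w0_Th_pos ht hy
  have := w0_rh2_pos hq ht hy
  unfold wH
  positivity

theorem w0_wH_le_wL (hq : 1 < q) (hΓ : 0 ≤ Γ) (ht : t < 0) (hy : y ∈ Icc (-1 : ℝ) 1) :
    wH a M q t y ≤ wL a M q Γ t y := by
  have hT := w0_Th_pos ht hy
  have hr := w0_rh2_pos hq ht hy
  have hX := (Xt_nonneg hy.1 hy.2).1
  have h1 : Th t y ≤ (1 + Γ) * (-t) + Xt y := by
    unfold Th
    nlinarith
  unfold wH wL
  rw [div_le_div_iff₀ (by positivity) (by positivity), pow_succ]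
  have h2 : 0 ≤ rh2 q t y ^ a * Th t y ^ M := by positivity
  nlinarith [mul_le_mul_of_nonneg_left h1 h2]

theorem w0_wL_le_wH (hq : 1 < q) (hΓ : 0 ≤ Γ) (ht : t < 0) (hy : y ∈ Icc (-1 : ℝ) 1) :
    wL a M q Γ t y ≤ (1 + Γ) * wH a M q t y := by
  have hT := w0_Th_pos ht hy
  have hr := w0_rh2_pos hq ht hy
  have hX := (Xt_nonneg hy.1 hy.2).1
  have h1 : (1 + Γ) * (-t) + Xt y ≤ (1 + Γ) * Th t y := by
    unfold Th
    nlinarith
  unfold wH wL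
  rw [← mul_div_assoc, div_le_div_iff₀ (by positivity) (by positivity), pow_succ]
  have h2 : 0 ≤ rh2 q t y ^ a * Th t y ^ M := by positivity
  nlinarith [mul_le_mul_of_nonneg_left h1 h2]

theorem w0_wL_pos (hq : 1 < q) (hΓ : 0 ≤ Γ) (ht : t < 0) (hy : y ∈ Icc (-1 : ℝ) 1) : 0 < wL a M q Γ t y :=
  (w0_wH_pos hq ht hy).trans_le (w0_wH_le_wL hq hΓ ht hy)

end

end Claimed.Agent.R324.Core
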