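/-
Row 324 (S0582), PDE core, module W (architect helper427; W0, WC, W1, W2: helper217).   Blueprint 7.3 (origin/helper232:docs/R324_blueprint.md).   FILE SR
   Λ = -t,  X = Xf y = 1 - y²,  X̃ = Xt y,  ℓ² = ell2 q t = (q-1)/100 Λ^(2γ),  γ = gaF q = 8/bAl q,  2 < bAl q < 3 (`bAl_bounds`, q ≥ 100),  r̂² = rh2 = ℓ² + X̃,  Θ = Th = Λ + X̃   (Core/Defs.lean).
   tt f = -X f',  ttp f = tt f + y f;   pointwise rules and the class `SmI` (smooth near [-1,1]): Core/W/TtCalc.lean.     𝕀 = II: Core/W/Ibp.lean.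
WC, step 0: the symbol classes of module W, on top of the symbol calculus of module AP (Core/AP/Cal/*.lean, architect helper263):
      TS q D m n ϱ f :  Sm f  and  |∂_y^j ∂_t^i f| ≤ C ϱ Θ^{-i} r̂^{-2j} on D, i ≤ m, j ≤ n;       wt q a b c = (r̂^{-α})^a Θ^b (r̂²)^c.
      DW Λ₀ = [-Λ₀,0) × [-1,1],       SR q Λ₀ n c f := TS q (DW Λ₀) 2 n (wt q 0 0 c) f        ("symbol of order (r̂²)^c, two time derivatives, n y-derivatives").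
-/
import Claimed.Agent.R324.Core.AP.Cal.Conv
import Claimed.Agent.R324.Core.W.Wt

set_option autoImplicit false

namespace Claimed.Agent.R324.Core

open Set Filter Topology MeasureTheory
open scoped ContDiff

noncomputable section

/-- the domain of module W. -/
abbrev DW (Λ₀ : ℝ) : Set (ℝ × ℝ) := Dm Λ₀ (Icc (-1 : ℝ) 1)

/-- symbols of order `(r̂²)^c`. -/
abbrev SR (q Λ₀ : ℝ) (n : ℕ) (c : ℤ) (f : Fn) : Prop := TS q (DW Λ₀) 2 n (wt q 0 0 c) f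

variable {q Λ₀ : ℝ} {n n' : ℕ} {c c' : ℤ} {f g : Fn}

theorem domOK_DW (hΛ : Λ₀ ≤ 1) : DomOK (DW Λ₀) := domOK_Dm hΛ subset_rfl

theorem mem_DW {t y : ℝ} (ht : t ∈ Ico (-Λ₀) 0) (hy : y ∈ Icc (-1 : ℝ) 1) : (t, y) ∈ DW Λ₀ := ⟨ht, hy⟩

theorem sr_add (hΛ : Λ₀ ≤ 1) (hf : SR q Λ₀ n c f) (hg : SR q Λ₀ n c g) : SR q Λ₀ n c (fun p => f p + g p) :=
  TS.add (domOK_DW hΛ) hf hg

theorem sr_sub (hΛ : Λ₀ ≤ 1) (hf : SR q Λ₀ n c f) (hg : SR q Λ₀ n c g) : SR q Λ₀ n c (fun p => f p - g p) :=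
  TS.sub (domOK_DW hΛ) hf hg

theorem sr_neg (hΛ : Λ₀ ≤ 1) (hf : SR q Λ₀ n c f) : SR q Λ₀ n c (fun p => -f p) :=
  TS.neg (domOK_DW hΛ) hf

theorem sr_const_mul (hΛ : Λ₀ ≤ 1) (a : ℝ) (hf : SR q Λ₀ n c f) : SR q Λ₀ n c (fun p => a * f p) :=
  TS.const_mul (domOK_DW hΛ) a hf

theorem sr_div_const (hΛ : Λ₀ ≤ 1) (hf : SR q Λ₀ n c f) (a : ℝ) : SR q Λ₀ n c (fun p => f p / a) := by
  have h := sr_const_mul hΛ a⁻¹ hf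
  have e : (fun p => f p / a) = fun p => a⁻¹ * f p := by
    funext p
    rw [div_eq_mul_inv, mul_comm]
  rw [e]
  exact h

theorem sr_mul (hq : 100 ≤ q) (hΛ : Λ₀ ≤ 1) (hf : SR q Λ₀ n c f) (hg : SR q Λ₀ n c' g) :
    SR q Λ₀ n (c + c') (fun p => f p * g p) := by
  have h := TS.mul_wt hq (domOK_DW hΛ) hf hg
  simpa using h

theorem sr_pow (hq : 100 ≤ q) (hΛ : Λ₀ ≤ 1) (hf : SR q Λ₀ n c f) (k : ℕ) :
    SR q Λ₀ n (k * c) (fun p => f p ^ k) := by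
  induction k with
  | zero =>
    have h : SR q Λ₀ n 0 (fun _ => (1 : ℝ)) := TS.one_wt.1 (TS.const 1)
    have e1 : (((0 : ℕ) : ℤ) * c) = 0 := by simp
    have e2 : (fun p => f p ^ 0) = fun _ => (1 : ℝ) := by
      funext p
      exact pow_zero _
    rw [e1, e2]
    exact h
  | succ k ih =>
    have h := sr_mul hq hΛ ih hf
    have e1 : (((k + 1 : ℕ) : ℤ) * c) = k * c + c := by push_cast; ring
    have e2 : (fun p => f p ^ (k + 1)) = fun p => f p ^ k * f p := by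
      funext p
      exact pow_succ _ _
    rw [e1, e2]
    exact h

/-- lowering the order (`r̂² ≤ K`). -/
theorem sr_le (hq : 100 ≤ q) (hΛ : Λ₀ ≤ 1) (hc : c' ≤ c) (hf : SR q Λ₀ n c f) : SR q Λ₀ n c' f :=
  TS.le_wt hq (domOK_DW hΛ) le_rfl hc (by simp; linarith) hf

theorem sr_of_le (hn : n' ≤ n) (hf : SR q Λ₀ n c f) : SR q Λ₀ n' c f := TS.of_le le_rfl hn hf

theorem sr_dY (hq : 100 ≤ q) (hΛ : Λ₀ ≤ 1) (hf : SR q Λ₀ (n + 1) c f) : SR q Λ₀ n (c - 1) (dY f) :=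
  TS.dY_wt hq (domOK_DW hΛ) hf

theorem sr_const (a : ℝ) : SR q Λ₀ n 0 (fun _ => a) := TS.one_wt.1 (TS.const a)

theorem sr_yfun (hq : 100 ≤ q) (hΛ : Λ₀ ≤ 1) {φ : ℝ → ℝ} (hφ : ContDiff ℝ ∞ φ) : SR q Λ₀ n 0 (fun p => φ p.2) :=
  TS.one_wt.1 (TS.yfun hq (domOK_DW hΛ) hφ)

theorem sr_y (hq : 100 ≤ q) (hΛ : Λ₀ ≤ 1) : SR q Λ₀ n 0 (fun p => p.2) := sr_yfun hq hΛ contDiff_id

theorem sr_X (hq : 100 ≤ q) (hΛ : Λ₀ ≤ 1) : SR q Λ₀ n 1 (fun p => Xf p.2) := TS.X_rh hq (domOK_DW hΛ)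

theorem sr_of_Th (hq : 100 ≤ q) (hΛ : Λ₀ ≤ 1) (hf : TS q (DW Λ₀) 2 n (wt q 0 (-1) 0) f) : SR q Λ₀ n (-1) f :=
  TS.le_wt hq (domOK_DW hΛ) le_rfl (by norm_num) (by norm_num) hf

theorem sr_subset {Λ₁ : ℝ} (h : Λ₁ ≤ Λ₀) (hf : SR q Λ₀ n c f) : SR q Λ₁ n c f :=
  have hs : DW Λ₁ ⊆ DW Λ₀ := fun p hp => ⟨⟨by linarith [hp.1.1], hp.1.2⟩, hp.2⟩
  TS.subset hs hf

theorem sr_congr (hΛ : Λ₀ ≤ 1) (h : ∀ t < 0, ∀ y, f (t, y) = g (t, y)) (hg : SR q Λ₀ n c g) : SR q Λ₀ n c f :=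
  TS.congr (domOK_DW hΛ) h hg

/-- `1/f` for `f ≥ c₀ > 0` of order 0. -/
theorem sr_inv (hΛ : Λ₀ ≤ 1) (h0 : ∀ t < 0, ∀ y, f (t, y) ≠ 0) (hf : SR q Λ₀ n 0 f) {c₀ : ℝ} (hc : 0 < c₀)
    (hlow : ∀ p ∈ DW Λ₀, c₀ ≤ f p) : SR q Λ₀ n 0 (fun p => (f p)⁻¹) := by
  have h1 : TS q (DW Λ₀) 2 n (fun _ => 1) f := TS.one_wt.2 hf
  have h2 := TS.inv (domOK_DW hΛ) h0 h1 hc (fun _ _ => one_pos) (fun p hp => by rw [mul_one]; exact hlow p hp)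
  exact TS.one_wt.1 (TS.congr_wt (fun p _ => by norm_num) h2)

/-- pointwise bound of a symbol. -/
theorem sr_bd0 (hf : SR q Λ₀ n 0 f) : ∃ K : ℝ, 0 ≤ K ∧ ∀ p ∈ DW Λ₀, |f p| ≤ K := by
  obtain ⟨K, hK, h⟩ := hf.bd.bd0
  refine ⟨K, hK, fun p hp => ?_⟩
  have := h p hp
  rwa [wt_zero, mul_one] at this

end

end Claimed.Agent.R324.Core
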