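/-
Row 324 (S0582), PDE core, module W (architect helper427; W0, WC, W1, W2: helper217).   Blueprint 7.3 (origin/helper232:docs/R324_blueprint.md).   FILE CoefA
   Λ = -t,  X = Xf y = 1 - y²,  X̃ = Xt y,  ℓ² = ell2 q t = (q-1)/100 Λ^(2γ),  γ = gaF q = 8/bAl q,  2 < bAl q < 3 (`bAl_bounds`, q ≥ 100),  r̂² = rh2 = ℓ² + X̃,  Θ = Th = Λ + X̃   (Core/Defs.lean).
   tt f = -X f',  ttp f = tt f + y f;   pointwise rules and the class `SmI` (smooth near [-1,1]): Core/W/TtCalc.lean.     𝕀 = II: Core/W/Ibp.lean.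
WC, step 1: the hypotheses `BgSym`, `BgSymT` (Core/Bgd.lean) with common constants (`SymD`);  conversion `SymC` ⟶ `TY`.
      DW Λ₀ = [-Λ₀,0) × [-1,1],   SR q Λ₀ n c f := TS q (DW Λ₀) 2 n (wt q 0 0 c) f   (Core/W/SR.lean: sr_add, sr_sub, sr_neg, sr_const_mul, sr_div_const, sr_mul, sr_pow, sr_le, sr_of_le, sr_dY, sr_const, sr_y, sr_X, sr_inv, sr_congr, …).
      TS, TY, Bd, wt: Core/AP/Cal/*.lean (`TY_succ_iff`, `TY_zero_succ_iff`, `TY.mul`, `TY.congr`, `TY.congr_wt`, `TY.mono_wt`, …).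
* `SymC.mono_Lam`: restriction (Ico (-Λ₁) 0 ⊆ Ico (-Λ₀) 0).       `SymC.congr_wt`: rewrite.      (`SymC.mono_C`, `SymC.mono_N`: Core/AP/Cal/Conv.lean.)
* `wc_ty_of_symC`:  unfold TY Bd;  for i ≤ m, j ≤ n take C from `h i hi`, constant |C|;   `iteratedDeriv_sl` (PR/Sm.lean):  iteratedDeriv j (sl F t) y = dY^[j] F (t,y);    C * (ϱ/Θ^i)/R^j ≤ |C| * (ϱ/(Θ^i R^j)) (`div_div`, `le_abs_self`, ϱ ≥ 0, Θ, R > 0: `Th_pos_dom`, `rh2_pos_dom`).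
* `wc_symD`:  obtain ⟨Λ₁, C₁, ..⟩ := h1, ⟨Λ₂, C₂, ..⟩ := h2;   Λ₀ := min (min Λ₁ Λ₂) (100/q),  C := max C₁ C₂.    C₁ > 0:  the bound of exp(-w) at j = 0, t = -Λ₁/2.. (any point), y = 0:  0 < exp(-w) ≤ C₁ * (1/R)/R^0 and R > 0.
       `SymC.mono_C` needs the weights ≥ 0 and Λ₀ ≤ 1 (100/q ≤ 1).     low: 1/C ≤ 1/C₁ (`one_div_le_one_div_of_le`).
-/
import Claimed.Agent.R324.Core.W.SR

set_option autoImplicit false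

namespace Claimed.Agent.R324.Core

open Set Filter Topology MeasureTheory
open scoped ContDiff

noncomputable section

variable {q Λ₀ Λ₁ C : ℝ} {N m n : ℕ} {σ σ' : ℝ → ℝ → ℝ} {ϱ f : Fn} {g : Bg}

theorem SymC.mono_Lam (h : Λ₁ ≤ Λ₀) (hf : SymC q Λ₀ C N σ f) : SymC q Λ₁ C N σ f :=
  fun t ht y hy j hj => hf t ⟨by linarith [ht.1], ht.2⟩ y hy j hj

theorem SymC.congr_wt (h : ∀ t ∈ Ico (-Λ₀) 0, ∀ y ∈ Icc (-1 : ℝ) 1, σ t y = σ' t y) (hf : SymC q Λ₀ C N σ f) :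
    SymC q Λ₀ C N σ' f :=
  fun t ht y hy j hj => h t ht y hy ▸ hf t ht y hy j hj

/-- from `SymC` (one statement for each number of time derivatives) to `TY`. -/
theorem wc_ty_of_symC (hq : 100 ≤ q) (hΛ : Λ₀ ≤ 1) (h0 : ∀ p ∈ DW Λ₀, 0 ≤ ϱ p)
    (h : ∀ i ≤ m, ∃ C : ℝ, SymC q Λ₀ C n (fun t y => ϱ (t, y) / (Th t y) ^ i) (dT^[i] f)) :
    TY q (DW Λ₀) m n ϱ f := by
  intro i hi j hj
  obtain ⟨C, hC⟩ := h i hi
  have hD := domOK_DW hΛ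
  refine ⟨|C|, abs_nonneg C, ?_⟩
  rintro ⟨t, y⟩ hp
  have h1 := hC t hp.1 y hp.2 j hj
  rw [iteratedDeriv_sl] at h1
  have hw : 0 ≤ ϱ (t, y) / ((Th t y) ^ i * (rh2 q t y) ^ j) :=
    div_nonneg (h0 _ hp) (ap_wt_pos (by linarith) hD hp i j).le
  calc |dY^[j] (dT^[i] f) (t, y)| ≤ C * (ϱ (t, y) / (Th t y) ^ i) / (rh2 q t y) ^ j := h1
    _ = C * (ϱ (t, y) / ((Th t y) ^ i * (rh2 q t y) ^ j)) := by
        rw [← div_div, mul_div_assoc]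
    _ ≤ |C| * (ϱ (t, y) / ((Th t y) ^ i * (rh2 q t y) ^ j)) :=
        mul_le_mul_of_nonneg_right (le_abs_self C) hw

/-- `BgSym` and `BgSymT` with common constants. -/
structure SymD (q : ℝ) (g : Bg) (Λ₀ C : ℝ) : Prop where
  B0 : SymC q Λ₀ C 8 (fun t y => 1 / rh2 q t y) g.B
  w0 : SymC q Λ₀ C 8 (fun t y => 1 / rh2 q t y) (dY g.w)
  e0 : SymC q Λ₀ C 8 (fun t y => 1 / rh2 q t y) (fun p => Real.exp (-g.w p))
  W0 : SymC q Λ₀ C 8 (fun t y => 1 / Th t y) g.W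
  low : ∀ t ∈ Ico (-Λ₀) 0, ∀ y ∈ Icc (-1 : ℝ) 1, 1 / C ≤ 1 + Xf y * g.B (t, y)
  BT : ∀ i : ℕ, 1 ≤ i → i ≤ 2 → SymC q Λ₀ C 6 (fun t y => 1 / (rh2 q t y * (Th t y) ^ i)) (dT^[i] g.B)
  wT : ∀ i : ℕ, 1 ≤ i → i ≤ 2 → SymC q Λ₀ C 6 (fun t y => 1 / (Th t y) ^ i) (dT^[i] g.w)
  WT : ∀ i : ℕ, 1 ≤ i → i ≤ 2 → SymC q Λ₀ C 6 (fun t y => 1 / (Th t y) ^ (i + 1)) (dT^[i] g.W)

theorem wc_symD (hq : 100 ≤ q) (h1 : BgSym q g) (h2 : BgSymT q g) :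
    ∃ Λ₀ C : ℝ, 0 < Λ₀ ∧ Λ₀ ≤ 100 / q ∧ 0 < C ∧ SymD q g Λ₀ C := by
  obtain ⟨Λ₁, C₁, hΛ₁, hB, hw, he, hW, hlow⟩ := h1
  obtain ⟨Λ₂, C₂, hΛ₂, hT⟩ := h2
  have hq0 : (0 : ℝ) < q := by linarith
  have hq1 : 100 / q ≤ 1 := by
    rw [div_le_one hq0]
    exact hq
  have hq2 : 0 < 100 / q := by positivity
  set Λ₀ : ℝ := min (min Λ₁ Λ₂) (100 / q) with hΛ₀
  have hpos : 0 < Λ₀ := lt_min (lt_min hΛ₁ hΛ₂) hq2
  have hle1 : Λ₀ ≤ Λ₁ := (min_le_left _ _).trans (min_le_left _ _)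
  have hle2 : Λ₀ ≤ Λ₂ := (min_le_left _ _).trans (min_le_right _ _)
  have hle3 : Λ₀ ≤ 100 / q := min_le_right _ _
  have hΛ : Λ₀ ≤ 1 := hle3.trans hq1
  have hD := domOK_DW hΛ
  have hR : ∀ t ∈ Ico (-Λ₀) 0, ∀ y ∈ Icc (-1 : ℝ) 1, 0 < rh2 q t y := fun t ht y hy =>
    rh2_pos_dom (by linarith) hD (p := (t, y)) ⟨ht, hy⟩
  have hTh : ∀ t ∈ Ico (-Λ₀) 0, ∀ y ∈ Icc (-1 : ℝ) 1, 0 < Th t y := fun t ht y hy =>
    Th_pos_dom hD (p := (t, y)) ⟨ht, hy⟩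
  -- positivity of `C₁`
  have hC₁ : 0 < C₁ := by
    have ht : (-Λ₀ : ℝ) ∈ Ico (-Λ₀) 0 := ⟨le_rfl, by linarith⟩
    have ht1 : (-Λ₀ : ℝ) ∈ Ico (-Λ₁) 0 := ⟨by linarith, by linarith⟩
    have hy : (0 : ℝ) ∈ Icc (-1 : ℝ) 1 := ⟨by norm_num, by norm_num⟩
    have h3 := he (-Λ₀) ht1 0 hy 0 (Nat.zero_le _)
    have hR0 := hR _ ht 0 hy
    simp only [iteratedDeriv_zero, sl, pow_zero, div_one] at h3
    rw [abs_of_pos (Real.exp_pos _)] at h3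
    have h4 : 0 < C₁ * (1 / rh2 q (-Λ₀) 0) := lt_of_lt_of_le (Real.exp_pos _) h3
    have h5 : 0 < 1 / rh2 q (-Λ₀) 0 := by positivity
    exact (pos_iff_pos_of_mul_pos h4).2 h5
  set C : ℝ := max C₁ C₂ with hC
  have hC1 : C₁ ≤ C := le_max_left _ _
  have hC2 : C₂ ≤ C := le_max_right _ _
  have hCpos : 0 < C := lt_of_lt_of_le hC₁ hC1
  refine ⟨Λ₀, C, hpos, hle3, hCpos, ?_⟩
  refine ⟨?_, ?_, ?_, ?_, ?_, ?_, ?_, ?_⟩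
  · exact SymC.mono_C hq hΛ (fun t ht y hy => (one_div_pos.2 (hR t ht y hy)).le) hC1
      (SymC.mono_Lam hle1 hB)
  · exact SymC.mono_C hq hΛ (fun t ht y hy => (one_div_pos.2 (hR t ht y hy)).le) hC1
      (SymC.mono_Lam hle1 hw)
  · exact SymC.mono_C hq hΛ (fun t ht y hy => (one_div_pos.2 (hR t ht y hy)).le) hC1
      (SymC.mono_Lam hle1 he)
  · exact SymC.mono_C hq hΛ (fun t ht y hy => (one_div_pos.2 (hTh t ht y hy)).le) hC1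
      (SymC.mono_Lam hle1 hW)
  · intro t ht y hy
    exact (one_div_le_one_div_of_le hC₁ hC1).trans (hlow t ⟨by linarith [ht.1], ht.2⟩ y hy)
  · intro i hi1 hi2
    exact SymC.mono_C hq hΛ
      (fun t ht y hy => (one_div_pos.2 (mul_pos (hR t ht y hy) (pow_pos (hTh t ht y hy) i))).le) hC2
      (SymC.mono_Lam hle2 (hT i hi1 hi2).1)
  · intro i hi1 hi2
    exact SymC.mono_C hq hΛ
      (fun t ht y hy => (one_div_pos.2 (pow_pos (hTh t ht y hy) i)).le) hC2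
      (SymC.mono_Lam hle2 (hT i hi1 hi2).2.1)
  · intro i hi1 hi2
    exact SymC.mono_C hq hΛ
      (fun t ht y hy => (one_div_pos.2 (pow_pos (hTh t ht y hy) (i + 1))).le) hC2
      (SymC.mono_Lam hle2 (hT i hi1 hi2).2.2)

end

end Claimed.Agent.R324.Core
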