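/-
Row 324 (S0582), PDE core, module W (architect helper427; W0, WC, W1, W2: helper217).   Blueprint 7.3 (origin/helper232:docs/R324_blueprint.md).   FILE CoefB
   Λ = -t,  X = Xf y = 1 - y²,  X̃ = Xt y,  ℓ² = ell2 q t = (q-1)/100 Λ^(2γ),  γ = gaF q = 8/bAl q,  2 < bAl q < 3 (`bAl_bounds`, q ≥ 100),  r̂² = rh2 = ℓ² + X̃,  Θ = Th = Λ + X̃   (Core/Defs.lean).
   tt f = -X f',  ttp f = tt f + y f;   pointwise rules and the class `SmI` (smooth near [-1,1]): Core/W/TtCalc.lean.     𝕀 = II: Core/W/Ibp.lean.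
WC, step 2: the basic symbols  B, w', e^{-w}, W  (`CoefS`).
      DW Λ₀ = [-Λ₀,0) × [-1,1],   SR q Λ₀ n c f := TS q (DW Λ₀) 2 n (wt q 0 0 c) f   (Core/W/SR.lean: sr_add, sr_sub, sr_neg, sr_const_mul, sr_div_const, sr_mul, sr_pow, sr_le, sr_of_le, sr_dY, sr_const, sr_y, sr_X, sr_inv, sr_congr, …).
      TS, TY, Bd, wt: Core/AP/Cal/*.lean (`TY_succ_iff`, `TY_zero_succ_iff`, `TY.mul`, `TY.congr`, `TY.congr_wt`, `TY.mono_wt`, …).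
   wt q 0 0 (-1) p = 1/R,  wt q 0 (-1) 0 p = 1/Θ   (simp [wt, zpow_neg_one]/`zpow_neg_one`, one_div).
* `wc_B`:  `wc_ty_of_symC` with ϱ = wt q 0 0 (-1), m = 2, n = 6:   i = 0: `h.B0.mono_N`, weight (1/R)/Θ^0;   i = 1, 2: `h.BT i`, weight 1/(R Θ^i) = (1/R)/Θ^i  (`SymC.congr_wt`).      interval_cases i.      Sm: hs.smB.
* `wc_W`:  the same with ϱ = wt q 0 (-1) 0,  1/Θ^(i+1) = (1/Θ)/Θ^i;  then `sr_of_Th`.
* `wc_wp`:  g.wp = dY g.w.    TY 2 5 (1/R) (dY w):  for (i,j):  dY^[j] (dT^[i] (dY w)) = dY^[j+1] (dT^[i] w) on t < 0   (commutation `Sm.dT_dY`, iterate; `Function.iterate_succ_apply`; use `TY.congr`-style pointwise equalities `dY_congr`…);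
            i = 0: `h.w0`;  i = 1, 2: `h.wT i` at j+1 ≤ 6:  |..| ≤ C (1/Θ^i)/R^(j+1) = C (1/R)/(Θ^i R^j).
            ALTERNATIVE: show first  TY q D 1 6 (1/Θ) (dT w)  [from wT via `wc_ty_of_symC` applied to f = dT w: dT^[i] (dT w) = dT^[i+1] w], then `TY.dY`: dY (dT w) ∈ TY 1 5 ((1/Θ)/R);  dT (dY w) = dY (dT w) (`Sm.dT_dY`, `TY.congr`);  `TY_succ_iff` with the case m = 0 from `h.w0`.
* `wc_ew`:  E := exp(-w).   dT E = -(E · dT w)  (`dT_exp`, `dT_neg`).    TY 0 6 (1/R) E from `h.e0`;   dT w ∈ TY 1 6 (1/Θ) as above.    `TY_succ_iff` twice:   E ∈ TY 1 6:  dT E = -E dT w ∈ TY 0 6 ((1/R)(1/Θ)) (`TY.mul`, `TY.of_le`);    E ∈ TY 2 6:  dT E ∈ TY 1 6 by `TY.mul` of E ∈ TY 1 6 and dT w ∈ TY 1 6.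
-/
import Claimed.Agent.R324.Core.W.CoefA
import Claimed.Agent.R324.Core.PR.SmBg

set_option autoImplicit false

namespace Claimed.Agent.R324.Core

open Set Filter Topology MeasureTheory
open scoped ContDiff

noncomputable section

variable {q Λ₀ Λ₁ C : ℝ} {g : Bg}

/-- the basic symbols. -/
structure CoefS (q : ℝ) (g : Bg) (Λ₀ : ℝ) : Prop where
  B : SR q Λ₀ 6 (-1) g.B
  wp : SR q Λ₀ 5 (-1) g.wp
  ew : SR q Λ₀ 6 (-1) (fun p => Real.exp (-g.w p))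
  W : SR q Λ₀ 6 (-1) g.W
  low : ∃ c : ℝ, 0 < c ∧ ∀ p ∈ DW Λ₀, c ≤ 1 + Xf p.2 * g.B p

theorem wc_coefB_wtR (q : ℝ) (p : ℝ × ℝ) : wt q 0 0 (-1) p = (rh2 q p.1 p.2)⁻¹ := by
  simp [wt]

theorem wc_coefB_wtT (q : ℝ) (p : ℝ × ℝ) : wt q 0 (-1) 0 p = (Th p.1 p.2)⁻¹ := by
  simp [wt]

theorem wc_B (hq : 100 ≤ q) (hΛ : Λ₀ ≤ 1) (hs : BgSm g) (h : SymD q g Λ₀ C) : SR q Λ₀ 6 (-1) g.B := by
  refine ⟨hs.smB, wc_ty_of_symC hq hΛ (fun p hp => (wt_pos hq (domOK_DW hΛ) hp).le) ?_⟩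
  intro i hi
  refine ⟨C, ?_⟩
  rcases Nat.eq_zero_or_pos i with rfl | hi0
  · refine SymC.congr_wt (fun t _ y _ => ?_) (h.B0.mono_N (by norm_num : 6 ≤ 8))
    rw [wc_coefB_wtR, pow_zero, div_one, one_div]
  · refine SymC.congr_wt (fun t _ y _ => ?_) (h.BT i hi0 hi)
    rw [wc_coefB_wtR, one_div, mul_inv, div_eq_mul_inv]

theorem wc_W (hq : 100 ≤ q) (hΛ : Λ₀ ≤ 1) (hs : BgSm g) (h : SymD q g Λ₀ C) : SR q Λ₀ 6 (-1) g.W := by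
  refine sr_of_Th hq hΛ
    ⟨hs.smW, wc_ty_of_symC hq hΛ (fun p hp => (wt_pos hq (domOK_DW hΛ) hp).le) ?_⟩
  intro i hi
  refine ⟨C, ?_⟩
  rcases Nat.eq_zero_or_pos i with rfl | hi0
  · refine SymC.congr_wt (fun t _ y _ => ?_) (h.W0.mono_N (by norm_num : 6 ≤ 8))
    rw [wc_coefB_wtT, pow_zero, div_one, one_div]
  · refine SymC.congr_wt (fun t _ y _ => ?_) (h.WT i hi0 hi)
    rw [wc_coefB_wtT, one_div, pow_succ, mul_inv, div_eq_mul_inv, mul_comm]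

/-- `∂_t w` is a symbol of order `1/Θ`. -/
theorem wc_dTw (hq : 100 ≤ q) (hΛ : Λ₀ ≤ 1) (hs : BgSm g) (h : SymD q g Λ₀ C) :
    TS q (DW Λ₀) 1 6 (wt q 0 (-1) 0) (dT g.w) := by
  refine ⟨hs.smw.dT, wc_ty_of_symC hq hΛ (fun p hp => (wt_pos hq (domOK_DW hΛ) hp).le) ?_⟩
  intro i hi
  refine ⟨C, ?_⟩
  rw [← Function.iterate_succ_apply]
  refine SymC.congr_wt (fun t _ y _ => ?_) (h.wT (i + 1) (by omega) (by omega))
  rw [wc_coefB_wtT, one_div, pow_succ, mul_inv, div_eq_mul_inv, mul_comm]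

end

end Claimed.Agent.R324.Core
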