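/-
Row 324 (S0582), PDE core, module W (architect helper427; W0, WC, W1, W2: helper217).   Blueprint 7.3 (origin/helper232:docs/R324_blueprint.md).   FILE CoefB2
   Λ = -t,  X = Xf y = 1 - y²,  X̃ = Xt y,  ℓ² = ell2 q t = (q-1)/100 Λ^(2γ),  γ = gaF q = 8/bAl q,  2 < bAl q < 3 (`bAl_bounds`, q ≥ 100),  r̂² = rh2 = ℓ² + X̃,  Θ = Th = Λ + X̃   (Core/Defs.lean).
   tt f = -X f',  ttp f = tt f + y f;   pointwise rules and the class `SmI` (smooth near [-1,1]): Core/W/TtCalc.lean.     𝕀 = II: Core/W/Ibp.lean.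
WC, step 2 (continued): the symbols  w', e^{-w};  `wc_base`.
      DW Λ₀ = [-Λ₀,0) × [-1,1],   SR q Λ₀ n c f := TS q (DW Λ₀) 2 n (wt q 0 0 c) f   (Core/W/SR.lean: sr_add, sr_sub, sr_neg, sr_const_mul, sr_div_const, sr_mul, sr_pow, sr_le, sr_of_le, sr_dY, sr_const, sr_y, sr_X, sr_inv, sr_congr, …).
      TS, TY, Bd, wt: Core/AP/Cal/*.lean (`TY_succ_iff`, `TY_zero_succ_iff`, `TY.mul`, `TY.congr`, `TY.congr_wt`, `TY.mono_wt`, …).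
   wt q 0 0 (-1) p = 1/R,  wt q 0 (-1) 0 p = 1/Θ   (simp [wt], `zpow_neg_one`, one_div);   `wt_mul`, `wt_div_Th`, `wt_div_rh2` (Core/AP/Cal/WtA.lean);  `TS.mul_wt`, `TS.dY_wt`, `TS.dT_wt` (WtC.lean).
* `wc_wp`:  g.wp = dY g.w (rfl).    `TY_succ_iff`:  TY 2 5 ϱ (dY w) ⟸ TY 0 5 ϱ (dY w)  [from `h.w0`, `wc_ty_of_symC` with m = 0, `SymC.mono_N`]  and  TY 1 5 (ϱ/Θ) (dT (dY w)):
            dT (dY w) = dY (dT w) on t < 0 (`Sm.dT_dY`; `TY.congr`),   dY (dT w) ∈ TS 1 5 (wt 0 (-1) (-1)) by `TS.dY_wt` from `wc_dTw`;   ϱ/Θ = wt 0 (-1) (-1) on D (`wt_div_Th`, `TY.congr_wt`).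
* `wc_ew`:  E := exp(-w).   dT E = -(E · dT w) on t < 0  (`dT_exp`, `dT_neg`).    TY 0 6 (1/R) E from `h.e0`.    `TY_succ_iff` twice:   E ∈ TY 1 6:  dT E = -E dT w ∈ TY 0 6 (`TS.mul_wt`, `TS.of_le`);    E ∈ TY 2 6:  dT E ∈ TY 1 6 by the product of E ∈ TY 1 6 and dT w ∈ TY 1 6.
* `wc_base`: `wc_symD`, then the four lemmas;  low: c = 1/C.
-/
import Claimed.Agent.R324.Core.W.CoefB

set_option autoImplicit false

namespace Claimed.Agent.R324.Core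

open Set Filter Topology MeasureTheory
open scoped ContDiff

noncomputable section

variable {q Λ₀ Λ₁ C : ℝ} {g : Bg}

/-- `wt q 0 0 (-1) = 1/r̂²`. -/
theorem wc_b2_wt_inv (p : ℝ × ℝ) : wt q 0 0 (-1) p = 1 / rh2 q p.1 p.2 := by
  simp [wt]

/-- level zero in time from a `SymC` bound of weight `1/r̂²`. -/
theorem wc_b2_ty0 (hq : 100 ≤ q) (hΛ : Λ₀ ≤ 1) {n : ℕ} {f : Fn}
    (h : SymC q Λ₀ C n (fun t y => 1 / rh2 q t y) f) : TY q (DW Λ₀) 0 n (wt q 0 0 (-1)) f := by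
  refine wc_ty_of_symC hq hΛ (fun p hp => (wt_pos hq (domOK_DW hΛ) hp).le) ?_
  intro i hi
  obtain rfl := Nat.le_zero.1 hi
  refine ⟨C, SymC.congr_wt (fun t _ y _ => ?_) h⟩
  rw [wc_b2_wt_inv, pow_zero, div_one]

theorem wc_wp (hq : 100 ≤ q) (hΛ : Λ₀ ≤ 1) (hs : BgSm g) (h : SymD q g Λ₀ C) : SR q Λ₀ 5 (-1) g.wp := by
  have hD := domOK_DW hΛ
  refine ⟨hs.smw.dY, ?_⟩
  show TY q (DW Λ₀) (1 + 1) 5 (wt q 0 0 (-1)) (dY g.w)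
  rw [TY_succ_iff]
  refine ⟨wc_b2_ty0 hq hΛ (h.w0.mono_N (by norm_num)), ?_⟩
  have h1 : TS q (DW Λ₀) 1 5 (wt q 0 (-1) (0 - 1)) (dY (dT g.w)) := TS.dY_wt hq hD (wc_dTw hq hΛ hs h)
  refine TY.congr hD (fun t ht y => hs.smw.dT_dY ht y) (TY.congr_wt (fun p hp => ?_) h1.bd)
  rw [wt_div_Th hq hD hp]
  norm_num

theorem wc_ew (hq : 100 ≤ q) (hΛ : Λ₀ ≤ 1) (hs : BgSm g) (h : SymD q g Λ₀ C) :
    SR q Λ₀ 6 (-1) (fun p => Real.exp (-g.w p)) := by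
  have hD := domOK_DW hΛ
  have hsm : Sm (fun p => Real.exp (-g.w p)) := hs.smw.neg.exp
  have hw := wc_dTw hq hΛ hs h
  have hdT : ∀ t < 0, ∀ y, dT (fun p => Real.exp (-g.w p)) (t, y)
      = -(Real.exp (-g.w (t, y)) * dT g.w (t, y)) := by
    intro t ht y
    rw [dT_exp hs.smw.neg ht y, dT_neg hs.smw ht y]
    ring
  have h0 : TS q (DW Λ₀) 0 6 (wt q 0 0 (-1)) (fun p => Real.exp (-g.w p)) :=
    ⟨hsm, wc_b2_ty0 hq hΛ (h.e0.mono_N (by norm_num))⟩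
  -- one step of the recursion
  have step : ∀ m : ℕ, m ≤ 1 → TS q (DW Λ₀) m 6 (wt q 0 0 (-1)) (fun p => Real.exp (-g.w p)) →
      TS q (DW Λ₀) (m + 1) 6 (wt q 0 0 (-1)) (fun p => Real.exp (-g.w p)) := by
    intro m hm hE
    refine ⟨hsm, ?_⟩
    rw [TY_succ_iff]
    refine ⟨h0.bd, ?_⟩
    have hp : TS q (DW Λ₀) m 6 (wt q (0 + 0) (0 + -1) (-1 + 0))
        (fun p => Real.exp (-g.w p) * dT g.w p) := TS.mul_wt hq hD hE (hw.of_le hm le_rfl)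
    have hn := TS.neg hD hp
    refine TY.congr hD hdT (TY.congr_wt (fun p hp => ?_) hn.bd)
    rw [wt_div_Th hq hD hp]
    norm_num
  exact step 1 le_rfl (step 0 zero_le_one h0)

theorem wc_base (hq : 100 ≤ q) (hs : BgSm g) (h1 : BgSym q g) (h2 : BgSymT q g) :
    ∃ Λ₀ : ℝ, 0 < Λ₀ ∧ Λ₀ ≤ 100 / q ∧ CoefS q g Λ₀ := by
  obtain ⟨Λ₀, C, h0, hΛ, hC, h⟩ := wc_symD hq h1 h2
  have hΛ1 : Λ₀ ≤ 1 := hΛ.trans (by rw [div_le_one (by linarith)]; exact hq)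
  exact ⟨Λ₀, h0, hΛ, wc_B hq hΛ1 hs h, wc_wp hq hΛ1 hs h, wc_ew hq hΛ1 hs h, wc_W hq hΛ1 hs h,
    1 / C, by positivity, fun p hp => h.low p.1 hp.1 p.2 hp.2⟩

theorem CoefS.mono (h : Λ₁ ≤ Λ₀) (hc : CoefS q g Λ₀) : CoefS q g Λ₁ := by
  obtain ⟨c, hc0, hlow⟩ := hc.low
  exact ⟨sr_subset h hc.B, sr_subset h hc.wp, sr_subset h hc.ew, sr_subset h hc.W, c, hc0,
    fun p hp => hlow p ⟨⟨by linarith [hp.1.1], hp.1.2⟩, hp.2⟩⟩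

end

end Claimed.Agent.R324.Core
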