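/-
Row 324 (S0582), PDE core, module W (architect helper427; W0, WC, W1, W2: helper217).   Blueprint 7.3 (origin/helper232:docs/R324_blueprint.md).   FILE CoefC
   Λ = -t,  X = Xf y = 1 - y²,  X̃ = Xt y,  ℓ² = ell2 q t = (q-1)/100 Λ^(2γ),  γ = gaF q = 8/bAl q,  2 < bAl q < 3 (`bAl_bounds`, q ≥ 100),  r̂² = rh2 = ℓ² + X̃,  Θ = Th = Λ + X̃   (Core/Defs.lean).
   tt f = -X f',  ttp f = tt f + y f;   pointwise rules and the class `SmI` (smooth near [-1,1]): Core/W/TtCalc.lean.     𝕀 = II: Core/W/Ibp.lean.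
WC, step 3: the derived symbols  Z, 𝖽, B', w'', a', a'', 𝗐₁, b̂, 𝗐₀   (definitions: `Bg.Z` … in Core/Defs.lean).
      DW Λ₀ = [-Λ₀,0) × [-1,1],   SR q Λ₀ n c f := TS q (DW Λ₀) 2 n (wt q 0 0 c) f   (Core/W/SR.lean: sr_add, sr_sub, sr_neg, sr_const_mul, sr_div_const, sr_mul, sr_pow, sr_le, sr_of_le, sr_dY, sr_const, sr_y, sr_X, sr_inv, sr_congr, …).
      TS, TY, Bd, wt: Core/AP/Cal/*.lean (`TY_succ_iff`, `TY_zero_succ_iff`, `TY.mul`, `TY.congr`, `TY.congr_wt`, `TY.mono_wt`, …).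
* `den`:  1 + X B:  sr_const, sr_X, hc.B, sr_mul (1 + (-1) = 0), sr_add.
* `Z`:    g.Z = fun p => 1/(1 + X B) = (..)⁻¹ (`one_div`);  `sr_inv` with `hs.den_ne`, `hc.low`.
* `Zlow`: 1 + X B ≤ K (`sr_bd0`), and > 0, so Z ≥ 1/K' with K' = max K 1.
* `dd`:   g.dd = dY (fun p => X B) (rfl);  X B ∈ SR 6 0;  `sr_dY`: SR 5 (-1).         `Bp` = dY B: SR 5 (-2).        `wpp` = dY (dY w) = dY g.wp: SR 4 (-2).
* `ap` = Z 𝖽: SR 5 (-1) (`sr_of_le` for Z).      `app` = dY ap: SR 4 (-2).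
* `w1` = -Z² 𝖽/2 + Z w' + W:  all three terms SR 5 (-1).       `bh` = (q-1) y Z - X 𝗐₁,  `w0` = q y Z - X 𝗐₁:  SR 5 0.
  (write the functions with `show SR q Λ₀ _ _ (fun p => …)` after `unfold Bg.w1`; the orders are computed by `sr_mul`: use `by simpa using …` or `(by norm_num : (0:ℤ) + -1 = -1) ▸ …`.)
-/
import Claimed.Agent.R324.Core.W.CoefB2

set_option autoImplicit false

namespace Claimed.Agent.R324.Core

open Set Filter Topology MeasureTheory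
open scoped ContDiff

noncomputable section

variable {q Λ₀ : ℝ} {g : Bg}

theorem CoefS.den (hq : 100 ≤ q) (hΛ : Λ₀ ≤ 1) (hc : CoefS q g Λ₀) : SR q Λ₀ 6 0 (fun p => 1 + Xf p.2 * g.B p) := by
  have h1 : SR q Λ₀ 6 0 (fun p => Xf p.2 * g.B p) := by
    have h := sr_mul hq hΛ (sr_X (n := 6) hq hΛ) hc.B
    simpa using h
  exact sr_add hΛ (sr_const 1) h1

theorem CoefS.Z (hq : 100 ≤ q) (hΛ : Λ₀ ≤ 1) (hs : BgSm g) (hc : CoefS q g Λ₀) : SR q Λ₀ 6 0 g.Z := by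
  obtain ⟨c, hc0, hlow⟩ := hc.low
  have h := sr_inv hΛ (f := fun p => 1 + Xf p.2 * g.B p) (fun t ht y => (hs.pos t ht y).ne') (hc.den hq hΛ) hc0 hlow
  have e : g.Z = fun p => (1 + Xf p.2 * g.B p)⁻¹ := by
    funext p
    simp [Bg.Z, one_div]
  rw [e]
  exact h

theorem CoefS.Zlow (hq : 100 ≤ q) (hΛ : Λ₀ ≤ 1) (hs : BgSm g) (hc : CoefS q g Λ₀) :
    ∃ c : ℝ, 0 < c ∧ ∀ p ∈ DW Λ₀, c ≤ g.Z p := by
  obtain ⟨K, hK, hb⟩ := sr_bd0 (hc.den hq hΛ)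
  obtain ⟨c, hc0, hlow⟩ := hc.low
  refine ⟨1 / max K 1, by positivity, fun p hp => ?_⟩
  have h1 : 0 < 1 + Xf p.2 * g.B p := lt_of_lt_of_le hc0 (hlow p hp)
  have h2 : 1 + Xf p.2 * g.B p ≤ max K 1 := le_trans (le_trans (le_abs_self _) (hb p hp)) (le_max_left _ _)
  show 1 / max K 1 ≤ 1 / (1 + Xf p.2 * g.B p)
  exact one_div_le_one_div_of_le h1 h2

theorem CoefS.dd (hq : 100 ≤ q) (hΛ : Λ₀ ≤ 1) (hc : CoefS q g Λ₀) : SR q Λ₀ 5 (-1) g.dd := by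
  have h1 : SR q Λ₀ (5 + 1) 0 (fun p => Xf p.2 * g.B p) := by
    have h := sr_mul hq hΛ (sr_X (n := 6) hq hΛ) hc.B
    simpa using h
  have h := sr_dY hq hΛ h1
  simpa [Bg.dd] using h

theorem CoefS.Bp (hq : 100 ≤ q) (hΛ : Λ₀ ≤ 1) (hc : CoefS q g Λ₀) : SR q Λ₀ 5 (-2) g.Bp := by
  have h1 : SR q Λ₀ (5 + 1) (-1) g.B := hc.B
  have h := sr_dY hq hΛ h1
  have e : (-1 : ℤ) - 1 = -2 := by norm_num
  rw [e] at h
  exact h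

theorem CoefS.wpp (hq : 100 ≤ q) (hΛ : Λ₀ ≤ 1) (hc : CoefS q g Λ₀) : SR q Λ₀ 4 (-2) g.wpp := by
  have h1 : SR q Λ₀ (4 + 1) (-1) g.wp := hc.wp
  have h := sr_dY hq hΛ h1
  have e : (-1 : ℤ) - 1 = -2 := by norm_num
  rw [e] at h
  exact h

theorem CoefS.ap (hq : 100 ≤ q) (hΛ : Λ₀ ≤ 1) (hs : BgSm g) (hc : CoefS q g Λ₀) : SR q Λ₀ 5 (-1) g.ap := by
  have h := sr_mul hq hΛ (sr_of_le (n' := 5) (by norm_num) (hc.Z hq hΛ hs)) (hc.dd hq hΛ)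
  have e : (0 : ℤ) + -1 = -1 := by norm_num
  rw [e] at h
  exact h

theorem CoefS.app (hq : 100 ≤ q) (hΛ : Λ₀ ≤ 1) (hs : BgSm g) (hc : CoefS q g Λ₀) : SR q Λ₀ 4 (-2) g.app := by
  have h1 : SR q Λ₀ (4 + 1) (-1) g.ap := hc.ap hq hΛ hs
  have h := sr_dY hq hΛ h1
  have e : (-1 : ℤ) - 1 = -2 := by norm_num
  rw [e] at h
  exact h

theorem CoefS.w1 (hq : 100 ≤ q) (hΛ : Λ₀ ≤ 1) (hs : BgSm g) (hc : CoefS q g Λ₀) : SR q Λ₀ 5 (-1) g.w1 := by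
  have hZ : SR q Λ₀ 5 0 g.Z := sr_of_le (by norm_num) (hc.Z hq hΛ hs)
  have hZ2 : SR q Λ₀ 5 0 (fun p => -(g.Z p) ^ 2) := by
    have h := sr_neg hΛ (sr_pow hq hΛ hZ 2)
    simpa using h
  have t1 : SR q Λ₀ 5 (-1) (fun p => -(g.Z p) ^ 2 * g.dd p / 2) := by
    have h := sr_div_const hΛ (sr_mul hq hΛ hZ2 (hc.dd hq hΛ)) 2
    have e : (0 : ℤ) + -1 = -1 := by norm_num
    rw [e] at h
    exact h
  have t2 : SR q Λ₀ 5 (-1) (fun p => g.Z p * g.wp p) := by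
    have h := sr_mul hq hΛ hZ hc.wp
    have e : (0 : ℤ) + -1 = -1 := by norm_num
    rw [e] at h
    exact h
  have t3 : SR q Λ₀ 5 (-1) g.W := sr_of_le (by norm_num) hc.W
  exact sr_add hΛ (sr_add hΛ t1 t2) t3

theorem wc_coefC_Xw1 (hq : 100 ≤ q) (hΛ : Λ₀ ≤ 1) (hs : BgSm g) (hc : CoefS q g Λ₀) :
    SR q Λ₀ 5 0 (fun p => Xf p.2 * g.w1 p) := by
  have h := sr_mul hq hΛ (sr_X (n := 5) hq hΛ) (hc.w1 hq hΛ hs)
  have e : (1 : ℤ) + -1 = 0 := by norm_num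
  rw [e] at h
  exact h

theorem wc_coefC_ayZ (hq : 100 ≤ q) (hΛ : Λ₀ ≤ 1) (hs : BgSm g) (hc : CoefS q g Λ₀) (a : ℝ) :
    SR q Λ₀ 5 0 (fun p => a * p.2 * g.Z p) := by
  have hZ : SR q Λ₀ 5 0 g.Z := sr_of_le (by norm_num) (hc.Z hq hΛ hs)
  have h := sr_mul hq hΛ (sr_const_mul hΛ a (sr_y (n := 5) hq hΛ)) hZ
  have e : (0 : ℤ) + 0 = 0 := by norm_num
  rw [e] at h
  exact h

theorem CoefS.bh (hq : 100 ≤ q) (hΛ : Λ₀ ≤ 1) (hs : BgSm g) (hc : CoefS q g Λ₀) : SR q Λ₀ 5 0 (g.bh q) :=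
  sr_sub hΛ (wc_coefC_ayZ hq hΛ hs hc (q - 1)) (wc_coefC_Xw1 hq hΛ hs hc)

theorem CoefS.w0 (hq : 100 ≤ q) (hΛ : Λ₀ ≤ 1) (hs : BgSm g) (hc : CoefS q g Λ₀) : SR q Λ₀ 5 0 (g.w0 q) :=
  sr_sub hΛ (wc_coefC_ayZ hq hΛ hs hc q) (wc_coefC_Xw1 hq hΛ hs hc)

end

end Claimed.Agent.R324.Core
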