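/-
Row 324 (S0582), PDE core, module W (architect helper427; W0, WC, W1, W2: helper217).   Blueprint 7.3 (origin/helper232:docs/R324_blueprint.md).   FILE CoefD0
   Λ = -t,  X = Xf y = 1 - y²,  X̃ = Xt y,  ℓ² = ell2 q t = (q-1)/100 Λ^(2γ),  γ = gaF q = 8/bAl q,  2 < bAl q < 3 (`bAl_bounds`, q ≥ 100),  r̂² = rh2 = ℓ² + X̃,  Θ = Th = Λ + X̃   (Core/Defs.lean).
   tt f = -X f',  ttp f = tt f + y f;   pointwise rules and the class `SmI` (smooth near [-1,1]): Core/W/TtCalc.lean.     𝕀 = II: Core/W/Ibp.lean.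
WC, step 4: the zeroth order coefficients, row 0.      X w'² : 1-1-1 = -1;   y Z² 𝖽 : -1;   B : -1;   constants : 0 ⟶ -1 (`sr_le`);   X 𝖽 w', X w'' : -1.
      DW Λ₀ = [-Λ₀,0) × [-1,1],   SR q Λ₀ n c f := TS q (DW Λ₀) 2 n (wt q 0 0 c) f   (Core/W/SR.lean: sr_add, sr_sub, sr_neg, sr_const_mul, sr_div_const, sr_mul, sr_pow, sr_le, sr_of_le, sr_dY, sr_const, sr_y, sr_X, sr_inv, sr_congr, …).
      Symbols available (Core/W/CoefB.lean, CoefC.lean):  hc.B (6,-1), hc.wp (5,-1), hc.ew (6,-1), hc.W (6,-1), CoefS.Z (6,0), .dd (5,-1), .Bp (5,-2), .wpp (4,-2), .w1 (5,-1), .bh (5,0);   sr_X (order 1), sr_y, sr_const (order 0).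
      METHOD: `have e : g.cf q 0 0 = fun p => <the entry> := by funext p; simp [Bg.cf]` (the entries are in `Bg.cf`, Core/Defs.lean; compare `smbg_a_cf` in Core/PR/SmBg.lean), `rw [e]`, then build the expression with sr_mul/sr_add/…;
      every factor first brought to n = 4 (`sr_of_le`), every summand to the final order with `sr_le` (orders add under sr_mul; use `by simpa using` / `show` / `(by norm_num : … = …) ▸` for the integer arithmetic).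
-/
import Claimed.Agent.R324.Core.W.CoefC

set_option autoImplicit false

namespace Claimed.Agent.R324.Core

open Set Filter Topology MeasureTheory
open scoped ContDiff

noncomputable section

variable {q Λ₀ : ℝ} {g : Bg}

theorem CoefS.cf00 (hq : 100 ≤ q) (hΛ : Λ₀ ≤ 1) (hs : BgSm g) (hc : CoefS q g Λ₀) : SR q Λ₀ 4 (-1) (g.cf q 0 0) := by
  have hZ : SR q Λ₀ 4 0 g.Z := sr_of_le (by norm_num) (CoefS.Z hq hΛ hs hc)
  have hd : SR q Λ₀ 4 (-1) g.dd := sr_of_le (by norm_num) (CoefS.dd hq hΛ hc)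
  have hB : SR q Λ₀ 4 (-1) g.B := sr_of_le (by norm_num) hc.B
  have hw : SR q Λ₀ 4 (-1) g.wp := sr_of_le (by norm_num) hc.wp
  have hww : SR q Λ₀ 4 (-2) g.wpp := CoefS.wpp hq hΛ hc
  have hX : SR q Λ₀ 4 1 (fun p => Xf p.2) := sr_X hq hΛ
  have hy : SR q Λ₀ 4 0 (fun p => p.2) := sr_y hq hΛ
  have T1 : SR q Λ₀ 4 (-1) (fun p => g.Z p * (Xf p.2 * (g.wp p * g.wp p))) :=
    sr_le hq hΛ (by norm_num) (sr_mul hq hΛ hZ (sr_mul hq hΛ hX (sr_mul hq hΛ hw hw)))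
  have T2 : SR q Λ₀ 4 (-1) (fun p => p.2 * (g.Z p * (g.Z p * g.dd p))) :=
    sr_le hq hΛ (by norm_num) (sr_mul hq hΛ hy (sr_mul hq hΛ hZ (sr_mul hq hΛ hZ hd)))
  have T3a : SR q Λ₀ 4 (-1) (fun p => (q - 1) * g.B p + (q + 1)) :=
    sr_add hΛ (sr_const_mul hΛ (q - 1) hB) (sr_le hq hΛ (by norm_num) (sr_const (q + 1)))
  have T3 : SR q Λ₀ 4 (-1) (fun p => g.Z p * ((q - 1) * g.B p + (q + 1))) :=
    sr_le hq hΛ (by norm_num) (sr_mul hq hΛ hZ T3a)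
  have e : g.cf q 0 0 = fun p => ((-(g.Z p * (Xf p.2 * (g.wp p * g.wp p)))
      - (2 * q) * (p.2 * (g.Z p * (g.Z p * g.dd p))))
      + (2 * q) * (g.Z p * ((q - 1) * g.B p + (q + 1)))) / (q + 1) := by
    funext p
    simp only [Bg.cf, Matrix.cons_val_zero]
    ring
  rw [e]
  exact sr_div_const hΛ (sr_add hΛ (sr_sub hΛ (sr_neg hΛ T1) (sr_const_mul hΛ (2 * q) T2))
    (sr_const_mul hΛ (2 * q) T3)) (q + 1)

theorem CoefS.cf01 (hq : 100 ≤ q) (hΛ : Λ₀ ≤ 1) (hs : BgSm g) (hc : CoefS q g Λ₀) : SR q Λ₀ 4 (-1) (g.cf q 0 1) := by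
  have hZ : SR q Λ₀ 4 0 g.Z := sr_of_le (by norm_num) (CoefS.Z hq hΛ hs hc)
  have hd : SR q Λ₀ 4 (-1) g.dd := sr_of_le (by norm_num) (CoefS.dd hq hΛ hc)
  have hB : SR q Λ₀ 4 (-1) g.B := sr_of_le (by norm_num) hc.B
  have hw : SR q Λ₀ 4 (-1) g.wp := sr_of_le (by norm_num) hc.wp
  have hww : SR q Λ₀ 4 (-2) g.wpp := CoefS.wpp hq hΛ hc
  have hX : SR q Λ₀ 4 1 (fun p => Xf p.2) := sr_X hq hΛ
  have hy : SR q Λ₀ 4 0 (fun p => p.2) := sr_y hq hΛ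
  have T1 : SR q Λ₀ 4 (-1) (fun p => p.2 * g.wp p) :=
    sr_le hq hΛ (by norm_num) (sr_mul hq hΛ hy hw)
  have T2 : SR q Λ₀ 4 (-1) (fun p => Xf p.2 * (g.Z p * (g.dd p * g.wp p))) :=
    sr_le hq hΛ (by norm_num) (sr_mul hq hΛ hX (sr_mul hq hΛ hZ (sr_mul hq hΛ hd hw)))
  have T3 : SR q Λ₀ 4 (-1) (fun p => Xf p.2 * g.wpp p) :=
    sr_le hq hΛ (by norm_num) (sr_mul hq hΛ hX hww)
  have T4 : SR q Λ₀ 4 (-1) (fun p => ((2 * q + 2) * (p.2 * g.wp p)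
      + Xf p.2 * (g.Z p * (g.dd p * g.wp p))) - 2 * (Xf p.2 * g.wpp p)) :=
    sr_sub hΛ (sr_add hΛ (sr_const_mul hΛ (2 * q + 2) T1) T2) (sr_const_mul hΛ 2 T3)
  have e : g.cf q 0 1 = fun p => (g.Z p * (((2 * q + 2) * (p.2 * g.wp p)
      + Xf p.2 * (g.Z p * (g.dd p * g.wp p))) - 2 * (Xf p.2 * g.wpp p))) / (q + 1) := by
    funext p
    simp only [Bg.cf, Matrix.cons_val_zero, Matrix.cons_val_one]
    ring
  rw [e]
  exact sr_div_const hΛ (sr_le hq hΛ (by norm_num) (sr_mul hq hΛ hZ T4)) (q + 1)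

theorem CoefS.cf02 (hq : 100 ≤ q) (hΛ : Λ₀ ≤ 1) (hs : BgSm g) (hc : CoefS q g Λ₀) : SR q Λ₀ 4 (-1) (g.cf q 0 2) := by
  have hZ : SR q Λ₀ 4 0 g.Z := sr_of_le (by norm_num) (CoefS.Z hq hΛ hs hc)
  have hd : SR q Λ₀ 4 (-1) g.dd := sr_of_le (by norm_num) (CoefS.dd hq hΛ hc)
  have hB : SR q Λ₀ 4 (-1) g.B := sr_of_le (by norm_num) hc.B
  have hw : SR q Λ₀ 4 (-1) g.wp := sr_of_le (by norm_num) hc.wp
  have hww : SR q Λ₀ 4 (-2) g.wpp := CoefS.wpp hq hΛ hc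
  have hX : SR q Λ₀ 4 1 (fun p => Xf p.2) := sr_X hq hΛ
  have hy : SR q Λ₀ 4 0 (fun p => p.2) := sr_y hq hΛ
  have T1 : SR q Λ₀ 4 (-1) (fun p => Xf p.2 * (g.wp p * g.wp p)) :=
    sr_le hq hΛ (by norm_num) (sr_mul hq hΛ hX (sr_mul hq hΛ hw hw))
  have T2 : SR q Λ₀ 4 (-1) (fun p => p.2 * (g.Z p * g.dd p)) :=
    sr_le hq hΛ (by norm_num) (sr_mul hq hΛ hy (sr_mul hq hΛ hZ hd))
  have T4 : SR q Λ₀ 4 (-1) (fun p => (-(Xf p.2 * (g.wp p * g.wp p))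
      - (q - 1) * (p.2 * (g.Z p * g.dd p))) - (2 * (q - 1)) * g.B p) :=
    sr_sub hΛ (sr_sub hΛ (sr_neg hΛ T1) (sr_const_mul hΛ (q - 1) T2)) (sr_const_mul hΛ (2 * (q - 1)) hB)
  have e : g.cf q 0 2 = fun p => ((q / (q + 1)) * (g.Z p * ((-(Xf p.2 * (g.wp p * g.wp p))
      - (q - 1) * (p.2 * (g.Z p * g.dd p))) - (2 * (q - 1)) * g.B p))) / (q + 1) := by
    funext p
    simp only [Bg.cf, Matrix.cons_val_zero, Matrix.cons_val_two, Matrix.cons_val_one, Matrix.head_cons, Matrix.tail_cons]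
    ring
  rw [e]
  exact sr_div_const hΛ (sr_const_mul hΛ (q / (q + 1)) (sr_le hq hΛ (by norm_num) (sr_mul hq hΛ hZ T4))) (q + 1)

end

end Claimed.Agent.R324.Core
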