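/-
Row 324 (S0582), PDE core, module W (architect helper427; W0, WC, W1, W2: helper217).   Blueprint 7.3 (origin/helper232:docs/R324_blueprint.md).   FILE CoefD1
   Λ = -t,  X = Xf y = 1 - y²,  X̃ = Xt y,  ℓ² = ell2 q t = (q-1)/100 Λ^(2γ),  γ = gaF q = 8/bAl q,  2 < bAl q < 3 (`bAl_bounds`, q ≥ 100),  r̂² = rh2 = ℓ² + X̃,  Θ = Th = Λ + X̃   (Core/Defs.lean).
   tt f = -X f',  ttp f = tt f + y f;   pointwise rules and the class `SmI` (smooth near [-1,1]): Core/W/TtCalc.lean.     𝕀 = II: Core/W/Ibp.lean.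
WC, step 4: the zeroth order coefficients, row 1.      y w' : -1;   X Z 𝖽 w', X w'' : -1;   e^{-w} : -1;   Z X w'² : -1;    X Z (Z 𝖽 w'/2 - w'') : 1 - 2 = -1.
      DW Λ₀ = [-Λ₀,0) × [-1,1],   SR q Λ₀ n c f := TS q (DW Λ₀) 2 n (wt q 0 0 c) f   (Core/W/SR.lean: sr_add, sr_sub, sr_neg, sr_const_mul, sr_div_const, sr_mul, sr_pow, sr_le, sr_of_le, sr_dY, sr_const, sr_y, sr_X, sr_inv, sr_congr, …).
      Symbols available (Core/W/CoefB.lean, CoefC.lean):  hc.B (6,-1), hc.wp (5,-1), hc.ew (6,-1), hc.W (6,-1), CoefS.Z (6,0), .dd (5,-1), .Bp (5,-2), .wpp (4,-2), .w1 (5,-1), .bh (5,0);   sr_X (order 1), sr_y, sr_const (order 0).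
      METHOD: `have e : g.cf q 0 0 = fun p => <the entry> := by funext p; simp [Bg.cf]` (the entries are in `Bg.cf`, Core/Defs.lean; compare `smbg_a_cf` in Core/PR/SmBg.lean), `rw [e]`, then build the expression with sr_mul/sr_add/…;
      every factor first brought to n = 4 (`sr_of_le`), every summand to the final order with `sr_le` (orders add under sr_mul; use `by simpa using` / `show` / `(by norm_num : … = …) ▸` for the integer arithmetic).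
-/
import Claimed.Agent.R324.Core.W.CoefC

set_option autoImplicit false

namespace Claimed.Agent.R324.Core

open Set Filter Topology MeasureTheory
open scoped ContDiff

noncomputable section

variable {q Λ₀ : ℝ} {g : Bg}

/-- `sr_mul` with the order given by hand. -/
theorem wc_d1_mul {n : ℕ} {c c' c'' : ℤ} {f f' : Fn} (hq : 100 ≤ q) (hΛ : Λ₀ ≤ 1) (h : c + c' = c'')
    (hf : SR q Λ₀ n c f) (hg : SR q Λ₀ n c' f') : SR q Λ₀ n c'' (fun p => f p * f' p) :=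
  h ▸ sr_mul hq hΛ hf hg

theorem CoefS.cf10 (hq : 100 ≤ q) (hΛ : Λ₀ ≤ 1) (hs : BgSm g) (hc : CoefS q g Λ₀) : SR q Λ₀ 4 (-1) (g.cf q 1 0) := by
  have e : g.cf q 1 0 = fun p => g.Z p * ((q + 1) * p.2 * g.wp p + Xf p.2 * g.Z p * g.dd p * g.wp p / 2
      - Xf p.2 * g.wpp p) := by
    funext p; simp [Bg.cf]
  rw [e]
  have Z4 : SR q Λ₀ 4 0 g.Z := sr_of_le (by norm_num) (hc.Z hq hΛ hs)
  have d4 : SR q Λ₀ 4 (-1) g.dd := sr_of_le (by norm_num) (hc.dd hq hΛ)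
  have wp4 : SR q Λ₀ 4 (-1) g.wp := sr_of_le (by norm_num) hc.wp
  have wpp4 : SR q Λ₀ 4 (-2) g.wpp := hc.wpp hq hΛ
  have X4 : SR q Λ₀ 4 1 (fun p => Xf p.2) := sr_X hq hΛ
  have y4 : SR q Λ₀ 4 0 (fun p => p.2) := sr_y hq hΛ
  have t1 : SR q Λ₀ 4 (-1) (fun p => (q + 1) * p.2 * g.wp p) :=
    wc_d1_mul hq hΛ (by norm_num) (sr_const_mul hΛ (q + 1) y4) wp4
  have t2 : SR q Λ₀ 4 (-1) (fun p => Xf p.2 * g.Z p * g.dd p * g.wp p / 2) :=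
    sr_div_const hΛ (wc_d1_mul hq hΛ (by norm_num) (wc_d1_mul hq hΛ (c'' := 0) (by norm_num)
      (wc_d1_mul hq hΛ (c'' := 1) (by norm_num) X4 Z4) d4) wp4) 2
  have t3 : SR q Λ₀ 4 (-1) (fun p => Xf p.2 * g.wpp p) := wc_d1_mul hq hΛ (by norm_num) X4 wpp4
  exact wc_d1_mul hq hΛ (by norm_num) Z4 (sr_sub hΛ (sr_add hΛ t1 t2) t3)

theorem CoefS.cf11 (hq : 100 ≤ q) (hΛ : Λ₀ ≤ 1) (hs : BgSm g) (hc : CoefS q g Λ₀) : SR q Λ₀ 4 (-1) (g.cf q 1 1) := by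
  have e : g.cf q 1 1 = fun p => 2 * Real.exp (-g.w p) - g.Z p * Xf p.2 * (g.wp p * g.wp p) := by
    funext p; simp [Bg.cf, sq]
  rw [e]
  have Z4 : SR q Λ₀ 4 0 g.Z := sr_of_le (by norm_num) (hc.Z hq hΛ hs)
  have wp4 : SR q Λ₀ 4 (-1) g.wp := sr_of_le (by norm_num) hc.wp
  have X4 : SR q Λ₀ 4 1 (fun p => Xf p.2) := sr_X hq hΛ
  have ew4 : SR q Λ₀ 4 (-1) (fun p => Real.exp (-g.w p)) := sr_of_le (by norm_num) hc.ew
  have t2 : SR q Λ₀ 4 (-1) (fun p => g.Z p * Xf p.2 * (g.wp p * g.wp p)) :=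
    wc_d1_mul hq hΛ (by norm_num) (wc_d1_mul hq hΛ (c'' := 1) (by norm_num) Z4 X4)
      (wc_d1_mul hq hΛ (c'' := -2) (by norm_num) wp4 wp4)
  exact sr_sub hΛ (sr_const_mul hΛ 2 ew4) t2

theorem CoefS.cf12 (hq : 100 ≤ q) (hΛ : Λ₀ ≤ 1) (hs : BgSm g) (hc : CoefS q g Λ₀) : SR q Λ₀ 4 (-1) (g.cf q 1 2) := by
  have e : g.cf q 1 2 = fun p => q / (q + 1) * Xf p.2 * g.Z p * (g.Z p * g.dd p * g.wp p / 2 - g.wpp p) := by
    funext p; simp [Bg.cf]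
  rw [e]
  have Z4 : SR q Λ₀ 4 0 g.Z := sr_of_le (by norm_num) (hc.Z hq hΛ hs)
  have d4 : SR q Λ₀ 4 (-1) g.dd := sr_of_le (by norm_num) (hc.dd hq hΛ)
  have wp4 : SR q Λ₀ 4 (-1) g.wp := sr_of_le (by norm_num) hc.wp
  have wpp4 : SR q Λ₀ 4 (-2) g.wpp := hc.wpp hq hΛ
  have X4 : SR q Λ₀ 4 1 (fun p => Xf p.2) := sr_X hq hΛ
  have t1 : SR q Λ₀ 4 (-2) (fun p => g.Z p * g.dd p * g.wp p / 2) :=
    sr_div_const hΛ (wc_d1_mul hq hΛ (by norm_num) (wc_d1_mul hq hΛ (c'' := -1) (by norm_num) Z4 d4) wp4) 2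
  exact wc_d1_mul hq hΛ (by norm_num)
    (wc_d1_mul hq hΛ (c'' := 1) (by norm_num) (sr_const_mul hΛ (q / (q + 1)) X4) Z4) (sr_sub hΛ t1 wpp4)

end

end Claimed.Agent.R324.Core
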