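/-
Row 324 (S0582), PDE core, module W (architect helper427; W0, WC, W1, W2: helper217).   Blueprint 7.3 (origin/helper232:docs/R324_blueprint.md).   FILE CoefD2
   Λ = -t,  X = Xf y = 1 - y²,  X̃ = Xt y,  ℓ² = ell2 q t = (q-1)/100 Λ^(2γ),  γ = gaF q = 8/bAl q,  2 < bAl q < 3 (`bAl_bounds`, q ≥ 100),  r̂² = rh2 = ℓ² + X̃,  Θ = Th = Λ + X̃   (Core/Defs.lean).
   tt f = -X f',  ttp f = tt f + y f;   pointwise rules and the class `SmI` (smooth near [-1,1]): Core/W/TtCalc.lean.     𝕀 = II: Core/W/Ibp.lean.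
WC, step 4: the zeroth order coefficients, row 2.      Z w'² : -2;   y B' : -2;   B(B+1) : -2 (B² : -2, B : -1 ⟶ -2);   w'', Z 𝖽 w' : -2;      entry (2,2): order -1.
      DW Λ₀ = [-Λ₀,0) × [-1,1],   SR q Λ₀ n c f := TS q (DW Λ₀) 2 n (wt q 0 0 c) f   (Core/W/SR.lean: sr_add, sr_sub, sr_neg, sr_const_mul, sr_div_const, sr_mul, sr_pow, sr_le, sr_of_le, sr_dY, sr_const, sr_y, sr_X, sr_inv, sr_congr, …).
      Symbols available (Core/W/CoefB.lean, CoefC.lean):  hc.B (6,-1), hc.wp (5,-1), hc.ew (6,-1), hc.W (6,-1), CoefS.Z (6,0), .dd (5,-1), .Bp (5,-2), .wpp (4,-2), .w1 (5,-1), .bh (5,0);   sr_X (order 1), sr_y, sr_const (order 0).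
      METHOD: `have e : g.cf q 0 0 = fun p => <the entry> := by funext p; simp [Bg.cf]` (the entries are in `Bg.cf`, Core/Defs.lean; compare `smbg_a_cf` in Core/PR/SmBg.lean), `rw [e]`, then build the expression with sr_mul/sr_add/…;
      every factor first brought to n = 4 (`sr_of_le`), every summand to the final order with `sr_le` (orders add under sr_mul; use `by simpa using` / `show` / `(by norm_num : … = …) ▸` for the integer arithmetic).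
-/
import Claimed.Agent.R324.Core.W.CoefC

set_option autoImplicit false

namespace Claimed.Agent.R324.Core

open Set Filter Topology MeasureTheory
open scoped ContDiff

noncomputable section

variable {q Λ₀ : ℝ} {g : Bg}

theorem wc_D2_mul {n : ℕ} {c c' c'' : ℤ} {f f' : Fn} (hq : 100 ≤ q) (hΛ : Λ₀ ≤ 1) (hf : SR q Λ₀ n c f)
    (hg : SR q Λ₀ n c' f') (h : c'' ≤ c + c') : SR q Λ₀ n c'' (fun p => f p * f' p) :=
  sr_le hq hΛ h (sr_mul hq hΛ hf hg)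

theorem CoefS.cf20 (hq : 100 ≤ q) (hΛ : Λ₀ ≤ 1) (hs : BgSm g) (hc : CoefS q g Λ₀) : SR q Λ₀ 4 (-2) (g.cf q 2 0) := by
  have Z4 : SR q Λ₀ 4 0 g.Z := sr_of_le (by norm_num) (hc.Z hq hΛ hs)
  have B4 : SR q Λ₀ 4 (-1) g.B := sr_of_le (by norm_num) hc.B
  have wp4 : SR q Λ₀ 4 (-1) g.wp := sr_of_le (by norm_num) hc.wp
  have Bp4 : SR q Λ₀ 4 (-2) g.Bp := sr_of_le (by norm_num) (hc.Bp hq hΛ)
  have y4 : SR q Λ₀ 4 0 (fun p => p.2) := sr_y hq hΛ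
  have t1 : SR q Λ₀ 4 (-2) (fun p => g.Z p * (g.wp p * g.wp p)) :=
    wc_D2_mul hq hΛ Z4 (sr_mul hq hΛ wp4 wp4) (by norm_num)
  have t2 : SR q Λ₀ 4 (-2) (fun p => p.2 * g.Bp p) := wc_D2_mul hq hΛ y4 Bp4 (by norm_num)
  have t3 : SR q Λ₀ 4 (-2) (fun p => g.B p * g.B p) := wc_D2_mul hq hΛ B4 B4 (by norm_num)
  have t4 : SR q Λ₀ 4 (-2) g.B := sr_le hq hΛ (by norm_num) B4
  have t5 : SR q Λ₀ 4 (-2) (fun p => p.2 * g.Bp p + 2 * (g.B p * g.B p + g.B p)) :=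
    sr_add hΛ t2 (sr_const_mul hΛ 2 (sr_add hΛ t3 t4))
  have t6 : SR q Λ₀ 4 (-2) (fun p => (g.Z p * g.Z p) * (p.2 * g.Bp p + 2 * (g.B p * g.B p + g.B p))) :=
    wc_D2_mul hq hΛ (sr_mul hq hΛ Z4 Z4) t5 (by norm_num)
  have t7 := sr_sub hΛ (sr_neg hΛ t1) (sr_const_mul hΛ (q - 1) t6)
  have e : g.cf q 2 0 = fun p => -(g.Z p * (g.wp p * g.wp p))
      - (q - 1) * ((g.Z p * g.Z p) * (p.2 * g.Bp p + 2 * (g.B p * g.B p + g.B p))) := by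
    funext p
    simp [Bg.cf]
    ring
  rw [e]
  exact t7

theorem CoefS.cf21 (hq : 100 ≤ q) (hΛ : Λ₀ ≤ 1) (hs : BgSm g) (hc : CoefS q g Λ₀) : SR q Λ₀ 4 (-2) (g.cf q 2 1) := by
  have Z4 : SR q Λ₀ 4 0 g.Z := sr_of_le (by norm_num) (hc.Z hq hΛ hs)
  have wp4 : SR q Λ₀ 4 (-1) g.wp := sr_of_le (by norm_num) hc.wp
  have d4 : SR q Λ₀ 4 (-1) g.dd := sr_of_le (by norm_num) (hc.dd hq hΛ)
  have wpp4 : SR q Λ₀ 4 (-2) g.wpp := hc.wpp hq hΛ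
  have t1 : SR q Λ₀ 4 (-2) (fun p => g.Z p * (g.dd p * g.wp p)) :=
    wc_D2_mul hq hΛ Z4 (sr_mul hq hΛ d4 wp4) (by norm_num)
  have t2 : SR q Λ₀ 4 (-2) (fun p => (-2) * g.wpp p + g.Z p * (g.dd p * g.wp p)) :=
    sr_add hΛ (sr_const_mul hΛ (-2) wpp4) t1
  have t3 : SR q Λ₀ 4 (-2) (fun p => g.Z p * ((-2) * g.wpp p + g.Z p * (g.dd p * g.wp p))) :=
    wc_D2_mul hq hΛ Z4 t2 (by norm_num)
  have e : g.cf q 2 1 = fun p => g.Z p * ((-2) * g.wpp p + g.Z p * (g.dd p * g.wp p)) := by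
    funext p
    simp only [Bg.cf, Matrix.cons_val]
    ring
  rw [e]
  exact t3

theorem CoefS.cf22 (hq : 100 ≤ q) (hΛ : Λ₀ ≤ 1) (hs : BgSm g) (hc : CoefS q g Λ₀) : SR q Λ₀ 4 (-1) (g.cf q 2 2) := by
  have Z4 : SR q Λ₀ 4 0 g.Z := sr_of_le (by norm_num) (hc.Z hq hΛ hs)
  have B4 : SR q Λ₀ 4 (-1) g.B := sr_of_le (by norm_num) hc.B
  have wp4 : SR q Λ₀ 4 (-1) g.wp := sr_of_le (by norm_num) hc.wp
  have d4 : SR q Λ₀ 4 (-1) g.dd := sr_of_le (by norm_num) (hc.dd hq hΛ)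
  have w14 : SR q Λ₀ 4 (-1) g.w1 := sr_of_le (by norm_num) (hc.w1 hq hΛ hs)
  have y4 : SR q Λ₀ 4 0 (fun p => p.2) := sr_y hq hΛ
  have X4 : SR q Λ₀ 4 1 (fun p => Xf p.2) := sr_X hq hΛ
  have c4 : SR q Λ₀ 4 (-1) (fun _ => 4 * (q + 1)) := sr_le hq hΛ (by norm_num) (sr_const _)
  have t1 : SR q Λ₀ 4 (-1) (fun p => g.Z p * (2 * (q - 1) * g.B p - 4 * (q + 1))) :=
    wc_D2_mul hq hΛ Z4 (sr_sub hΛ (sr_const_mul hΛ (2 * (q - 1)) B4) c4) (by norm_num)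
  have t2 : SR q Λ₀ 4 (-1) (fun p => g.Z p * (Xf p.2 * (g.wp p * g.wp p))) :=
    wc_D2_mul hq hΛ Z4 (sr_mul hq hΛ X4 (sr_mul hq hΛ wp4 wp4)) (by norm_num)
  have t3 : SR q Λ₀ 4 (-1) (fun p => p.2 * ((g.Z p * g.Z p) * g.dd p)) :=
    wc_D2_mul hq hΛ y4 (sr_mul hq hΛ (sr_mul hq hΛ Z4 Z4) d4) (by norm_num)
  have t4 : SR q Λ₀ 4 (-1) (fun p => p.2 * g.w1 p) := wc_D2_mul hq hΛ y4 w14 (by norm_num)
  have t5 := sr_sub hΛ (sr_div_const hΛ (sr_add hΛ (sr_sub hΛ t1 (sr_const_mul hΛ q t2)) (sr_const_mul hΛ (2 * q) t3)) (q + 1))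
    (sr_const_mul hΛ 2 t4)
  have e : g.cf q 2 2 = fun p => (g.Z p * (2 * (q - 1) * g.B p - 4 * (q + 1)) - q * (g.Z p * (Xf p.2 * (g.wp p * g.wp p)))
      + 2 * q * (p.2 * ((g.Z p * g.Z p) * g.dd p))) / (q + 1) - 2 * (p.2 * g.w1 p) := by
    funext p
    simp [Bg.cf]
    ring
  rw [e]
  exact t5

end

end Claimed.Agent.R324.Core
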