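/-
Row 324 (S0582), PDE core, module W (architect helper427; W0, WC, W1, W2: helper217).   Blueprint 7.3 (origin/helper232:docs/R324_blueprint.md).   FILE CoefE
   Λ = -t,  X = Xf y = 1 - y²,  X̃ = Xt y,  ℓ² = ell2 q t = (q-1)/100 Λ^(2γ),  γ = gaF q = 8/bAl q,  2 < bAl q < 3 (`bAl_bounds`, q ≥ 100),  r̂² = rh2 = ℓ² + X̃,  Θ = Th = Λ + X̃   (Core/Defs.lean).
   tt f = -X f',  ttp f = tt f + y f;   pointwise rules and the class `SmI` (smooth near [-1,1]): Core/W/TtCalc.lean.     𝕀 = II: Core/W/Ibp.lean.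
WC, step 5: the matrix 𝐦 = `mF` (Core/Bgd.lean) and the coefficients X c_2k.
      DW Λ₀ = [-Λ₀,0) × [-1,1],   SR q Λ₀ n c f := TS q (DW Λ₀) 2 n (wt q 0 0 c) f   (Core/W/SR.lean: sr_add, sr_sub, sr_neg, sr_const_mul, sr_div_const, sr_mul, sr_pow, sr_le, sr_of_le, sr_dY, sr_const, sr_y, sr_X, sr_inv, sr_congr, …).
      Symbols available (Core/W/CoefB.lean, CoefC.lean):  hc.B (6,-1), hc.wp (5,-1), hc.ew (6,-1), hc.W (6,-1), CoefS.Z (6,0), .dd (5,-1), .Bp (5,-2), .wpp (4,-2), .w1 (5,-1), .bh (5,0);   sr_X (order 1), sr_y, sr_const (order 0).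
      METHOD: `have e : g.cf q 0 0 = fun p => <the entry> := by funext p; simp [Bg.cf]` (the entries are in `Bg.cf`, Core/Defs.lean; compare `smbg_a_cf` in Core/PR/SmBg.lean), `rw [e]`, then build the expression with sr_mul/sr_add/…;
      every factor first brought to n = 4 (`sr_of_le`), every summand to the final order with `sr_le` (orders add under sr_mul; use `by simpa using` / `show` / `(by norm_num : … = …) ▸` for the integer arithmetic).
* `CoefS.cf`: fin_cases j <;> fin_cases k, the nine lemmas of CoefD0-2 (the excluded cases by `simp at h`).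
* `CoefS.cfX`: fin_cases k;  X c_20, X c_21: 1 - 2 = -1;   X c_22: 1 - 1 = 0 ⟶ -1.
* `CoefS.mF`:  fin_cases i <;> fin_cases k;   `have e : mF q g 0 0 = fun p => Xf p.2 * g.cf q 0 0 p := by funext p; simp [mF]`;    X² c_20: 2 - 2 = 0 (`sr_pow` or sr_mul twice);    𝐦_22 = X c_22 - Z (4y² - 2X) - 2 y b̂.
-/
import Claimed.Agent.R324.Core.W.CoefD0
import Claimed.Agent.R324.Core.W.CoefD1
import Claimed.Agent.R324.Core.W.CoefD2

set_option autoImplicit false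

namespace Claimed.Agent.R324.Core

open Set Filter Topology MeasureTheory
open scoped ContDiff

noncomputable section

variable {q Λ₀ : ℝ} {g : Bg}

theorem CoefS.cf (hq : 100 ≤ q) (hΛ : Λ₀ ≤ 1) (hs : BgSm g) (hc : CoefS q g Λ₀) (j k : Fin 3) (h : j ≠ 2 ∨ k = 2) : SR q Λ₀ 4 (-1) (g.cf q j k) := by
  fin_cases j <;> fin_cases k
  · exact CoefS.cf00 hq hΛ hs hc
  · exact CoefS.cf01 hq hΛ hs hc
  · exact CoefS.cf02 hq hΛ hs hc
  · exact CoefS.cf10 hq hΛ hs hc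
  · exact CoefS.cf11 hq hΛ hs hc
  · exact CoefS.cf12 hq hΛ hs hc
  · exact absurd h (by decide)
  · exact absurd h (by decide)
  · exact CoefS.cf22 hq hΛ hs hc

theorem CoefS.cfX (hq : 100 ≤ q) (hΛ : Λ₀ ≤ 1) (hs : BgSm g) (hc : CoefS q g Λ₀) (k : Fin 3) : SR q Λ₀ 4 (-1) (fun p => Xf p.2 * g.cf q 2 k p) := by
  fin_cases k
  · have h := sr_mul hq hΛ (sr_X (n := 4) hq hΛ) (CoefS.cf20 hq hΛ hs hc)
    exact h
  · have h := sr_mul hq hΛ (sr_X (n := 4) hq hΛ) (CoefS.cf21 hq hΛ hs hc)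
    exact h
  · have h := sr_mul hq hΛ (sr_X (n := 4) hq hΛ) (CoefS.cf22 hq hΛ hs hc)
    exact sr_le hq hΛ (by norm_num) h

theorem CoefS.mF (hq : 100 ≤ q) (hΛ : Λ₀ ≤ 1) (hs : BgSm g) (hc : CoefS q g Λ₀) (i k : Fin 3) : SR q Λ₀ 4 0 (Core.mF q g i k) := by
  have hX : SR q Λ₀ 4 1 (fun p => Xf p.2) := sr_X hq hΛ
  have key : ∀ j l : Fin 3, (j ≠ 2 ∨ l = 2) → SR q Λ₀ 4 0 (fun p => Xf p.2 * g.cf q j l p) := by
    intro j l h
    have h1 := sr_mul hq hΛ hX (CoefS.cf hq hΛ hs hc j l h)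
    exact h1
  have key2 : ∀ l : Fin 3, SR q Λ₀ 4 0 (fun p => Xf p.2 ^ 2 * g.cf q 2 l p) := by
    intro l
    have h1 := sr_mul hq hΛ hX (CoefS.cfX hq hΛ hs hc l)
    have e : (fun p : ℝ × ℝ => Xf p.2 ^ 2 * g.cf q 2 l p) = fun p => Xf p.2 * (Xf p.2 * g.cf q 2 l p) := by
      funext p; ring
    rw [e]
    exact h1
  fin_cases i <;> fin_cases k
  · exact key 0 0 (by decide)
  · exact key 0 1 (by decide)
  · exact key 0 2 (by decide)
  · exact key 1 0 (by decide)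
  · exact key 1 1 (by decide)
  · exact key 1 2 (by decide)
  · exact key2 0
  · exact key2 1
  · have hy : SR q Λ₀ 4 0 (fun p => p.2) := sr_y hq hΛ
    have hX0 : SR q Λ₀ 4 0 (fun p => Xf p.2) := sr_le hq hΛ (by norm_num) hX
    have hZ : SR q Λ₀ 4 0 g.Z := sr_of_le (by norm_num) (CoefS.Z hq hΛ hs hc)
    have hb : SR q Λ₀ 4 0 (g.bh q) := sr_of_le (by norm_num) (CoefS.bh hq hΛ hs hc)
    have hyy : SR q Λ₀ 4 0 (fun p => p.2 * p.2) := sr_mul hq hΛ hy hy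
    have h1 : SR q Λ₀ 4 0 (fun p => 4 * (p.2 * p.2) - 2 * Xf p.2) :=
      sr_sub hΛ (sr_const_mul hΛ 4 hyy) (sr_const_mul hΛ 2 hX0)
    have h2 : SR q Λ₀ 4 0 (fun p => g.Z p * (4 * (p.2 * p.2) - 2 * Xf p.2)) := sr_mul hq hΛ hZ h1
    have h3 : SR q Λ₀ 4 0 (fun p => 2 * (p.2 * g.bh q p)) := sr_const_mul hΛ 2 (sr_mul hq hΛ hy hb)
    have h4 := sr_sub hΛ (sr_sub hΛ (key 2 2 (by decide)) h2) h3
    have e : Core.mF q g 2 2 = fun p => Xf p.2 * g.cf q 2 2 p - g.Z p * (4 * (p.2 * p.2) - 2 * Xf p.2) - 2 * (p.2 * g.bh q p) := by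
      funext p
      simp only [Core.mF, Matrix.cons_val]
      ring
    show SR q Λ₀ 4 0 (Core.mF q g 2 2)
    rw [e]
    exact h4

end

end Claimed.Agent.R324.Core
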