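/-
Row 324 (S0582), PDE core, module W (architect helper427; W0, WC, W1, W2: helper217).   Blueprint 7.3 (origin/helper232:docs/R324_blueprint.md).   FILE Coef
   Λ = -t,  X = Xf y = 1 - y²,  X̃ = Xt y,  ℓ² = ell2 q t = (q-1)/100 Λ^(2γ),  γ = gaF q = 8/bAl q,  2 < bAl q < 3 (`bAl_bounds`, q ≥ 100),  r̂² = rh2 = ℓ² + X̃,  Θ = Th = Λ + X̃   (Core/Defs.lean).
   tt f = -X f',  ttp f = tt f + y f;   pointwise rules and the class `SmI` (smooth near [-1,1]): Core/W/TtCalc.lean.     𝕀 = II: Core/W/Ibp.lean.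
WC, RESULT: the bounds of the coefficients in tt-form with explicit constants (`CoefB`).   THIS IS WHAT THE OTHER PARTS OF W (and LD, NL, HI) USE.
      TtB Λ₀ C ϱ f :   |tt^j ∂_t^i f| ≤ C ϱ Θ^{-i},   i ≤ 2, j ≤ 4,  on [-Λ₀,0) × [-1,1].
      DW Λ₀ = [-Λ₀,0) × [-1,1],   SR q Λ₀ n c f := TS q (DW Λ₀) 2 n (wt q 0 0 c) f   (Core/W/SR.lean: sr_add, sr_sub, sr_neg, sr_const_mul, sr_div_const, sr_mul, sr_pow, sr_le, sr_of_le, sr_dY, sr_const, sr_y, sr_X, sr_inv, sr_congr, …).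
      Symbols available (Core/W/CoefB.lean, CoefC.lean):  hc.B (6,-1), hc.wp (5,-1), hc.ew (6,-1), hc.W (6,-1), CoefS.Z (6,0), .dd (5,-1), .Bp (5,-2), .wpp (4,-2), .w1 (5,-1), .bh (5,0);   sr_X (order 1), sr_y, sr_const (order 0).
      METHOD: `have e : g.cf q 0 0 = fun p => <the entry> := by funext p; simp [Bg.cf]` (the entries are in `Bg.cf`, Core/Defs.lean; compare `smbg_a_cf` in Core/PR/SmBg.lean), `rw [e]`, then build the expression with sr_mul/sr_add/…;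
      every factor first brought to n = 4 (`sr_of_le`), every summand to the final order with `sr_le` (orders add under sr_mul; use `by simpa using` / `show` / `(by norm_num : … = …) ▸` for the integer arithmetic).
* `wc_ttB`:  `TS.tt_bound` (Core/AP/Cal/Conv.lean) for each (i,j), i ≤ 2, j ≤ 4, gives C_ij ≥ 0;  C := the sum of the 15 constants (e.g. `choose` + `Finset.sum` over `Finset.range 3 ×ˢ Finset.range 5`, `Finset.single_le_sum`), uses ϱ/Θ^i ≥ 0.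
* `wc_ttB0`, `wc_ttB1`:  wt q 0 0 0 p = 1 (`wt_zero`),  wt q 0 0 (-1) p = 1/R (simp [wt], `zpow_neg_one`, `one_div`).
* `TtB.mono`: C ≤ C', ϱ ≥ 0.
* `wc_coefB_of`:  finitely many constants: take the maximum/sum K of all of them, of 1 and of 1/c (c from `CoefS.Zlow`); `TtB.mono`.
* `TtB.b00` …: specialise i, j;  `Function.iterate_zero`, `Function.iterate_one`, `Function.iterate_succ_apply'`, `pow_zero`, `pow_one`, `div_one`;   sl f t y = f (t,y) (rfl).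
-/
import Claimed.Agent.R324.Core.W.CoefE
import Claimed.Agent.R324.Core.PR.SmR

set_option autoImplicit false

namespace Claimed.Agent.R324.Core

open Set Filter Topology MeasureTheory
open scoped ContDiff

noncomputable section

variable {q Λ₀ Λ₁ C C' : ℝ} {g : Bg} {ϱ : ℝ → ℝ → ℝ} {f : Fn} {t y : ℝ}

/-- `|tt^j ∂_t^i f| ≤ C ϱ Θ^{-i}`, `i ≤ 2`, `j ≤ 4`. -/
def TtB (Λ₀ C : ℝ) (ϱ : ℝ → ℝ → ℝ) (f : Fn) : Prop :=
  ∀ t ∈ Ico (-Λ₀) 0, ∀ y ∈ Icc (-1 : ℝ) 1, ∀ i ≤ 2, ∀ j ≤ 4,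
    |(tt^[j] (sl (dT^[i] f) t)) y| ≤ C * ϱ t y / (Th t y) ^ i

/-- **the bounds of the coefficients of `Lop q g`.** -/
structure CoefB (q : ℝ) (g : Bg) (Λ₀ C : ℝ) : Prop where
  Zlow : ∀ t ∈ Ico (-Λ₀) 0, ∀ y ∈ Icc (-1 : ℝ) 1, 1 / C ≤ g.Z (t, y)
  Z : TtB Λ₀ C (fun _ _ => 1) g.Z
  bh : TtB Λ₀ C (fun _ _ => 1) (g.bh q)
  mF : ∀ i k, TtB Λ₀ C (fun _ _ => 1) (mF q g i k)
  w1 : TtB Λ₀ C (fun t y => 1 / rh2 q t y) g.w1
  cf : ∀ j k : Fin 3, (j ≠ 2 ∨ k = 2) → TtB Λ₀ C (fun t y => 1 / rh2 q t y) (g.cf q j k)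
  cfX : ∀ k : Fin 3, TtB Λ₀ C (fun t y => 1 / rh2 q t y) (fun p => Xf p.2 * g.cf q 2 k p)

theorem wc_coef_Th_pos (ht : t ∈ Ico (-Λ₀) 0) (hy : y ∈ Icc (-1 : ℝ) 1) : 0 < Th t y := by
  have h := (Xt_nonneg hy.1 hy.2).1
  have h2 := ht.2
  unfold Th
  linarith

theorem TtB.mono (h0 : ∀ t ∈ Ico (-Λ₀) 0, ∀ y ∈ Icc (-1 : ℝ) 1, 0 ≤ ϱ t y) (hC : C ≤ C') (h : TtB Λ₀ C ϱ f) :
    TtB Λ₀ C' ϱ f := by
  intro t ht y hy i hi j hj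
  refine (h t ht y hy i hi j hj).trans ?_
  have hT : 0 < Th t y := wc_coef_Th_pos ht hy
  exact div_le_div_of_nonneg_right (mul_le_mul_of_nonneg_right hC (h0 t ht y hy)) (pow_pos hT i).le

theorem TtB.mono_Lam (hΛ : Λ₁ ≤ Λ₀) (h : TtB Λ₀ C ϱ f) : TtB Λ₁ C ϱ f :=
  fun t ht y hy i hi j hj => h t ⟨by linarith [ht.1], ht.2⟩ y hy i hi j hj

/-- from a symbol to the `tt`-bounds, general weight. -/
theorem wc_ttB (hq : 100 ≤ q) (hΛ : Λ₀ ≤ 1) {σ : Fn} (h0 : ∀ p ∈ DW Λ₀, 0 ≤ σ p)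
    (h : TS q (DW Λ₀) 2 4 σ f) : ∃ C : ℝ, 0 ≤ C ∧ TtB Λ₀ C (fun t y => σ (t, y)) f := by
  have hD := domOK_DW hΛ
  have hex : ∀ ij : ℕ × ℕ, ∃ C : ℝ, 0 ≤ C ∧ (ij.1 ≤ 2 → ij.2 ≤ 4 → ∀ p ∈ DW Λ₀,
      |(tt^[ij.2] (sl (dT^[ij.1] f) p.1)) p.2| ≤ C * σ p / (Th p.1 p.2) ^ ij.1) := by
    intro ij
    by_cases h1 : ij.1 ≤ 2
    · by_cases h2 : ij.2 ≤ 4
      · obtain ⟨C, hC, hb⟩ := TS.tt_bound hq hD h h1 h2
        exact ⟨C, hC, fun _ _ => hb⟩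
      · exact ⟨0, le_rfl, fun _ h' => absurd h' h2⟩
    · exact ⟨0, le_rfl, fun h' => absurd h' h1⟩
  choose Cf hCf hb using hex
  refine ⟨∑ ij ∈ Finset.range 3 ×ˢ Finset.range 5, Cf ij, Finset.sum_nonneg fun ij _ => hCf ij, ?_⟩
  intro t ht y hy i hi j hj
  have hp : ((t, y) : ℝ × ℝ) ∈ DW Λ₀ := mem_DW ht hy
  have h1 := hb (i, j) hi hj (t, y) hp
  have h2 : Cf (i, j) ≤ ∑ ij ∈ Finset.range 3 ×ˢ Finset.range 5, Cf ij :=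
    Finset.single_le_sum (f := Cf) (fun k _ => hCf k)
      (Finset.mem_product.2 ⟨Finset.mem_range.2 (by simp only; omega), Finset.mem_range.2 (by simp only; omega)⟩)
  have hT : 0 < Th t y := wc_coef_Th_pos ht hy
  refine h1.trans ?_
  exact div_le_div_of_nonneg_right (mul_le_mul_of_nonneg_right h2 (h0 _ hp)) (pow_pos hT i).le

theorem wc_ttB0 (hq : 100 ≤ q) (hΛ : Λ₀ ≤ 1) (h : SR q Λ₀ 4 0 f) : ∃ C : ℝ, 0 ≤ C ∧ TtB Λ₀ C (fun _ _ => 1) f := by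
  obtain ⟨C, hC, hb⟩ := wc_ttB hq hΛ (fun p hp => (wt_pos hq (domOK_DW hΛ) hp).le) h
  refine ⟨C, hC, ?_⟩
  have e : (fun t y => wt q 0 0 0 (t, y)) = fun _ _ => (1 : ℝ) := by
    funext t y
    exact wt_zero _
  rw [e] at hb
  exact hb

theorem wc_ttB1 (hq : 100 ≤ q) (hΛ : Λ₀ ≤ 1) (h : SR q Λ₀ 4 (-1) f) :
    ∃ C : ℝ, 0 ≤ C ∧ TtB Λ₀ C (fun t y => 1 / rh2 q t y) f := by
  obtain ⟨C, hC, hb⟩ := wc_ttB hq hΛ (fun p hp => (wt_pos hq (domOK_DW hΛ) hp).le) h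
  refine ⟨C, hC, ?_⟩
  have e : (fun t y => wt q 0 0 (-1) (t, y)) = fun t y => 1 / rh2 q t y := by
    funext t y
    simp [wt, one_div]
  rw [e] at hb
  exact hb

theorem TtB.b00 (h : TtB Λ₀ C ϱ f) (ht : t ∈ Ico (-Λ₀) 0) (hy : y ∈ Icc (-1 : ℝ) 1) : |f (t, y)| ≤ C * ϱ t y := by
  have h1 := h t ht y hy 0 (by norm_num) 0 (by norm_num)
  simpa [sl] using h1

theorem TtB.b01 (h : TtB Λ₀ C ϱ f) (ht : t ∈ Ico (-Λ₀) 0) (hy : y ∈ Icc (-1 : ℝ) 1) :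
    |tt (sl f t) y| ≤ C * ϱ t y := by
  have h1 := h t ht y hy 0 (by norm_num) 1 (by norm_num)
  simpa using h1

theorem TtB.b02 (h : TtB Λ₀ C ϱ f) (ht : t ∈ Ico (-Λ₀) 0) (hy : y ∈ Icc (-1 : ℝ) 1) :
    |tt (tt (sl f t)) y| ≤ C * ϱ t y := by
  have h1 := h t ht y hy 0 (by norm_num) 2 (by norm_num)
  simpa using h1

theorem TtB.b10 (h : TtB Λ₀ C ϱ f) (ht : t ∈ Ico (-Λ₀) 0) (hy : y ∈ Icc (-1 : ℝ) 1) :
    |dT f (t, y)| ≤ C * ϱ t y / Th t y := by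
  have h1 := h t ht y hy 1 (by norm_num) 0 (by norm_num)
  simpa [sl] using h1

theorem TtB.b11 (h : TtB Λ₀ C ϱ f) (ht : t ∈ Ico (-Λ₀) 0) (hy : y ∈ Icc (-1 : ℝ) 1) :
    |tt (sl (dT f) t) y| ≤ C * ϱ t y / Th t y := by
  have h1 := h t ht y hy 1 (by norm_num) 1 (by norm_num)
  simpa using h1

theorem CoefB.mono_Lam (hΛ : Λ₁ ≤ Λ₀) (h : CoefB q g Λ₀ C) : CoefB q g Λ₁ C :=
  ⟨fun t ht y hy => h.Zlow t ⟨by linarith [ht.1], ht.2⟩ y hy, h.Z.mono_Lam hΛ, h.bh.mono_Lam hΛ,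
    fun i k => (h.mF i k).mono_Lam hΛ, h.w1.mono_Lam hΛ, fun j k hjk => (h.cf j k hjk).mono_Lam hΛ,
    fun k => (h.cfX k).mono_Lam hΛ⟩

/-- from the symbols to the explicit bounds. -/
theorem wc_coefB_of (hq : 100 ≤ q) (hΛ : Λ₀ ≤ 1) (hs : BgSm g) (hc : CoefS q g Λ₀) :
    ∃ C : ℝ, 1 ≤ C ∧ CoefB q g Λ₀ C := by
  obtain ⟨c, hc0, hlow⟩ := CoefS.Zlow hq hΛ hs hc
  obtain ⟨CZ, hCZ, hZ⟩ := wc_ttB0 hq hΛ (sr_of_le (by norm_num) (CoefS.Z hq hΛ hs hc))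
  obtain ⟨Cb, hCb, hbh⟩ := wc_ttB0 hq hΛ (sr_of_le (by norm_num) (CoefS.bh hq hΛ hs hc))
  obtain ⟨Cw, hCw, hw1⟩ := wc_ttB1 hq hΛ (sr_of_le (by norm_num) (CoefS.w1 hq hΛ hs hc))
  have hexF : ∀ i k : Fin 3, ∃ C : ℝ, 0 ≤ C ∧ TtB Λ₀ C (fun _ _ => 1) (mF q g i k) :=
    fun i k => wc_ttB0 hq hΛ (CoefS.mF hq hΛ hs hc i k)
  choose CF hCF hF using hexF
  have hexc : ∀ j k : Fin 3, ∃ C : ℝ, 0 ≤ C ∧
      ((j ≠ 2 ∨ k = 2) → TtB Λ₀ C (fun t y => 1 / rh2 q t y) (g.cf q j k)) := by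
    intro j k
    by_cases hjk : j ≠ 2 ∨ k = 2
    · obtain ⟨C, hC, h⟩ := wc_ttB1 hq hΛ (CoefS.cf hq hΛ hs hc j k hjk)
      exact ⟨C, hC, fun _ => h⟩
    · exact ⟨0, le_rfl, fun h' => absurd h' hjk⟩
  choose Cc hCc hcf using hexc
  have hexX : ∀ k : Fin 3, ∃ C : ℝ, 0 ≤ C ∧
      TtB Λ₀ C (fun t y => 1 / rh2 q t y) (fun p => Xf p.2 * g.cf q 2 k p) :=
    fun k => wc_ttB1 hq hΛ (CoefS.cfX hq hΛ hs hc k)
  choose CX hCX hX using hexX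
  have hSF : 0 ≤ ∑ i, ∑ k, CF i k := Finset.sum_nonneg fun i _ => Finset.sum_nonneg fun k _ => hCF i k
  have hSc : 0 ≤ ∑ j, ∑ k, Cc j k := Finset.sum_nonneg fun i _ => Finset.sum_nonneg fun k _ => hCc i k
  have hSX : 0 ≤ ∑ k, CX k := Finset.sum_nonneg fun k _ => hCX k
  have hic : 0 < 1 / c := by positivity
  have hFle : ∀ i k, CF i k ≤ ∑ i, ∑ k, CF i k := fun i k =>
    (Finset.single_le_sum (f := fun k => CF i k) (fun k _ => hCF i k) (Finset.mem_univ k)).trans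
      (Finset.single_le_sum (f := fun i => ∑ k, CF i k)
        (fun i _ => Finset.sum_nonneg fun k _ => hCF i k) (Finset.mem_univ i))
  have hcle : ∀ i k, Cc i k ≤ ∑ i, ∑ k, Cc i k := fun i k =>
    (Finset.single_le_sum (f := fun k => Cc i k) (fun k _ => hCc i k) (Finset.mem_univ k)).trans
      (Finset.single_le_sum (f := fun i => ∑ k, Cc i k)
        (fun i _ => Finset.sum_nonneg fun k _ => hCc i k) (Finset.mem_univ i))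
  have hXle : ∀ k, CX k ≤ ∑ k, CX k := fun k =>
    Finset.single_le_sum (f := CX) (fun k _ => hCX k) (Finset.mem_univ k)
  have h01 : ∀ t ∈ Ico (-Λ₀) 0, ∀ y ∈ Icc (-1 : ℝ) 1, (0 : ℝ) ≤ (fun _ _ => (1 : ℝ)) t y :=
    fun _ _ _ _ => zero_le_one
  have h0R : ∀ t ∈ Ico (-Λ₀) 0, ∀ y ∈ Icc (-1 : ℝ) 1, (0 : ℝ) ≤ (fun t y => 1 / rh2 q t y) t y := by
    intro t ht y hy
    have hR : 0 < rh2 q t y := rh2_pos_dom (by linarith) (domOK_DW hΛ) (p := (t, y)) (mem_DW ht hy)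
    exact (one_div_pos.2 hR).le
  set K : ℝ := 1 + 1 / c + CZ + Cb + Cw + (∑ i, ∑ k, CF i k) + (∑ j, ∑ k, Cc j k) + ∑ k, CX k with hK
  have hK1 : 1 ≤ K := by rw [hK]; linarith
  refine ⟨K, hK1, ?_, ?_, ?_, ?_, ?_, ?_, ?_⟩
  · intro t ht y hy
    have h1 : 1 / K ≤ c := by
      rw [div_le_iff₀ (by linarith)]
      have h2 : 1 / c ≤ K := by rw [hK]; linarith
      calc (1 : ℝ) = c * (1 / c) := by field_simp
        _ ≤ c * K := mul_le_mul_of_nonneg_left h2 hc0.le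
    exact h1.trans (hlow (t, y) (mem_DW ht hy))
  · exact hZ.mono h01 (by rw [hK]; linarith)
  · exact hbh.mono h01 (by rw [hK]; linarith)
  · exact fun i k => (hF i k).mono h01 (by rw [hK]; linarith [hFle i k])
  · exact hw1.mono h0R (by rw [hK]; linarith)
  · exact fun j k hjk => (hcf j k hjk).mono h0R (by rw [hK]; linarith [hcle j k])
  · exact fun k => (hX k).mono h0R (by rw [hK]; linarith [hXle k])

/-- **WC** for a general background. -/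
theorem wc_coefB (hq : 100 ≤ q) (hs : BgSm g) (h1 : BgSym q g) (h2 : BgSymT q g) :
    ∃ Λ₀ C : ℝ, 0 < Λ₀ ∧ Λ₀ ≤ 100 / q ∧ 1 ≤ C ∧ CoefB q g Λ₀ C := by
  obtain ⟨Λ₀, h0, hΛ, hc⟩ := wc_base hq hs h1 h2
  have hΛ1 : Λ₀ ≤ 1 := hΛ.trans (by rw [div_le_one (by linarith)]; exact hq)
  obtain ⟨C, hC, h⟩ := wc_coefB_of hq hΛ1 hs hc
  exact ⟨Λ₀, C, h0, hΛ, hC, h⟩

/-- **WC** for the reference background. -/
theorem wc_coefB_R (hq : 100 ≤ q) (hg : BgGood q g) :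
    ∃ Λ₀ C : ℝ, 0 < Λ₀ ∧ Λ₀ ≤ 100 / q ∧ 1 ≤ C ∧ CoefB q (bgR q g) Λ₀ C :=
  wc_coefB hq (bgR_sm (by linarith) hg.sm) hg.symR hg.symTR

/-- **WC** for the background itself. -/
theorem wc_coefB_g (hq : 100 ≤ q) (hg : BgGood q g) :
    ∃ Λ₀ C : ℝ, 0 < Λ₀ ∧ Λ₀ ≤ 100 / q ∧ 1 ≤ C ∧ CoefB q g Λ₀ C :=
  wc_coefB hq hg.sm hg.sym hg.symT

/-- hygiene. -/
theorem core_w_coef_hygiene : True := by
  have := @TtB.eq_1
  trivial

end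

end Claimed.Agent.R324.Core
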