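/-
Row 324 (S0582), PDE core, module W (architect helper427; W0, WC, W1, W2: helper217).   Blueprint 7.3 (origin/helper232:docs/R324_blueprint.md).   FILE FormDefs
   Λ = -t,  X = Xf y = 1 - y²,  X̃ = Xt y,  ℓ² = ell2 q t = (q-1)/100 Λ^(2γ),  γ = gaF q = 8/bAl q,  2 < bAl q < 3 (`bAl_bounds`, q ≥ 100),  r̂² = rh2 = ℓ² + X̃,  Θ = Th = Λ + X̃   (Core/Defs.lean).
   tt f = -X f',  ttp f = tt f + y f;   pointwise rules and the class `SmI` (smooth near [-1,1]): Core/W/TtCalc.lean.     𝕀 = II: Core/W/Ibp.lean.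
W1, notation for the forms.      u-form of a slice u = (σ, h₃, b):   uV u = (σ, h₃, X b)  (functions of y);     κ = kapJ q = (q+1, 2, q/(q+1));    ⟨ξ,η⟩ = ipK q ξ η = Σ κ_i ξ_i η_i,   |ξ|² = nk q ξ (Core/Bgd.lean);
      n2 q u y = |uV u (y)|²,    n2t q u y = |tt (uV u)(y)|²,     ⟨𝐦 η, ξ⟩-type form  bilM q g p ξ η = Σ_ij κ_i 𝐦_ij ξ_i η_j   (bilM ξ ξ = quadM).
* everything by `simp [.., Fin.sum_univ_three, kapJ]` + ring.      `uV_two`: funext; simp [uV].      n2t uses `tt (fun z => (1 - z^2) * u 2 z)` which is `tt (uV u 2)` after `uV_two`.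
* `ipK_abs_le`:  Cauchy-Schwarz in ℝ³ with weights κ_i > 0:  (Σ κ ξ η)² ≤ (Σ κ ξ²)(Σ κ η²)  (`Finset.sum_mul_sq_le_sq_mul_sq` with √κ ξ, or `inner_mul_le_norm_mul_norm`, or nlinarith with the three 2×2 minors), `Real.abs_le_sqrt`, `Real.sqrt_mul`.
* `abs_le_sqrt_nk`:  κ_i ≥ 1/2 (q ≥ 1), so ξ_i² ≤ 2 κ_i ξ_i² ≤ 2 |ξ|².
* `bilM_abs_le`:  |κ_i 𝐦_ij ξ_i η_j| ≤ (q+1) C |ξ_i||η_j| ≤ (q+1) C · 4 √|ξ|² √|η|² (`abs_le_sqrt_nk`; κ_i ≤ q+1);  nine terms: 36 (q+1) C.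
-/
import Claimed.Agent.R324.Core.W.Coef
import Claimed.Agent.R324.Core.PR.TT

set_option autoImplicit false

namespace Claimed.Agent.R324.Core

open Set Filter Topology MeasureTheory
open scoped ContDiff

noncomputable section

/-- the `u`-form `(σ, h₃, X b)` of a slice. -/
def uV (u : Fin 3 → ℝ → ℝ) (i : Fin 3) (y : ℝ) : ℝ := if i = 2 then (1 - y ^ 2) * u 2 y else u i y

/-- `⟨ξ, η⟩_κ`. -/
def ipK (q : ℝ) (ξ η : Fin 3 → ℝ) : ℝ := ∑ i, kapJ q i * ξ i * η i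

/-- `Σ κ_i 𝐦_ij ξ_i η_j`. -/
def bilM (q : ℝ) (g : Bg) (p : ℝ × ℝ) (ξ η : Fin 3 → ℝ) : ℝ := ∑ i, ∑ j, kapJ q i * mF q g i j p * ξ i * η j

/-- hygiene. -/
theorem core_w_formdefs_hygiene : True := by
  have := @uV.eq_1
  have := @ipK.eq_1
  have := @bilM.eq_1
  trivial

variable {q C : ℝ} {g : Bg} {u v : Fin 3 → ℝ → ℝ} {U : Tri} {t y : ℝ} {ξ η : Fin 3 → ℝ}

theorem uV_zero (u : Fin 3 → ℝ → ℝ) : uV u 0 = u 0 := by
  funext y
  simp [uV]

theorem uV_one (u : Fin 3 → ℝ → ℝ) : uV u 1 = u 1 := by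
  funext y
  simp [uV]

theorem uV_two (u : Fin 3 → ℝ → ℝ) : uV u 2 = fun y => (1 - y ^ 2) * u 2 y := by
  funext y
  simp [uV]

theorem uV_slT (U : Tri) (t : ℝ) (i : Fin 3) : uV (slT U t) i = sl (uT U i) t := by
  funext y
  fin_cases i <;> simp [uV, slT, sl, uT, Xf]

theorem smI_uV (hu : ∀ j, SmI (u j)) (i : Fin 3) : SmI (uV u i) := by
  fin_cases i
  · show SmI (uV u 0)
    rw [uV_zero]
    exact hu 0
  · show SmI (uV u 1)
    rw [uV_one]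
    exact hu 1
  · show SmI (uV u 2)
    rw [uV_two]
    exact ((smI_const 1).sub (smI_id.pow 2)).mul (hu 2)

theorem smI_slT (hU : ∀ j, Sm (U j)) (ht : t < 0) (j : Fin 3) : SmI (slT U t j) := (hU j).smI ht

theorem ipK_self (q : ℝ) (ξ : Fin 3 → ℝ) : ipK q ξ ξ = nk q ξ := by
  simp only [ipK, nk, Fin.sum_univ_three]
  ring

theorem ipK_comm (q : ℝ) (ξ η : Fin 3 → ℝ) : ipK q ξ η = ipK q η ξ := by
  simp only [ipK, Fin.sum_univ_three]
  ring

theorem bilM_self (q : ℝ) (g : Bg) (p : ℝ × ℝ) (ξ : Fin 3 → ℝ) : bilM q g p ξ ξ = quadM q g p ξ := by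
  rfl

theorem n2_eq_nk (q : ℝ) (u : Fin 3 → ℝ → ℝ) (y : ℝ) : n2 q u y = nk q (fun i => uV u i y) := by
  simp only [n2, nk, Fin.sum_univ_three, uV_zero, uV_one, uV_two]
  simp [kapJ]

theorem n2t_eq_nk (q : ℝ) (u : Fin 3 → ℝ → ℝ) (y : ℝ) : n2t q u y = nk q (fun i => tt (uV u i) y) := by
  simp only [n2t, nk, Fin.sum_univ_three, uV_zero, uV_one, uV_two]
  simp [kapJ]

theorem kapJ_pos (hq : 0 < q) (i : Fin 3) : 0 < kapJ q i := by
  fin_cases i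
  · show 0 < q + 1
    linarith
  · show (0 : ℝ) < 2
    norm_num
  · show 0 < q / (q + 1)
    positivity

theorem nk_nonneg (hq : 0 < q) (ξ : Fin 3 → ℝ) : 0 ≤ nk q ξ := by
  unfold nk
  exact Finset.sum_nonneg fun i _ => mul_nonneg (kapJ_pos hq i).le (sq_nonneg _)

theorem n2_nonneg (hq : 0 < q) (u : Fin 3 → ℝ → ℝ) (y : ℝ) : 0 ≤ n2 q u y := by
  rw [n2_eq_nk]
  exact nk_nonneg hq _

theorem n2t_nonneg (hq : 0 < q) (u : Fin 3 → ℝ → ℝ) (y : ℝ) : 0 ≤ n2t q u y := by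
  rw [n2t_eq_nk]
  exact nk_nonneg hq _

theorem ipK_abs_le (hq : 0 < q) (ξ η : Fin 3 → ℝ) : |ipK q ξ η| ≤ Real.sqrt (nk q ξ) * Real.sqrt (nk q η) := by
  rw [← Real.sqrt_mul (nk_nonneg hq ξ)]
  apply Real.abs_le_sqrt
  have h := Finset.sum_mul_sq_le_sq_mul_sq (Finset.univ : Finset (Fin 3))
    (fun i => Real.sqrt (kapJ q i) * ξ i) (fun i => Real.sqrt (kapJ q i) * η i)
  have e1 : ∀ i, Real.sqrt (kapJ q i) * ξ i * (Real.sqrt (kapJ q i) * η i) = kapJ q i * ξ i * η i := by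
    intro i
    have := Real.mul_self_sqrt (kapJ_pos hq i).le
    calc Real.sqrt (kapJ q i) * ξ i * (Real.sqrt (kapJ q i) * η i)
        = (Real.sqrt (kapJ q i) * Real.sqrt (kapJ q i)) * ξ i * η i := by ring
      _ = kapJ q i * ξ i * η i := by rw [this]
  have e2 : ∀ (ζ : Fin 3 → ℝ) i, (Real.sqrt (kapJ q i) * ζ i) ^ 2 = kapJ q i * (ζ i) ^ 2 := by
    intro ζ i
    rw [mul_pow, Real.sq_sqrt (kapJ_pos hq i).le]
  simp only [e1, e2] at h
  exact h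

theorem abs_le_sqrt_nk (hq : 1 ≤ q) (ξ : Fin 3 → ℝ) (i : Fin 3) : |ξ i| ≤ 2 * Real.sqrt (nk q ξ) := by
  have hq0 : 0 < q := by linarith
  have hk : 1 / 2 ≤ kapJ q i := by
    fin_cases i
    · show 1 / 2 ≤ q + 1
      linarith
    · show (1 / 2 : ℝ) ≤ 2
      norm_num
    · show 1 / 2 ≤ q / (q + 1)
      rw [div_le_div_iff₀ (by norm_num) (by linarith)]
      linarith
  have h1 : kapJ q i * (ξ i) ^ 2 ≤ nk q ξ := by
    unfold nk
    exact Finset.single_le_sum (f := fun i => kapJ q i * (ξ i) ^ 2)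
      (fun j _ => mul_nonneg (kapJ_pos hq0 j).le (sq_nonneg _)) (Finset.mem_univ i)
  have h2 : (ξ i) ^ 2 ≤ 4 * nk q ξ := by
    nlinarith [sq_nonneg (ξ i), nk_nonneg hq0 ξ]
  have h3 : |ξ i| ≤ Real.sqrt (4 * nk q ξ) := Real.abs_le_sqrt h2
  have h4 : Real.sqrt (4 * nk q ξ) = 2 * Real.sqrt (nk q ξ) := by
    rw [Real.sqrt_mul (by norm_num), show (4 : ℝ) = 2 ^ 2 by norm_num, Real.sqrt_sq (by norm_num)]
  rw [h4] at h3
  exact h3

theorem bilM_abs_le (hq : 1 ≤ q) {p : ℝ × ℝ} (hC : ∀ i j, |mF q g i j p| ≤ C) (ξ η : Fin 3 → ℝ) :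
    |bilM q g p ξ η| ≤ 36 * (q + 1) * C * (Real.sqrt (nk q ξ) * Real.sqrt (nk q η)) := by
  have hq0 : 0 < q := by linarith
  have hC0 : 0 ≤ C := (abs_nonneg _).trans (hC 0 0)
  have hk : ∀ i, kapJ q i ≤ q + 1 := by
    intro i
    fin_cases i
    · show q + 1 ≤ q + 1
      exact le_rfl
    · show (2 : ℝ) ≤ q + 1
      linarith
    · show q / (q + 1) ≤ q + 1
      rw [div_le_iff₀ (by linarith)]
      nlinarith
  set a := Real.sqrt (nk q ξ) with ha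
  set b := Real.sqrt (nk q η) with hb
  have ha0 : 0 ≤ a := Real.sqrt_nonneg _
  have hb0 : 0 ≤ b := Real.sqrt_nonneg _
  have hterm : ∀ i j, |kapJ q i * mF q g i j p * ξ i * η j| ≤ 4 * (q + 1) * C * (a * b) := by
    intro i j
    rw [abs_mul, abs_mul, abs_mul, abs_of_pos (kapJ_pos hq0 i)]
    have h1 : kapJ q i * |mF q g i j p| ≤ (q + 1) * C :=
      mul_le_mul (hk i) (hC i j) (abs_nonneg _) (by linarith)
    have h2 : |ξ i| * |η j| ≤ (2 * a) * (2 * b) :=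
      mul_le_mul (abs_le_sqrt_nk hq ξ i) (abs_le_sqrt_nk hq η j) (abs_nonneg _) (by positivity)
    calc kapJ q i * |mF q g i j p| * |ξ i| * |η j|
        = (kapJ q i * |mF q g i j p|) * (|ξ i| * |η j|) := by ring
      _ ≤ ((q + 1) * C) * ((2 * a) * (2 * b)) :=
          mul_le_mul h1 h2 (by positivity) (by positivity)
      _ = 4 * (q + 1) * C * (a * b) := by ring
  unfold bilM
  calc |∑ i, ∑ j, kapJ q i * mF q g i j p * ξ i * η j|
      ≤ ∑ i, |∑ j, kapJ q i * mF q g i j p * ξ i * η j| := Finset.abs_sum_le_sum_abs _ _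
    _ ≤ ∑ i : Fin 3, ∑ j : Fin 3, |kapJ q i * mF q g i j p * ξ i * η j| :=
        Finset.sum_le_sum fun i _ => Finset.abs_sum_le_sum_abs _ _
    _ ≤ ∑ _i : Fin 3, ∑ _j : Fin 3, 4 * (q + 1) * C * (a * b) :=
        Finset.sum_le_sum fun i _ => Finset.sum_le_sum fun j _ => hterm i j
    _ = 36 * (q + 1) * C * (a * b) := by
        simp only [Finset.sum_const, Finset.card_univ, Fintype.card_fin, nsmul_eq_mul]
        ring

theorem ci_n2 (hu : ∀ j, SmI (u j)) : CI (n2 q u) := by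
  have h : SmI (n2 q u) := by
    unfold n2
    exact ((((hu 0).pow 2).const_mul (q + 1)).add (((hu 1).pow 2).const_mul 2)).add
      (((((smI_const 1).sub (smI_id.pow 2)).mul (hu 2)).pow 2).const_mul (q / (q + 1)))
  exact h.continuousOn

theorem ci_n2t (hu : ∀ j, SmI (u j)) : CI (n2t q u) := by
  have h : SmI (n2t q u) := by
    unfold n2t
    exact (((((hu 0).tt).pow 2).const_mul (q + 1)).add ((((hu 1).tt).pow 2).const_mul 2)).add
      ((((((smI_const 1).sub (smI_id.pow 2)).mul (hu 2)).tt).pow 2).const_mul (q / (q + 1)))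
  exact h.continuousOn

end

end Claimed.Agent.R324.Core
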