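/-
Row 324 (S0582), PDE core, module W (architect helper427; W0, WC, W1, W2: helper217).   Blueprint 7.3 (origin/helper232:docs/R324_blueprint.md).   FILE FormId
   Λ = -t,  X = Xf y = 1 - y²,  X̃ = Xt y,  ℓ² = ell2 q t = (q-1)/100 Λ^(2γ),  γ = gaF q = 8/bAl q,  2 < bAl q < 3 (`bAl_bounds`, q ≥ 100),  r̂² = rh2 = ℓ² + X̃,  Θ = Th = Λ + X̃   (Core/Defs.lean).
   tt f = -X f',  ttp f = tt f + y f;   pointwise rules and the class `SmI` (smooth near [-1,1]): Core/W/TtCalc.lean.     𝕀 = II: Core/W/Ibp.lean.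
W1: the form identities.      X (L u)_i = Z tt² u_i + b̂ tt u_i + Σ_j 𝐦_ij u_j   (`lop_tt_sl`, Core/PR/TT.lean;  u = uT U, and `uV_slT`: uV (slT U t) i = sl (uT U i) t).       IBP: `ii_ibp`, `ii_ibp_sq` (Core/W/Ibp.lean).
* `w1_scalar`:  `ii_ibp` with F := F·a, G := tt b:   𝕀[F a tt(tt b)] = -𝕀[ttp(F a) tt b],    ttp (F a) = ttp F · a + F · tt a  (`ttp_apply`, `tt_mul`);  `ii_congr`, `ii_add`, continuity from `SmI.continuousOn` (`SmI.mul`, `SmI.tt`, `SmI.ttp`).
* `w1_form_bilin`:  F := om · Z(t,·) (SmI: `hs.smZ.smI ht`).    Pointwise on [-1,1]:   X om ⟨k, Lu⟩ = Σ_i κ_i k_i om (Z tt²u_i + b̂ tt u_i + Σ_j 𝐦_ij u_j);   expand the three sums (`Fin.sum_univ_three`, `ii_add`, `ii_const_mul`), apply `w1_scalar` for i = 0,1,2.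
      Suggestion: prove first the version for one index i, then sum with `ii_sum`.
* `w1_form_id`:  k = u in `w1_form_bilin`;   ⟨u, tt u⟩ = Σ κ_i u_i tt u_i;   `ii_ibp_sq` with F := om b̂ - ttp(om Z):   𝕀[F u_i tt u_i] = -½ 𝕀[ttp F u_i²],   ttp F = ttp(om b̂) - ttp(ttp(om Z)) = -2 zzF   (`tt_sub`; `zzF` in Core/Bgd.lean);   `n2_eq_nk`, `n2t_eq_nk`, `bilM_self`, `ipK_self`.
-/
import Claimed.Agent.R324.Core.W.FormDefs

set_option autoImplicit false

namespace Claimed.Agent.R324.Core

open Set Filter Topology MeasureTheory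
open scoped ContDiff

noncomputable section

variable {q : ℝ} {g : Bg} {U : Tri} {t : ℝ} {om F a b : ℝ → ℝ} {k : Fin 3 → ℝ → ℝ}

/-- one integration by parts on the second order term. -/
theorem w1_scalar (hF : SmI F) (ha : SmI a) (hb : SmI b) :
    II (fun y => F y * a y * tt (tt b) y)
      = -II (fun y => F y * tt a y * tt b y) - II (fun y => ttp F y * a y * tt b y) := by
  have h := ii_ibp (hF.mul ha) hb.tt
  have e : II (fun y => ttp (fun z => F z * a z) y * tt b y)
      = II (fun y => F y * tt a y * tt b y + ttp F y * a y * tt b y) := by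
    refine ii_congr (fun y hy => ?_)
    rw [ttp_apply, ttp_apply, tt_mul (hF.differentiableAt hy) (ha.differentiableAt hy)]
    ring
  rw [e, ii_add ((hF.mul ha.tt).mul hb.tt).continuousOn ((hF.ttp.mul ha).mul hb.tt).continuousOn] at h
  rw [h]
  ring

/-- the defect of `w1_scalar` integrates to zero. -/
theorem w1_scalar_zero (hF : SmI F) (ha : SmI a) (hb : SmI b) :
    II (fun y => F y * a y * tt (tt b) y + F y * tt a y * tt b y + ttp F y * a y * tt b y) = 0 := by
  have h1 : SmI (fun y => F y * a y * tt (tt b) y) := (hF.mul ha).mul hb.tt.tt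
  have h2 : SmI (fun y => F y * tt a y * tt b y) := (hF.mul ha.tt).mul hb.tt
  have h3 : SmI (fun y => ttp F y * a y * tt b y) := (hF.ttp.mul ha).mul hb.tt
  rw [ii_add (h1.add h2).continuousOn h3.continuousOn, ii_add h1.continuousOn h2.continuousOn,
    w1_scalar hF ha hb]
  ring

/-- pointwise form of the operator in the `u`-form. -/
theorem w1_pointwise (q : ℝ) (g : Bg) (hU : ∀ j, Sm (U j)) (ht : t < 0) (y : ℝ) (i : Fin 3) :
    Xf y * uV (slT (Lop q g U) t) i y =
      g.Z (t, y) * tt (tt (uV (slT U t) i)) y + g.bh q (t, y) * tt (uV (slT U t) i) y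
        + ∑ j, mF q g i j (t, y) * uV (slT U t) j y := by
  have h := lop_tt_sl q g hU ht y i
  simp only [uV_slT]
  exact h

/-- **the bilinear form identity.** -/
theorem w1_form_bilin (q : ℝ) (hs : BgSm g) (hU : ∀ j, Sm (U j)) (ht : t < 0) (hom : SmI om) (hk : ∀ j, SmI (k j)) :
    II (fun y => Xf y * om y * ipK q (fun i => uV k i y) (fun i => uV (slT (Lop q g U) t) i y))
      = -II (fun y => om y * g.Z (t, y) * ipK q (fun i => tt (uV k i) y) (fun i => tt (uV (slT U t) i) y))
        + II (fun y => (om y * g.bh q (t, y) - ttp (fun z => om z * g.Z (t, z)) y)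
            * ipK q (fun i => uV k i y) (fun i => tt (uV (slT U t) i) y))
        + II (fun y => om y * bilM q g (t, y) (fun i => uV k i y) (fun i => uV (slT U t) i y)) := by
  have hZ : SmI (fun y => g.Z (t, y)) := hs.smZ.smI ht
  have hF : SmI (fun z => om z * g.Z (t, z)) := hom.mul hZ
  have hbh : SmI (fun y => g.bh q (t, y)) := (hs.smbh q).smI ht
  have hM : ∀ i j, SmI (fun y => mF q g i j (t, y)) := fun i j => (hs.smmF q i j).smI ht
  have hA : ∀ i, SmI (uV k i) := smI_uV hk
  have hB : ∀ i, SmI (uV (slT U t) i) := smI_uV (smI_slT hU ht)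
  have hR1 : SmI (fun y => om y * g.Z (t, y)
      * ipK q (fun i => tt (uV k i) y) (fun i => tt (uV (slT U t) i) y)) := by
    unfold ipK
    exact hF.mul (smI_sum _ (fun i _ => ((smI_const _).mul (hA i).tt).mul (hB i).tt))
  have hR2 : SmI (fun y => (om y * g.bh q (t, y) - ttp (fun z => om z * g.Z (t, z)) y)
      * ipK q (fun i => uV k i y) (fun i => tt (uV (slT U t) i) y)) := by
    unfold ipK
    exact ((hom.mul hbh).sub hF.ttp).mul
      (smI_sum _ (fun i _ => ((smI_const _).mul (hA i)).mul (hB i).tt))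
  have hR3 : SmI (fun y => om y * bilM q g (t, y) (fun i => uV k i y)
      (fun i => uV (slT U t) i y)) := by
    unfold bilM
    exact hom.mul (smI_sum _ (fun i _ => smI_sum _ (fun j _ =>
      (((smI_const _).mul (hM i j)).mul (hA i)).mul (hB j))))
  have hD : ∀ i, SmI (fun y => (om y * g.Z (t, y)) * uV k i y * tt (tt (uV (slT U t) i)) y
      + (om y * g.Z (t, y)) * tt (uV k i) y * tt (uV (slT U t) i) y
      + ttp (fun z => om z * g.Z (t, z)) y * uV k i y * tt (uV (slT U t) i) y) := fun i =>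
    (((hF.mul (hA i)).mul (hB i).tt.tt).add ((hF.mul (hA i).tt).mul (hB i).tt)).add
      ((hF.ttp.mul (hA i)).mul (hB i).tt)
  have hS : II (fun y => ∑ i, kapJ q i * ((om y * g.Z (t, y)) * uV k i y * tt (tt (uV (slT U t) i)) y
      + (om y * g.Z (t, y)) * tt (uV k i) y * tt (uV (slT U t) i) y
      + ttp (fun z => om z * g.Z (t, z)) y * uV k i y * tt (uV (slT U t) i) y)) = 0 := by
    rw [ii_sum _ (fun i _ => ((hD i).const_mul (kapJ q i)).continuousOn)]
    refine Finset.sum_eq_zero (fun i _ => ?_)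
    rw [ii_const_mul, w1_scalar_zero hF (hA i) (hB i), mul_zero]
  have hSs : SmI (fun y => ∑ i, kapJ q i * ((om y * g.Z (t, y)) * uV k i y * tt (tt (uV (slT U t) i)) y
      + (om y * g.Z (t, y)) * tt (uV k i) y * tt (uV (slT U t) i) y
      + ttp (fun z => om z * g.Z (t, z)) y * uV k i y * tt (uV (slT U t) i) y)) :=
    smI_sum _ (fun i _ => (hD i).const_mul (kapJ q i))
  have e : II (fun y => Xf y * om y * ipK q (fun i => uV k i y)
        (fun i => uV (slT (Lop q g U) t) i y))
      = II (fun y => -(om y * g.Z (t, y)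
            * ipK q (fun i => tt (uV k i) y) (fun i => tt (uV (slT U t) i) y))
          + (om y * g.bh q (t, y) - ttp (fun z => om z * g.Z (t, z)) y)
            * ipK q (fun i => uV k i y) (fun i => tt (uV (slT U t) i) y)
          + om y * bilM q g (t, y) (fun i => uV k i y) (fun i => uV (slT U t) i y)
          + ∑ i, kapJ q i * ((om y * g.Z (t, y)) * uV k i y * tt (tt (uV (slT U t) i)) y
            + (om y * g.Z (t, y)) * tt (uV k i) y * tt (uV (slT U t) i) y
            + ttp (fun z => om z * g.Z (t, z)) y * uV k i y * tt (uV (slT U t) i) y)) := by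
    refine ii_congr (fun y _ => ?_)
    have h0 := w1_pointwise q g hU ht y 0
    have h1 := w1_pointwise q g hU ht y 1
    have h2 := w1_pointwise q g hU ht y 2
    simp only [Fin.sum_univ_three] at h0 h1 h2
    simp only [ipK, bilM, Fin.sum_univ_three]
    linear_combination (om y * kapJ q 0 * uV k 0 y) * h0 + (om y * kapJ q 1 * uV k 1 y) * h1
      + (om y * kapJ q 2 * uV k 2 y) * h2
  rw [e, ii_add ((hR1.neg.add hR2).add hR3).continuousOn hSs.continuousOn,
    ii_add (hR1.neg.add hR2).continuousOn hR3.continuousOn,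
    ii_add hR1.neg.continuousOn hR2.continuousOn, ii_neg, hS, add_zero]

end

end Claimed.Agent.R324.Core
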