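/-
Row 324 (S0582), PDE core, module W (architect helper427; W0, WC, W1, W2: helper217).   Blueprint 7.3 (origin/helper232:docs/R324_blueprint.md).   FILE FormId2
   Λ = -t,  X = Xf y = 1 - y²,  X̃ = Xt y,  ℓ² = ell2 q t = (q-1)/100 Λ^(2γ),  γ = gaF q = 8/bAl q,  2 < bAl q < 3 (`bAl_bounds`, q ≥ 100),  r̂² = rh2 = ℓ² + X̃,  Θ = Th = Λ + X̃   (Core/Defs.lean).
   tt f = -X f',  ttp f = tt f + y f;   pointwise rules and the class `SmI` (smooth near [-1,1]): Core/W/TtCalc.lean.     𝕀 = II: Core/W/Ibp.lean.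
W1: the form identities.      X (L u)_i = Z tt² u_i + b̂ tt u_i + Σ_j 𝐦_ij u_j   (`lop_tt_sl`, Core/PR/TT.lean;  u = uT U, and `uV_slT`: uV (slT U t) i = sl (uT U i) t).       IBP: `ii_ibp`, `ii_ibp_sq` (Core/W/Ibp.lean).
* `w1_scalar`:  `ii_ibp` with F := F·a, G := tt b:   𝕀[F a tt(tt b)] = -𝕀[ttp(F a) tt b],    ttp (F a) = ttp F · a + F · tt a  (`ttp_apply`, `tt_mul`);  `ii_congr`, `ii_add`, continuity from `SmI.continuousOn` (`SmI.mul`, `SmI.tt`, `SmI.ttp`).
* `w1_form_bilin`:  F := om · Z(t,·) (SmI: `hs.smZ.smI ht`).    Pointwise on [-1,1]:   X om ⟨k, Lu⟩ = Σ_i κ_i k_i om (Z tt²u_i + b̂ tt u_i + Σ_j 𝐦_ij u_j);   expand the three sums (`Fin.sum_univ_three`, `ii_add`, `ii_const_mul`), apply `w1_scalar` for i = 0,1,2.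
      Suggestion: prove first the version for one index i, then sum with `ii_sum`.
* `w1_form_id`:  k = u in `w1_form_bilin`;   ⟨u, tt u⟩ = Σ κ_i u_i tt u_i;   `ii_ibp_sq` with F := om b̂ - ttp(om Z):   𝕀[F u_i tt u_i] = -½ 𝕀[ttp F u_i²],   ttp F = ttp(om b̂) - ttp(ttp(om Z)) = -2 zzF   (`tt_sub`; `zzF` in Core/Bgd.lean);   `n2_eq_nk`, `n2t_eq_nk`, `bilM_self`, `ipK_self`.
-/
import Claimed.Agent.R324.Core.W.FormId

set_option autoImplicit false

namespace Claimed.Agent.R324.Core

open Set Filter Topology MeasureTheory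
open scoped ContDiff

noncomputable section

variable {q : ℝ} {g : Bg} {U : Tri} {t : ℝ} {om F a b : ℝ → ℝ} {k : Fin 3 → ℝ → ℝ}

/-- **the form identity.** -/
theorem w1_form_id (q : ℝ) (hs : BgSm g) (hU : ∀ j, Sm (U j)) (ht : t < 0) (hom : SmI om) :
    II (fun y => Xf y * om y * ipK q (fun i => uV (slT U t) i y) (fun i => uV (slT (Lop q g U) t) i y))
      = -II (fun y => om y * g.Z (t, y) * n2t q (slT U t) y) + II (fun y => zzF q g om t y * n2 q (slT U t) y)
        + II (fun y => om y * quadM q g (t, y) (fun i => uV (slT U t) i y)) := by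
  have hk : ∀ j, SmI (slT U t j) := smI_slT hU ht
  have hu : ∀ i, SmI (uV (slT U t) i) := smI_uV hk
  have hA : SmI (fun z => om z * g.bh q (t, z)) := hom.mul ((hs.smbh q).smI ht)
  have hB : SmI (fun z => om z * g.Z (t, z)) := hom.mul (hs.smZ.smI ht)
  have hFc : SmI (fun y => om y * g.bh q (t, y) - ttp (fun z => om z * g.Z (t, z)) y) := hA.sub hB.ttp
  have hZ : SmI (zzF q g om t) := (hB.ttp.ttp.const_mul (1 / 2)).sub (hA.ttp.const_mul (1 / 2))
  have hzz : ∀ y ∈ Icc (-1 : ℝ) 1, zzF q g om t y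
      = -(1 / 2) * ttp (fun y => om y * g.bh q (t, y) - ttp (fun z => om z * g.Z (t, z)) y) y := by
    intro y hy
    unfold zzF
    rw [ttp_apply (fun y => om y * g.bh q (t, y) - ttp (fun z => om z * g.Z (t, z)) y),
      tt_sub (hA.differentiableAt hy) (hB.ttp.differentiableAt hy),
      ttp_apply (ttp fun z => om z * g.Z (t, z)), ttp_apply (fun z => om z * g.bh q (t, z))]
    ring
  have e1 : II (fun y => om y * g.Z (t, y) * ipK q (fun i => tt (uV (slT U t) i) y)
      (fun i => tt (uV (slT U t) i) y)) = II (fun y => om y * g.Z (t, y) * n2t q (slT U t) y) := by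
    refine ii_congr fun y _ => ?_
    rw [ipK_self, ← n2t_eq_nk]
  have e3 : II (fun y => om y * bilM q g (t, y) (fun i => uV (slT U t) i y)
      (fun i => uV (slT U t) i y)) = II (fun y => om y * quadM q g (t, y) (fun i => uV (slT U t) i y)) := by
    refine ii_congr fun y _ => ?_
    rw [bilM_self]
  have e2 : II (fun y => (om y * g.bh q (t, y) - ttp (fun z => om z * g.Z (t, z)) y)
      * ipK q (fun i => uV (slT U t) i y) (fun i => tt (uV (slT U t) i) y))
      = II (fun y => zzF q g om t y * n2 q (slT U t) y) := by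
    calc II (fun y => (om y * g.bh q (t, y) - ttp (fun z => om z * g.Z (t, z)) y)
          * ipK q (fun i => uV (slT U t) i y) (fun i => tt (uV (slT U t) i) y))
        = II (fun y => ∑ i, kapJ q i * ((om y * g.bh q (t, y) - ttp (fun z => om z * g.Z (t, z)) y)
            * uV (slT U t) i y * tt (uV (slT U t) i) y)) := by
          refine ii_congr fun y _ => ?_
          unfold ipK
          rw [Finset.mul_sum]
          refine Finset.sum_congr rfl fun i _ => ?_
          ring
      _ = ∑ i, II (fun y => kapJ q i * ((om y * g.bh q (t, y) - ttp (fun z => om z * g.Z (t, z)) y)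
            * uV (slT U t) i y * tt (uV (slT U t) i) y)) :=
          ii_sum _ (fun i _ => (((hFc.mul (hu i)).mul (hu i).tt).const_mul _).continuousOn)
      _ = ∑ i, II (fun y => kapJ q i * (zzF q g om t y * uV (slT U t) i y ^ 2)) := by
          refine Finset.sum_congr rfl fun i _ => ?_
          rw [ii_const_mul, ii_const_mul, ii_ibp_sq hFc (hu i), ← ii_const_mul]
          congr 1
          refine ii_congr fun y hy => ?_
          rw [hzz y hy]
          ring
      _ = II (fun y => ∑ i, kapJ q i * (zzF q g om t y * uV (slT U t) i y ^ 2)) :=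
          (ii_sum _ (fun i _ => ((hZ.mul ((hu i).pow 2)).const_mul _).continuousOn)).symm
      _ = II (fun y => zzF q g om t y * n2 q (slT U t) y) := by
          refine ii_congr fun y _ => ?_
          rw [n2_eq_nk]
          unfold nk
          rw [Finset.mul_sum]
          refine Finset.sum_congr rfl fun i _ => ?_
          ring
  rw [w1_form_bilin (k := slT U t) q hs hU ht hom hk, e1, e2, e3]

end

end Claimed.Agent.R324.Core
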