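/-
Row 324 (S0582), PDE core, module W (architect helper427; W0, WC, W1, W2: helper217).   Blueprint 7.3 (origin/helper232:docs/R324_blueprint.md).   FILE IiCS
   Λ = -t,  X = Xf y = 1 - y²,  X̃ = Xt y,  ℓ² = ell2 q t = (q-1)/100 Λ^(2γ),  γ = gaF q = 8/bAl q,  2 < bAl q < 3 (`bAl_bounds`, q ≥ 100),  r̂² = rh2 = ℓ² + X̃,  Θ = Th = Λ + X̃   (Core/Defs.lean).
   tt f = -X f',  ttp f = tt f + y f;   pointwise rules and the class `SmI` (smooth near [-1,1]): Core/W/TtCalc.lean.     𝕀 = II: Core/W/Ibp.lean.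
SKETCHES   (`CI f` = ContinuousOn f (Icc (-1) 1);  ii_add, ii_const_mul, ii_mono, ii_nonneg, ii_abs_le, ii_congr in Core/W/Ibp.lean)
* `ii_young`:  |f g| ≤ ε f² + g²/(4ε) pointwise (nlinarith [sq_nonneg (2 ε |f| - |g|)] after clearing 4ε, or `abs_mul`, AM-GM);  `ii_abs_le`, `ii_mono`, `ii_add`, `ii_const_mul`.
* `ii_cs`:  A = 𝕀[f²], P = 𝕀[f g], B = 𝕀[g²]:   0 ≤ 𝕀[(s f + g)²] = A s² + 2 P s + B for all s  ⟹ `discrim_le_zero` ⟹ P² ≤ A B ⟹ |P| ≤ √(A B) = √A √B (`Real.abs_le_sqrt`, `Real.sqrt_mul`).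
* `ii_cs_wt`:  |𝕀[om f g]| ≤ 𝕀[|om| |f| |g|] ≤ C 𝕀[(√V |f|)(√V' |g|)]  (`Real.sqrt_mul`), then `ii_cs`;  (√V |f|)² = V f² (`Real.sq_sqrt`, `sq_abs`).    Continuity: `ContinuousOn.sqrt`, `.abs`, `.mul`.
-/
import Claimed.Agent.R324.Core.W.Ibp

set_option autoImplicit false

namespace Claimed.Agent.R324.Core

open Set Filter Topology MeasureTheory
open scoped ContDiff

noncomputable section

variable {f g : ℝ → ℝ}

/-- Young:  `𝕀[f g] ≤ ε 𝕀[f²] + (4ε)⁻¹ 𝕀[g²]`. -/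
theorem ii_young (hf : CI f) (hg : CI g) {ε : ℝ} (hε : 0 < ε) :
    |II (fun y => f y * g y)| ≤ ε * II (fun y => f y ^ 2) + 1 / (4 * ε) * II (fun y => g y ^ 2) := by
  have hf2 : CI (fun y => f y ^ 2) := hf.pow 2
  have hg2 : CI (fun y => g y ^ 2) := hg.pow 2
  have c1 : CI (fun y => ε * f y ^ 2) := continuousOn_const.mul hf2
  have c2 : CI (fun y => 1 / (4 * ε) * g y ^ 2) := continuousOn_const.mul hg2
  have h1 : II (fun y => |f y * g y|) ≤ II (fun y => ε * f y ^ 2 + 1 / (4 * ε) * g y ^ 2) := by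
    refine ii_mono (hf.mul hg).abs (c1.add c2) (fun y _ => ?_)
    rw [abs_mul]
    have h3 : ε * f y ^ 2 + 1 / (4 * ε) * g y ^ 2 - |f y| * |g y|
        = (2 * ε * |f y| - |g y|) ^ 2 / (4 * ε) := by
      rw [← sq_abs (f y), ← sq_abs (g y)]
      field_simp
      ring
    have h4 : 0 ≤ (2 * ε * |f y| - |g y|) ^ 2 / (4 * ε) := by positivity
    linarith
  rw [ii_add c1 c2, ii_const_mul, ii_const_mul] at h1
  exact (ii_abs_le _).trans h1

/-- Cauchy-Schwarz. -/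
theorem ii_cs (hf : CI f) (hg : CI g) :
    |II (fun y => f y * g y)| ≤ Real.sqrt (II (fun y => f y ^ 2)) * Real.sqrt (II (fun y => g y ^ 2)) := by
  have hf2 : CI (fun y => f y ^ 2) := hf.pow 2
  have hg2 : CI (fun y => g y ^ 2) := hg.pow 2
  have hfg : CI (fun y => f y * g y) := hf.mul hg
  have hA : 0 ≤ II (fun y => f y ^ 2) := ii_nonneg (fun y _ => sq_nonneg _)
  have hq : ∀ s : ℝ, 0 ≤ II (fun y => f y ^ 2) * (s * s) + 2 * II (fun y => f y * g y) * s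
      + II (fun y => g y ^ 2) := by
    intro s
    have h1 : 0 ≤ II (fun y => (s * f y + g y) ^ 2) := ii_nonneg (fun y _ => sq_nonneg _)
    have h2 : II (fun y => (s * f y + g y) ^ 2)
        = II (fun y => (s * s * f y ^ 2 + 2 * s * (f y * g y)) + g y ^ 2) :=
      ii_congr (fun y _ => by ring)
    have c1 : CI (fun y => s * s * f y ^ 2) := continuousOn_const.mul hf2
    have c2 : CI (fun y => 2 * s * (f y * g y)) := continuousOn_const.mul hfg
    have c3 : CI (fun y => s * s * f y ^ 2 + 2 * s * (f y * g y)) := c1.add c2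
    rw [h2, ii_add c3 hg2, ii_add c1 c2, ii_const_mul, ii_const_mul] at h1
    linarith
  have hd := discrim_le_zero hq
  unfold discrim at hd
  rw [← Real.sqrt_mul hA]
  apply Real.abs_le_sqrt
  nlinarith

/-- weighted Cauchy-Schwarz:  `|om| ≤ C √(V V')`. -/
theorem ii_cs_wt {om V V' : ℝ → ℝ} {C : ℝ} (hom : CI om) (hV : CI V) (hV' : CI V') (hf : CI f) (hg : CI g)
    (hC : 0 ≤ C) (h0 : ∀ y ∈ Icc (-1 : ℝ) 1, 0 ≤ V y) (h0' : ∀ y ∈ Icc (-1 : ℝ) 1, 0 ≤ V' y)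
    (h : ∀ y ∈ Icc (-1 : ℝ) 1, |om y| ≤ C * Real.sqrt (V y * V' y)) :
    |II (fun y => om y * f y * g y)|
      ≤ C * (Real.sqrt (II (fun y => V y * f y ^ 2)) * Real.sqrt (II (fun y => V' y * g y ^ 2))) := by
  have hF : CI (fun y => Real.sqrt (V y) * |f y|) := hV.sqrt.mul hf.abs
  have hG : CI (fun y => Real.sqrt (V' y) * |g y|) := hV'.sqrt.mul hg.abs
  have h1 : II (fun y => |om y * f y * g y|)
      ≤ II (fun y => C * ((Real.sqrt (V y) * |f y|) * (Real.sqrt (V' y) * |g y|))) := by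
    refine ii_mono ((hom.mul hf).mul hg).abs (continuousOn_const.mul (hF.mul hG)) (fun y hy => ?_)
    rw [abs_mul, abs_mul]
    have h2 := h y hy
    rw [Real.sqrt_mul (h0 y hy)] at h2
    calc |om y| * |f y| * |g y| ≤ C * (Real.sqrt (V y) * Real.sqrt (V' y)) * |f y| * |g y| := by
          refine mul_le_mul_of_nonneg_right (mul_le_mul_of_nonneg_right h2 (abs_nonneg _)) (abs_nonneg _)
      _ = C * ((Real.sqrt (V y) * |f y|) * (Real.sqrt (V' y) * |g y|)) := by ring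
  rw [ii_const_mul] at h1
  have h3 := ii_cs hF hG
  have e1 : II (fun y => (Real.sqrt (V y) * |f y|) ^ 2) = II (fun y => V y * f y ^ 2) :=
    ii_congr (fun y hy => by rw [mul_pow, Real.sq_sqrt (h0 y hy), sq_abs])
  have e2 : II (fun y => (Real.sqrt (V' y) * |g y|) ^ 2) = II (fun y => V' y * g y ^ 2) :=
    ii_congr (fun y hy => by rw [mul_pow, Real.sq_sqrt (h0' y hy), sq_abs])
  rw [e1, e2] at h3
  calc |II (fun y => om y * f y * g y)| ≤ II (fun y => |om y * f y * g y|) := ii_abs_le _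
    _ ≤ C * II (fun y => (Real.sqrt (V y) * |f y|) * (Real.sqrt (V' y) * |g y|)) := h1
    _ ≤ C * |II (fun y => (Real.sqrt (V y) * |f y|) * (Real.sqrt (V' y) * |g y|))| :=
        mul_le_mul_of_nonneg_left (le_abs_self _) hC
    _ ≤ C * (Real.sqrt (II (fun y => V y * f y ^ 2)) * Real.sqrt (II (fun y => V' y * g y ^ 2))) :=
        mul_le_mul_of_nonneg_left h3 hC

end

end Claimed.Agent.R324.Core
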