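/-
Row 324 (S0582), PDE core, module W (architect helper427; W0, WC, W1, W2: helper217).   Blueprint 7.3 (origin/helper232:docs/R324_blueprint.md).   FILE FormBdA
   Λ = -t,  X = Xf y = 1 - y²,  X̃ = Xt y,  ℓ² = ell2 q t = (q-1)/100 Λ^(2γ),  γ = gaF q = 8/bAl q,  2 < bAl q < 3 (`bAl_bounds`, q ≥ 100),  r̂² = rh2 = ℓ² + X̃,  Θ = Th = Λ + X̃   (Core/Defs.lean).
   tt f = -X f',  ttp f = tt f + y f;   pointwise rules and the class `SmI` (smooth near [-1,1]): Core/W/TtCalc.lean.     𝕀 = II: Core/W/Ibp.lean.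
W2 (form_bound), W3 (tt² pointwise).       `CoefB q g Λ₀ C` (Core/W/Coef.lean): 1/C ≤ Z, and `hc.Z.b00`, `hc.Z.b01`, `hc.bh.b00`, `(hc.mF i j).b00`: |Z|, |tt Z|, |b̂|, |𝐦_ij| ≤ C·1.
* `w2_cs`:  |c ⟨ξ,η⟩| ≤ K √(V V') √|ξ|² √|η|² (`ipK_abs_le`);  `ii_abs_le`, `ii_mono`, then `ii_cs_wt` (Core/W/IiCS.lean) with om := √(V V')·(const) …  simplest: apply `ii_cs_wt` to  om := fun y => K * √(V y V' y), f := √(nk ξ), g := √(nk η)  (f² = nk ξ: `Real.sq_sqrt`, `nk_nonneg`).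
* `w2_Di_t`, `w2_Di_0`:  V ≥ 0, n2, n2t ≥ 0, q ≥ 1:  `ii_mono`.
* `w2_form_bound`:  `w1_form_bilin`;  three terms:
      |om Z| ≤ C √(VV');      |om b̂ - ttp(om Z)| ≤ (3C + C₀ C) √(VV')   [ttp(om Z) = tt om Z + om tt Z + y om Z, |y| ≤ 1];      |om bilM| ≤ √(VV') 36 (q+1) C √|k|² √|h|² (`bilM_abs_le`);
      `w2_cs` (for the third term a variant with bilM, same proof: `w2_cs_gen`), then `w2_Di_t`, `w2_Di_0`, `Real.sqrt_le_sqrt`.       Total constant  C + (3 + C₀) C + 36 (q+1) C = (40 + C₀ + 36 q) C.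
* `w3_tt2`:  `lop_tt_sl` + `uV_slT`:   Z tt²u_i = X v_i - b̂ tt u_i - Σ 𝐦_ij u_j,   1/C ≤ Z  ⟹  |tt²u_i| ≤ C |Z tt²u_i|.
-/
import Claimed.Agent.R324.Core.W.FormId2
import Claimed.Agent.R324.Core.W.IiCS

set_option autoImplicit false

namespace Claimed.Agent.R324.Core

open Set Filter Topology MeasureTheory
open scoped ContDiff

noncomputable section

variable {q Λ₀ C C₀ K : ℝ} {g : Bg} {U H : Tri} {t y : ℝ} {om V V' c : ℝ → ℝ} {k u : Fin 3 → ℝ → ℝ}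

/-- general weighted Cauchy-Schwarz:  `|G| ≤ K √(V V') √A √B` pointwise. -/
theorem w2_cs_gen {G A B : ℝ → ℝ} (hG : CI G) (hV : CI V) (hV' : CI V') (hA : CI A) (hB : CI B) (hK : 0 ≤ K)
    (h0 : ∀ y ∈ Icc (-1 : ℝ) 1, 0 ≤ V y) (h0' : ∀ y ∈ Icc (-1 : ℝ) 1, 0 ≤ V' y)
    (hA0 : ∀ y ∈ Icc (-1 : ℝ) 1, 0 ≤ A y) (hB0 : ∀ y ∈ Icc (-1 : ℝ) 1, 0 ≤ B y)
    (h : ∀ y ∈ Icc (-1 : ℝ) 1, |G y| ≤ K * Real.sqrt (V y * V' y) * (Real.sqrt (A y) * Real.sqrt (B y))) :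
    |II G| ≤ K * (Real.sqrt (II (fun y => V y * A y)) * Real.sqrt (II (fun y => V' y * B y))) := by
  have hom : CI (fun y => K * Real.sqrt (V y * V' y)) := continuousOn_const.mul (hV.mul hV').sqrt
  have h1 := ii_cs_wt (om := fun y => K * Real.sqrt (V y * V' y)) (C := K) hom hV hV' hA.sqrt hB.sqrt hK h0 h0'
    (fun y _ => by rw [abs_of_nonneg (mul_nonneg hK (Real.sqrt_nonneg _))])
  have e1 : II (fun y => V y * Real.sqrt (A y) ^ 2) = II (fun y => V y * A y) :=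
    ii_congr (fun y hy => by rw [Real.sq_sqrt (hA0 y hy)])
  have e2 : II (fun y => V' y * Real.sqrt (B y) ^ 2) = II (fun y => V' y * B y) :=
    ii_congr (fun y hy => by rw [Real.sq_sqrt (hB0 y hy)])
  rw [e1, e2] at h1
  have h2 : II (fun y => |G y|)
      ≤ II (fun y => K * Real.sqrt (V y * V' y) * Real.sqrt (A y) * Real.sqrt (B y)) := by
    refine ii_mono hG.abs ((hom.mul hA.sqrt).mul hB.sqrt) (fun y hy => ?_)
    rw [mul_assoc]
    exact h y hy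
  exact ((ii_abs_le G).trans h2).trans ((le_abs_self _).trans h1)

theorem w2_Di_t (hq : 1 ≤ q) (hV : CI V) (h0 : ∀ y ∈ Icc (-1 : ℝ) 1, 0 ≤ V y) (hu : ∀ j, SmI (u j)) :
    II (fun y => V y * n2t q u y) ≤ Di q V u := by
  have hq0 : 0 < q := by linarith
  unfold Di
  refine ii_mono (hV.mul (ci_n2t hu))
    (hV.mul ((ci_n2t hu).add (continuousOn_const.mul (ci_n2 hu)))) (fun y hy => ?_)
  refine mul_le_mul_of_nonneg_left ?_ (h0 y hy)
  have := mul_nonneg hq0.le (n2_nonneg hq0 u y)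
  linarith

theorem w2_Di_0 (hq : 1 ≤ q) (hV : CI V) (h0 : ∀ y ∈ Icc (-1 : ℝ) 1, 0 ≤ V y) (hu : ∀ j, SmI (u j)) :
    II (fun y => V y * n2 q u y) ≤ Di q V u := by
  have hq0 : 0 < q := by linarith
  unfold Di
  refine ii_mono (hV.mul (ci_n2 hu))
    (hV.mul ((ci_n2t hu).add (continuousOn_const.mul (ci_n2 hu)))) (fun y hy => ?_)
  refine mul_le_mul_of_nonneg_left ?_ (h0 y hy)
  have h1 := n2_nonneg hq0 u y
  have h2 := n2t_nonneg hq0 u y
  nlinarith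

theorem w2_Di_nonneg (hq : 1 ≤ q) (h0 : ∀ y ∈ Icc (-1 : ℝ) 1, 0 ≤ V y) (u : Fin 3 → ℝ → ℝ) : 0 ≤ Di q V u := by
  have hq0 : 0 < q := by linarith
  unfold Di
  refine ii_nonneg (fun y hy => mul_nonneg (h0 y hy) ?_)
  have h1 := n2_nonneg hq0 u y
  have h2 := n2t_nonneg hq0 u y
  have := mul_nonneg hq0.le h1
  linarith

/-- **W3.** -/
theorem w3_tt2 (hc : CoefB q g Λ₀ C) (hC : 0 < C) (hU : ∀ j, Sm (U j)) (ht : t ∈ Ico (-Λ₀) 0) (hy : y ∈ Icc (-1 : ℝ) 1)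
    (i : Fin 3) :
    |tt (tt (uV (slT U t) i)) y| ≤ C * (Xf y * |uV (slT (Lop q g U) t) i y| + C * |tt (uV (slT U t) i) y|
      + C * ∑ j, |uV (slT U t) j y|) := by
  have ht0 : t < 0 := ht.2
  have hid := lop_tt_sl q g hU ht0 y i
  have hX : 0 ≤ Xf y := by
    unfold Xf
    nlinarith [hy.1, hy.2]
  have hZl := hc.Zlow t ht y hy
  have hZpos : 0 < g.Z (t, y) := lt_of_lt_of_le (by positivity) hZl
  have hbh : |g.bh q (t, y)| ≤ C := by
    have := hc.bh.b00 ht hy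
    simpa using this
  have hm : ∀ j, |mF q g i j (t, y)| ≤ C := by
    intro j
    have := (hc.mF i j).b00 ht hy
    simpa using this
  have eU : ∀ j, uV (slT U t) j y = uT U j (t, y) := by
    intro j
    rw [uV_slT]
    rfl
  have eL : uV (slT (Lop q g U) t) i y = uT (Lop q g U) i (t, y) := by
    rw [uV_slT]
    rfl
  simp only [eU, eL]
  rw [uV_slT]
  set T2 := tt (tt (sl (uT U i) t)) y with hT2
  set T1 := tt (sl (uT U i) t) y with hT1
  have h1 : g.Z (t, y) * T2 = Xf y * uT (Lop q g U) i (t, y) - g.bh q (t, y) * T1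
      - ∑ j, mF q g i j (t, y) * uT U j (t, y) := by
    rw [hid]; ring
  have h2 : |∑ j, mF q g i j (t, y) * uT U j (t, y)| ≤ C * ∑ j, |uT U j (t, y)| := by
    rw [Finset.mul_sum]
    refine (Finset.abs_sum_le_sum_abs _ _).trans (Finset.sum_le_sum fun j _ => ?_)
    rw [abs_mul]
    exact mul_le_mul_of_nonneg_right (hm j) (abs_nonneg _)
  have h3 : |g.Z (t, y) * T2| ≤ Xf y * |uT (Lop q g U) i (t, y)| + C * |T1|
      + C * ∑ j, |uT U j (t, y)| := by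
    rw [h1]
    have a1 : |Xf y * uT (Lop q g U) i (t, y)| = Xf y * |uT (Lop q g U) i (t, y)| := by
      rw [abs_mul, abs_of_nonneg hX]
    have a2 : |g.bh q (t, y) * T1| ≤ C * |T1| := by
      rw [abs_mul]
      exact mul_le_mul_of_nonneg_right hbh (abs_nonneg _)
    calc |Xf y * uT (Lop q g U) i (t, y) - g.bh q (t, y) * T1
          - ∑ j, mF q g i j (t, y) * uT U j (t, y)|
        ≤ |Xf y * uT (Lop q g U) i (t, y) - g.bh q (t, y) * T1|
          + |∑ j, mF q g i j (t, y) * uT U j (t, y)| := abs_sub _ _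
      _ ≤ (|Xf y * uT (Lop q g U) i (t, y)| + |g.bh q (t, y) * T1|)
          + |∑ j, mF q g i j (t, y) * uT U j (t, y)| := by
          gcongr
          exact abs_sub _ _
      _ ≤ _ := by rw [a1]; linarith
  have h4 : |T2| ≤ C * |g.Z (t, y) * T2| := by
    rw [abs_mul, abs_of_pos hZpos]
    have h5 : 1 ≤ C * g.Z (t, y) := by
      have := mul_le_mul_of_nonneg_left hZl hC.le
      rwa [mul_one_div_cancel hC.ne'] at this
    calc |T2| = 1 * |T2| := (one_mul _).symm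
      _ ≤ C * g.Z (t, y) * |T2| := mul_le_mul_of_nonneg_right h5 (abs_nonneg _)
      _ = C * (g.Z (t, y) * |T2|) := by ring
  exact h4.trans (mul_le_mul_of_nonneg_left h3 hC.le)

end

end Claimed.Agent.R324.Core
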