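/-
Row 324 (S0582), PDE core, module W (architect helper427; W0, WC, W1, W2: helper217).   Blueprint 7.3 (origin/helper232:docs/R324_blueprint.md).   FILE FormBd
   Λ = -t,  X = Xf y = 1 - y²,  X̃ = Xt y,  ℓ² = ell2 q t = (q-1)/100 Λ^(2γ),  γ = gaF q = 8/bAl q,  2 < bAl q < 3 (`bAl_bounds`, q ≥ 100),  r̂² = rh2 = ℓ² + X̃,  Θ = Th = Λ + X̃   (Core/Defs.lean).
   tt f = -X f',  ttp f = tt f + y f;   pointwise rules and the class `SmI` (smooth near [-1,1]): Core/W/TtCalc.lean.     𝕀 = II: Core/W/Ibp.lean.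
W2 (form_bound), W3 (tt² pointwise).       `CoefB q g Λ₀ C` (Core/W/Coef.lean): 1/C ≤ Z, and `hc.Z.b00`, `hc.Z.b01`, `hc.bh.b00`, `(hc.mF i j).b00`: |Z|, |tt Z|, |b̂|, |𝐦_ij| ≤ C·1.
* `w2_cs`:  |c ⟨ξ,η⟩| ≤ K √(V V') √|ξ|² √|η|² (`ipK_abs_le`);  `ii_abs_le`, `ii_mono`, then `ii_cs_wt` (Core/W/IiCS.lean) with om := √(V V')·(const) …  simplest: apply `ii_cs_wt` to  om := fun y => K * √(V y V' y), f := √(nk ξ), g := √(nk η)  (f² = nk ξ: `Real.sq_sqrt`, `nk_nonneg`).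
* `w2_Di_t`, `w2_Di_0`:  V ≥ 0, n2, n2t ≥ 0, q ≥ 1:  `ii_mono`.
* `w2_form_bound`:  `w1_form_bilin`;  three terms:
      |om Z| ≤ C √(VV');      |om b̂ - ttp(om Z)| ≤ (3C + C₀ C) √(VV')   [ttp(om Z) = tt om Z + om tt Z + y om Z, |y| ≤ 1];      |om bilM| ≤ √(VV') 36 (q+1) C √|k|² √|h|² (`bilM_abs_le`);
      `w2_cs` (for the third term a variant with bilM, same proof: `w2_cs_gen`), then `w2_Di_t`, `w2_Di_0`, `Real.sqrt_le_sqrt`.       Total constant  C + (3 + C₀) C + 36 (q+1) C = (40 + C₀ + 36 q) C.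
* `w3_tt2`:  `lop_tt_sl` + `uV_slT`:   Z tt²u_i = X v_i - b̂ tt u_i - Σ 𝐦_ij u_j,   1/C ≤ Z  ⟹  |tt²u_i| ≤ C |Z tt²u_i|.
-/
import Claimed.Agent.R324.Core.W.FormBdA

set_option autoImplicit false

namespace Claimed.Agent.R324.Core

open Set Filter Topology MeasureTheory
open scoped ContDiff

noncomputable section

variable {q Λ₀ C C₀ K : ℝ} {g : Bg} {U H : Tri} {t y : ℝ} {om V V' c : ℝ → ℝ} {k u : Fin 3 → ℝ → ℝ}

theorem w2fb_smI_ipK {a b : Fin 3 → ℝ → ℝ} (ha : ∀ i, SmI (a i)) (hb : ∀ i, SmI (b i)) :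
    SmI (fun y => ipK q (fun i => a i y) (fun i => b i y)) := by
  unfold ipK
  exact smI_sum _ (fun i _ => ((ha i).const_mul (kapJ q i)).mul (hb i))

theorem w2fb_smI_bilM (hs : BgSm g) (ht : t < 0) {a b : Fin 3 → ℝ → ℝ} (ha : ∀ i, SmI (a i)) (hb : ∀ i, SmI (b i)) :
    SmI (fun y => bilM q g (t, y) (fun i => a i y) (fun i => b i y)) := by
  unfold bilM
  refine smI_sum _ (fun i _ => smI_sum _ (fun j _ => ?_))
  have h1 : SmI (fun y => mF q g i j (t, y)) := (hs.smmF q i j).smI ht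
  exact ((h1.const_mul (kapJ q i)).mul (ha i)).mul (hb j)

/-- **W2, form_bound.** -/
theorem w2_form_bound (hq : 1 ≤ q) (hs : BgSm g) (hc : CoefB q g Λ₀ C) (hC₀ : 0 ≤ C₀) (ht : t ∈ Ico (-Λ₀) 0)
    (hom : SmI om) (hV : CI V) (hV' : CI V')
    (h0 : ∀ y ∈ Icc (-1 : ℝ) 1, 0 ≤ V y) (h0' : ∀ y ∈ Icc (-1 : ℝ) 1, 0 ≤ V' y)
    (h1 : ∀ y ∈ Icc (-1 : ℝ) 1, |om y| ≤ Real.sqrt (V y * V' y))
    (h2 : ∀ y ∈ Icc (-1 : ℝ) 1, |tt om y| ≤ C₀ * Real.sqrt (V y * V' y))
    (hk : ∀ j, SmI (k j)) (hH : ∀ j, Sm (H j)) :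
    |II (fun y => Xf y * om y * ipK q (fun i => uV k i y) (fun i => uV (slT (Lop q g H) t) i y))|
      ≤ (40 + C₀ + 36 * q) * C * (Real.sqrt (Di q V k) * Real.sqrt (Di q V' (slT H t))) := by
  have ht0 : t < 0 := ht.2
  have hq0 : 0 < q := by linarith
  have hu : ∀ j, SmI (slT H t j) := smI_slT hH ht0
  have hC : 0 ≤ C := by
    have h3 := hc.Z.b00 ht (y := 0) ⟨by norm_num, by norm_num⟩
    have h4 := (abs_nonneg _).trans h3
    linarith
  have hZ : SmI (fun y => g.Z (t, y)) := hs.smZ.smI ht0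
  have hbh : SmI (fun y => g.bh q (t, y)) := (hs.smbh q).smI ht0
  have hUk : ∀ i, SmI (uV k i) := smI_uV hk
  have hUu : ∀ i, SmI (uV (slT H t) i) := smI_uV hu
  rw [w1_form_bilin q hs hH ht0 hom hk]
  have s1 : Real.sqrt (II (fun y => V y * n2t q k y)) ≤ Real.sqrt (Di q V k) :=
    Real.sqrt_le_sqrt (w2_Di_t hq hV h0 hk)
  have s2 : Real.sqrt (II (fun y => V' y * n2t q (slT H t) y)) ≤ Real.sqrt (Di q V' (slT H t)) :=
    Real.sqrt_le_sqrt (w2_Di_t hq hV' h0' hu)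
  have s3 : Real.sqrt (II (fun y => V y * n2 q k y)) ≤ Real.sqrt (Di q V k) :=
    Real.sqrt_le_sqrt (w2_Di_0 hq hV h0 hk)
  have s4 : Real.sqrt (II (fun y => V' y * n2 q (slT H t) y)) ≤ Real.sqrt (Di q V' (slT H t)) :=
    Real.sqrt_le_sqrt (w2_Di_0 hq hV' h0' hu)
  have T1 : |II (fun y => om y * g.Z (t, y) * ipK q (fun i => tt (uV k i) y) (fun i => tt (uV (slT H t) i) y))|
      ≤ C * (Real.sqrt (Di q V k) * Real.sqrt (Di q V' (slT H t))) := by
    refine (w2_cs_gen (V := V) (V' := V') (A := n2t q k) (B := n2t q (slT H t)) (K := C) ?_ hV hV' (ci_n2t hk)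
      (ci_n2t hu) hC h0 h0' (fun y _ => n2t_nonneg hq0 _ _) (fun y _ => n2t_nonneg hq0 _ _) ?_).trans ?_
    · exact ((hom.mul hZ).mul (w2fb_smI_ipK (fun i => (hUk i).tt) (fun i => (hUu i).tt))).continuousOn
    · intro y hy
      rw [n2t_eq_nk, n2t_eq_nk, abs_mul, abs_mul]
      have a1 := h1 y hy
      have a2 : |g.Z (t, y)| ≤ C := by simpa using hc.Z.b00 ht hy
      have a3 := ipK_abs_le hq0 (fun i => tt (uV k i) y) (fun i => tt (uV (slT H t) i) y)
      calc |om y| * |g.Z (t, y)| * |ipK q (fun i => tt (uV k i) y) (fun i => tt (uV (slT H t) i) y)|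
          ≤ Real.sqrt (V y * V' y) * C * (Real.sqrt (nk q (fun i => tt (uV k i) y))
              * Real.sqrt (nk q (fun i => tt (uV (slT H t) i) y))) := by gcongr
        _ = C * Real.sqrt (V y * V' y) * (Real.sqrt (nk q (fun i => tt (uV k i) y))
              * Real.sqrt (nk q (fun i => tt (uV (slT H t) i) y))) := by ring
    · exact mul_le_mul_of_nonneg_left (mul_le_mul s1 s2 (Real.sqrt_nonneg _) (Real.sqrt_nonneg _)) hC
  have hK2 : 0 ≤ 3 * C + C₀ * C := by positivity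
  have T2 : |II (fun y => (om y * g.bh q (t, y) - ttp (fun z => om z * g.Z (t, z)) y)
        * ipK q (fun i => uV k i y) (fun i => tt (uV (slT H t) i) y))|
      ≤ (3 * C + C₀ * C) * (Real.sqrt (Di q V k) * Real.sqrt (Di q V' (slT H t))) := by
    refine (w2_cs_gen (V := V) (V' := V') (A := n2 q k) (B := n2t q (slT H t)) (K := 3 * C + C₀ * C) ?_ hV hV'
      (ci_n2 hk) (ci_n2t hu) hK2 h0 h0' (fun y _ => n2_nonneg hq0 _ _) (fun y _ => n2t_nonneg hq0 _ _) ?_).trans ?_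
    · exact (((hom.mul hbh).sub (hom.mul hZ).ttp).mul (w2fb_smI_ipK hUk (fun i => (hUu i).tt))).continuousOn
    · intro y hy
      rw [n2_eq_nk, n2t_eq_nk, abs_mul]
      have a1 := h1 y hy
      have a1' := h2 y hy
      have a2 : |g.Z (t, y)| ≤ C := by simpa using hc.Z.b00 ht hy
      have a2' : |tt (fun z => g.Z (t, z)) y| ≤ C := by
        have h5 := hc.Z.b01 ht hy
        rw [mul_one] at h5
        exact h5
      have a4 : |g.bh q (t, y)| ≤ C := by simpa using hc.bh.b00 ht hy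
      have a5 : |y| ≤ 1 := abs_le.2 hy
      have a3 := ipK_abs_le hq0 (fun i => uV k i y) (fun i => tt (uV (slT H t) i) y)
      have hS : 0 ≤ Real.sqrt (V y * V' y) := Real.sqrt_nonneg _
      have e1 : ttp (fun z => om z * g.Z (t, z)) y
          = tt om y * g.Z (t, y) + om y * tt (fun z => g.Z (t, z)) y + y * (om y * g.Z (t, y)) := by
        rw [ttp_apply, tt_mul (hom.differentiableAt hy) (hZ.differentiableAt hy)]
      have b1 : |om y * g.bh q (t, y)| ≤ Real.sqrt (V y * V' y) * C := by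
        rw [abs_mul]
        gcongr
      have b2 : |tt om y * g.Z (t, y)| ≤ C₀ * Real.sqrt (V y * V' y) * C := by
        rw [abs_mul]
        gcongr
      have b3 : |om y * tt (fun z => g.Z (t, z)) y| ≤ Real.sqrt (V y * V' y) * C := by
        rw [abs_mul]
        gcongr
      have b4 : |y * (om y * g.Z (t, y))| ≤ 1 * (Real.sqrt (V y * V' y) * C) := by
        rw [abs_mul, abs_mul]
        gcongr
      have b5 : |om y * g.bh q (t, y) - ttp (fun z => om z * g.Z (t, z)) y|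
          ≤ (3 * C + C₀ * C) * Real.sqrt (V y * V' y) := by
        rw [e1]
        have c1 := abs_le.1 b1
        have c2 := abs_le.1 b2
        have c3 := abs_le.1 b3
        have c4 := abs_le.1 b4
        rw [abs_le]
        constructor <;> nlinarith [c1.1, c1.2, c2.1, c2.2, c3.1, c3.2, c4.1, c4.2]
      exact mul_le_mul b5 a3 (abs_nonneg _) (mul_nonneg hK2 hS)
    · exact mul_le_mul_of_nonneg_left (mul_le_mul s3 s2 (Real.sqrt_nonneg _) (Real.sqrt_nonneg _)) hK2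
  have hK3 : 0 ≤ 36 * (q + 1) * C := by positivity
  have T3 : |II (fun y => om y * bilM q g (t, y) (fun i => uV k i y) (fun i => uV (slT H t) i y))|
      ≤ 36 * (q + 1) * C * (Real.sqrt (Di q V k) * Real.sqrt (Di q V' (slT H t))) := by
    refine (w2_cs_gen (V := V) (V' := V') (A := n2 q k) (B := n2 q (slT H t)) (K := 36 * (q + 1) * C) ?_ hV hV'
      (ci_n2 hk) (ci_n2 hu) hK3 h0 h0' (fun y _ => n2_nonneg hq0 _ _) (fun y _ => n2_nonneg hq0 _ _) ?_).trans ?_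
    · exact (hom.mul (w2fb_smI_bilM hs ht0 hUk hUu)).continuousOn
    · intro y hy
      rw [n2_eq_nk, n2_eq_nk, abs_mul]
      have a1 := h1 y hy
      have a3 := bilM_abs_le (g := g) (C := C) (p := (t, y)) hq
        (fun i j => by simpa using (hc.mF i j).b00 ht hy) (fun i => uV k i y) (fun i => uV (slT H t) i y)
      calc |om y| * |bilM q g (t, y) (fun i => uV k i y) (fun i => uV (slT H t) i y)|
          ≤ Real.sqrt (V y * V' y) * (36 * (q + 1) * C * (Real.sqrt (nk q (fun i => uV k i y))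
              * Real.sqrt (nk q (fun i => uV (slT H t) i y)))) := by gcongr
        _ = 36 * (q + 1) * C * Real.sqrt (V y * V' y) * (Real.sqrt (nk q (fun i => uV k i y))
              * Real.sqrt (nk q (fun i => uV (slT H t) i y))) := by ring
    · exact mul_le_mul_of_nonneg_left (mul_le_mul s3 s4 (Real.sqrt_nonneg _) (Real.sqrt_nonneg _)) hK3
  have c1 := abs_le.1 T1
  have c2 := abs_le.1 T2
  have c3 := abs_le.1 T3
  rw [abs_le]
  constructor <;> nlinarith [c1.1, c1.2, c2.1, c2.2, c3.1, c3.2]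

end

end Claimed.Agent.R324.Core
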