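/-
Row 324 (S0582), PDE core, module W (architect helper427; W0, WC, W1, W2: helper217).   Blueprint 7.3 (origin/helper232:docs/R324_blueprint.md).   FILE JetC
   Λ = -t,  X = Xf y = 1 - y²,  X̃ = Xt y,  ℓ² = ell2 q t = (q-1)/100 Λ^(2γ),  γ = gaF q = 8/bAl q,  2 < bAl q < 3 (`bAl_bounds`, q ≥ 100),  r̂² = rh2 = ℓ² + X̃,  Θ = Th = Λ + X̃   (Core/Defs.lean).
   tt f = -X f',  ttp f = tt f + y f;   pointwise rules and the class `SmI` (smooth near [-1,1]): Core/W/TtCalc.lean.     𝕀 = II: Core/W/Ibp.lean.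
W5 (jets): the class `TBJ` of weights for the jet estimates, and  wL a M ∈ TBJ.
      TBJ q t C c₁ V :   V ∈ TB C;    |tt V| ≤ c₁ V for |y| > 1/2   (c₁ EXPLICIT, to be beaten by q/4);     (y² - X) V + y tt V ≥ V/4  where X < r̂²/4   (the caps).
* `w0_ell2_le_sq`:  Λ ≤ 1, 2γ = 16/α ≥ 2  ⟹  Λ^(2γ) ≤ Λ²  (as in `w0_ell2_le`, Core/W/WtB.lean).
* `w5_tbj_wL`:  C from `w0_tb_wL a M`.
    n1:  y < -1/2: tt V = 0 (`w0_tt_wL_S`).    y > 1/2: `w0_tt_wL_N`:  tt V = 2 y n V,  n = a X/r̂² + X/((1+Γ)Λ+X) - (M+1) X/Θ,  each quotient X/(c + X) ∈ [0,1] (r̂² = ℓ² + X, Θ = Λ + X for y ≥ 1/2: `Xt_eq`)  ⟹  |n| ≤ a + M + 2.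
    hd:  Λ ≤ 30/((M+1) q) ≤ 3/10 and ≤ 100/q, so r̂² ≤ Θ ≤ Λ + 1 ≤ 13/10  (`w0_rh2_le_Th`).
         y > 1/2:  X < (ℓ² + X)/4 ⟹ X < ℓ²/3 ≤ Λ/3;   y tt V = 2 y² n V ≥ -2 (M+1) (X/Θ) V ≥ -2 (M+1) (ℓ²/(3Λ)) V ≥ -2 (M+1) (q/300) Λ V ≥ -V/5   (`w0_ell2_le_sq`);    y² - X = 1 - 2X ≥ 1 - 2Λ/3 ≥ 4/5.
         0 ≤ y ≤ 1/2:  X ≥ 3/4 > r̂²/4: the hypothesis is void.         y < 0:  tt V = 0;   X < r̂²/4 ≤ 13/40  ⟹  y² - X = 1 - 2X ≥ 7/20 ≥ 1/4.
-/
import Claimed.Agent.R324.Core.W.JetB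

set_option autoImplicit false

namespace Claimed.Agent.R324.Core

open Set Filter Topology MeasureTheory
open scoped ContDiff

noncomputable section

/-- weights for the jet estimates. -/
structure TBJ (q t C c₁ : ℝ) (V : ℝ → ℝ) : Prop where
  tb : TB C V
  n1 : ∀ y ∈ Icc (-1 : ℝ) 1, 1 / 2 < |y| → |tt V y| ≤ c₁ * V y
  hd : ∀ y ∈ Icc (-1 : ℝ) 1, Xf y < rh2 q t y / 4 → 1 / 4 * V y ≤ (y ^ 2 - Xf y) * V y + y * tt V y

variable {q Γ t : ℝ}

theorem w0_ell2_le_sq (hq : 100 ≤ q) (ht : t < 0) (ht1 : -1 ≤ t) : ell2 q t ≤ (q - 1) / 100 * t ^ 2 := by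
  obtain ⟨ha2, ha3⟩ := bAl_bounds hq
  have hL0 : 0 < -t := by linarith
  have hL1 : -t ≤ 1 := by linarith
  have hg : (2 : ℝ) ≤ 2 * gaF q := by
    unfold gaF
    have : 1 ≤ 8 / bAl q := by
      rw [le_div_iff₀ (by linarith)]
      linarith
    linarith
  have h1 : (-t) ^ (2 * gaF q) ≤ (-t) ^ (2 : ℝ) := Real.rpow_le_rpow_of_exponent_ge hL0 hL1 hg
  have h2 : (-t) ^ (2 : ℝ) = t ^ 2 := by
    rw [← neg_sq t, ← Real.rpow_natCast]
    norm_num
  rw [h2] at h1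
  have h5 : 0 ≤ (q - 1) / 100 := by linarith
  unfold ell2 lam2
  exact mul_le_mul_of_nonneg_left h1 h5

theorem w0_JetC_n (a M : ℕ) {X r B Θ : ℝ} (hX : 0 ≤ X) (hr : X ≤ r) (hr0 : 0 < r) (hB : X ≤ B) (hB0 : 0 < B)
    (hΘ : X ≤ Θ) (hΘ0 : 0 < Θ) :
    -(((M : ℝ) + 1) * X / Θ) ≤ a * X / r + X / B - (M + 1) * X / Θ ∧
      a * X / r + X / B - (M + 1) * X / Θ ≤ a + 1 ∧ ((M : ℝ) + 1) * X / Θ ≤ M + 1 := by
  have ha : (0 : ℝ) ≤ a := Nat.cast_nonneg a
  have hM : (0 : ℝ) ≤ (M : ℝ) + 1 := by have := (Nat.cast_nonneg M : (0 : ℝ) ≤ M); linarith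
  have h1 : 0 ≤ a * X / r := by positivity
  have h2 : a * X / r ≤ a := by
    rw [div_le_iff₀ hr0]
    exact mul_le_mul_of_nonneg_left hr ha
  have h3 : 0 ≤ X / B := by positivity
  have h4 : X / B ≤ 1 := by rw [div_le_one hB0]; exact hB
  have h5 : 0 ≤ ((M : ℝ) + 1) * X / Θ := by positivity
  have h6 : ((M : ℝ) + 1) * X / Θ ≤ M + 1 := by
    rw [div_le_iff₀ hΘ0]
    exact mul_le_mul_of_nonneg_left hΘ hM
  refine ⟨by linarith, by linarith, h6⟩

theorem w5_tbj_wL (a M : ℕ) : ∃ C : ℝ, 0 ≤ C ∧ ∀ q Γ t : ℝ, 100 ≤ q → 0 ≤ Γ → t < 0 → (M + 1) * q * (-t) ≤ 30 →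
    TBJ q t C (2 * (a + M + 2)) (wL a M q Γ t) := by
  obtain ⟨C, hC, h⟩ := w0_tb_wL a M
  refine ⟨C, hC, fun q Γ t hq hΓ ht hΛ => ?_⟩
  have hq1 : 1 < q := by linarith
  have hL0 : 0 < -t := by linarith
  have ha0 : (0 : ℝ) ≤ a := Nat.cast_nonneg a
  have hM0 : (0 : ℝ) ≤ M := Nat.cast_nonneg M
  have hqL0 : 0 ≤ q * (-t) := by positivity
  have hqL : q * (-t) ≤ 30 := by nlinarith
  have hL : -t ≤ 3 / 10 := by nlinarith
  have hl2 : ell2 q t ≤ (q - 1) / 100 * t ^ 2 := Claimed.Agent.R324.Core.w0_ell2_le_sq hq ht (by linarith)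
  have hl3 : (q - 1) / 100 * t ^ 2 ≤ q * (-t) * (-t) / 100 := by nlinarith [sq_nonneg t]
  have hl2' : ell2 q t ≤ 9 / 100 := by nlinarith
  have hl0 := w0_ell2_pos hq1 ht
  refine ⟨h q Γ t hq1 hΓ ht, ?_, ?_⟩
  · intro y hy hy2
    have hV := w0_wL_pos (a := a) (M := M) hq1 hΓ ht hy
    rcases lt_or_ge y 0 with hneg | hpos
    · rw [w0_tt_wL_S a M q Γ t hneg, abs_zero]
      positivity
    · have hy12 : 1 / 2 < y := by rwa [abs_of_nonneg hpos] at hy2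
      have hX := w0_Xf_nonneg hy
      have hXt : Xt y = Xf y := Xt_eq hy12.le
      have hB0 : 0 < (1 + Γ) * (-t) := by positivity
      obtain ⟨n1, n2, n3⟩ := w0_JetC_n a M (X := Xf y) (r := rh2 q t y) (B := (1 + Γ) * (-t) + Xf y) (Θ := Th t y) hX
        (by unfold rh2; rw [hXt]; linarith) (by unfold rh2; rw [hXt]; linarith) (by linarith) (by linarith)
        (by unfold Th; rw [hXt]; linarith) (by unfold Th; rw [hXt]; linarith)
      rw [w0_tt_wL_N a M hq1 hΓ ht ⟨hy12, hy.2⟩]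
      set n := a * Xf y / rh2 q t y + Xf y / ((1 + Γ) * (-t) + Xf y) - (M + 1) * Xf y / Th t y with hn
      have hnabs : |n| ≤ a + M + 2 := abs_le.2 ⟨by linarith, by linarith⟩
      rw [abs_mul, abs_mul, abs_mul, abs_of_pos hV, abs_of_nonneg hpos, abs_of_pos (by norm_num : (0 : ℝ) < 2)]
      refine mul_le_mul_of_nonneg_right ?_ hV.le
      nlinarith [abs_nonneg n, hy.2]
  · intro y hy hyp
    have hV := w0_wL_pos (a := a) (M := M) hq1 hΓ ht hy
    rcases lt_or_ge y 0 with hneg | hpos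
    · rw [w0_tt_wL_S a M q Γ t hneg, mul_zero, add_zero]
      refine mul_le_mul_of_nonneg_right ?_ hV.le
      have h1 : rh2 q t y ≤ 109 / 100 := by
        unfold rh2
        have := (Xt_nonneg hy.1 hy.2).2
        linarith
      unfold Xf at hyp ⊢
      linarith
    · rcases le_or_gt y (1 / 2) with hle | hy12
      · exfalso
        have h1 : rh2 q t y ≤ 109 / 100 := by
          unfold rh2
          have := (Xt_nonneg hy.1 hy.2).2
          linarith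
        unfold Xf at hyp
        nlinarith
      · have hX := w0_Xf_nonneg hy
        have hXt : Xt y = Xf y := Xt_eq hy12.le
        have hB0 : 0 < (1 + Γ) * (-t) := by positivity
        have hTh : Th t y = -t + Xf y := by unfold Th; rw [hXt]
        obtain ⟨n1, n2, n3⟩ := w0_JetC_n a M (X := Xf y) (r := rh2 q t y) (B := (1 + Γ) * (-t) + Xf y) (Θ := Th t y) hX
          (by unfold rh2; rw [hXt]; linarith) (by unfold rh2; rw [hXt]; linarith) (by linarith) (by linarith)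
          (by rw [hTh]; linarith) (by rw [hTh]; linarith)
        rw [w0_tt_wL_N a M hq1 hΓ ht ⟨hy12, hy.2⟩]
        set n := a * Xf y / rh2 q t y + Xf y / ((1 + Γ) * (-t) + Xf y) - (M + 1) * Xf y / Th t y with hn
        have hX3 : 3 * Xf y < ell2 q t := by
          unfold rh2 at hyp
          rw [hXt] at hyp
          linarith
        have hX4 : Xf y ≤ q * (-t) * (-t) / 300 := by linarith
        have hMX : ((M : ℝ) + 1) * Xf y ≤ (-t) / 10 := by
          calc ((M : ℝ) + 1) * Xf y ≤ ((M : ℝ) + 1) * (q * (-t) * (-t) / 300) :=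
                mul_le_mul_of_nonneg_left hX4 (by linarith)
            _ = ((M + 1) * q * (-t)) * (-t) / 300 := by ring
            _ ≤ 30 * (-t) / 300 := by
                apply div_le_div_of_nonneg_right _ (by norm_num)
                exact mul_le_mul_of_nonneg_right hΛ hL0.le
            _ = (-t) / 10 := by ring
        have hA3 : ((M : ℝ) + 1) * Xf y / Th t y ≤ 1 / 10 := by
          rw [div_le_iff₀ (by rw [hTh]; linarith), hTh]
          linarith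
        have hn10 : -(1 / 10) ≤ n := by linarith
        have key : 1 / 4 ≤ y ^ 2 - Xf y + 2 * y ^ 2 * n := by
          have hy2 : y ^ 2 = 1 - Xf y := by unfold Xf; ring
          have hy20 : 0 ≤ y ^ 2 := sq_nonneg y
          have hy21 : y ^ 2 ≤ 1 := by rw [hy2]; linarith
          have hX5 : Xf y ≤ 3 / 100 := by linarith
          nlinarith [mul_nonneg hy20 (by linarith : 0 ≤ n + 1 / 10)]
        have e : (y ^ 2 - Xf y) * wL a M q Γ t y + y * (2 * y * n * wL a M q Γ t y)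
            = (y ^ 2 - Xf y + 2 * y ^ 2 * n) * wL a M q Γ t y := by ring
        rw [e]
        exact mul_le_mul_of_nonneg_right key hV.le

end

end Claimed.Agent.R324.Core
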