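/-
Row 324 (S0582), PDE core, module W (architect helper427; W0, WC, W1, W2: helper217).   Blueprint 7.3 (origin/helper232:docs/R324_blueprint.md).   FILE JetD
   Λ = -t,  X = Xf y = 1 - y²,  X̃ = Xt y,  ℓ² = ell2 q t = (q-1)/100 Λ^(2γ),  γ = gaF q = 8/bAl q,  2 < bAl q < 3 (`bAl_bounds`, q ≥ 100),  r̂² = rh2 = ℓ² + X̃,  Θ = Th = Λ + X̃   (Core/Defs.lean).
   tt f = -X f',  ttp f = tt f + y f;   pointwise rules and the class `SmI` (smooth near [-1,1]): Core/W/TtCalc.lean.     𝕀 = II: Core/W/Ibp.lean.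
W5 (jets): the equations of the jets.       v = Lop q g U (Core/Defs.lean):
      v_j = Z X U_j'' + (-d_j y Z + X 𝗐₁) U_j' + Σ_k fac_jk c_jk U_k,     d = (q+1, q+1, q+5) (`dimJ`),   fac_jk = X for k = 2, j ≠ 2, else 1 (`facJ`).
   slT U t j = fun y => U j (t,y);    deriv (slT U t j) y = dY (U j) (t,y) (rfl),   deriv (deriv (slT U t j)) y = dY (dY (U j)) (t,y) (rfl; `dY` in Core/Defs.lean).
   `CoefB q g Λ₀ C` (Core/W/Coef.lean):  1/C ≤ Z (`hc.Zlow`),  |𝗐₁| ≤ C/r̂² (`hc.w1.b00`),  |c_jk| ≤ C/r̂² for (j ≠ 2 or k = 2) (`(hc.cf j k _).b00`),  |X c_2k| ≤ C/r̂² (`(hc.cfX k).b00`).      (b00 gives `C * (1 / rh2 q t y)`.)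
   n2 = (q+1) U₀² + 2 U₁² + q/(q+1) (X U₂)²,   n2t = (q+1)(tt U₀)² + 2 (tt U₁)² + q/(q+1) (tt (X U₂))²;   q ≥ 1: each of U₀², U₁², (X U₂)² is ≤ 2 n2, same for n2t.       tt U_j = -X U_j',    tt (X U₂) = 2 y X U₂ - X² U₂'  (`tt_mul`, `tt_Xf`).
* `w5_eq01` (j = 0, 1):   Z (X p' - (q+1) y p) = v_j - 𝗐₁ X p - c_j0 U₀ - c_j1 U₁ - c_j2 X U₂,   X p = -tt U_j     ⟹   |X p' - (q+1) y p| ≤ C (|v_j| + (C/r̂²)(|tt U_j| + |U₀| + |U₁| + |X U₂|));   square ((a₁+…+a₅)² ≤ 5 Σ a_i²).      K = 10 C⁴ + 5 C² or anything.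
* `w5_eq2`:   X Z (X p' - (q+5) y p) = X v₂ - 𝗐₁ X² U₂' - (X c_20) U₀ - (X c_21) U₁ - c_22 (X U₂),    X² U₂' = 2 y X U₂ - tt (X U₂).
-/
import Claimed.Agent.R324.Core.W.FormDefs

set_option autoImplicit false

namespace Claimed.Agent.R324.Core

open Set Filter Topology MeasureTheory
open scoped ContDiff

noncomputable section

variable {q Λ₀ C : ℝ} {g : Bg}

theorem w0_JetD_five (a b c d e : ℝ) : (a + b + c + d + e) ^ 2 ≤ 5 * (a ^ 2 + b ^ 2 + c ^ 2 + d ^ 2 + e ^ 2) := by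
  nlinarith [sq_nonneg (a - b), sq_nonneg (a - c), sq_nonneg (a - d), sq_nonneg (a - e), sq_nonneg (b - c),
    sq_nonneg (b - d), sq_nonneg (b - e), sq_nonneg (c - d), sq_nonneg (c - e), sq_nonneg (d - e)]

theorem w0_JetD_sq {w s P : ℝ} (hw : |w| ≤ s) : (w * P) ^ 2 ≤ s ^ 2 * P ^ 2 := by
  have h1 : w ^ 2 ≤ s ^ 2 := by
    rw [← sq_abs w]
    exact pow_le_pow_left₀ (abs_nonneg w) hw 2
  rw [mul_pow]
  exact mul_le_mul_of_nonneg_right h1 (sq_nonneg P)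

/-- the scalar core of `w5_eq01`, `w5_eq2`. -/
theorem w0_JetD_core {Z E v w P c0 c1 c2 u0 u1 b r : ℝ} (hC : 0 < C) (hZ : 1 / C ≤ Z) (hw : |w| ≤ C * (1 / r))
    (h0 : |c0| ≤ C * (1 / r)) (h1 : |c1| ≤ C * (1 / r)) (h2 : |c2| ≤ C * (1 / r))
    (heq : Z * E = v - w * P - c0 * u0 - c1 * u1 - c2 * b) :
    E ^ 2 ≤ 5 * C ^ 2 * v ^ 2 + 5 * C ^ 4 * ((P ^ 2 + u0 ^ 2 + u1 ^ 2 + b ^ 2) / r ^ 2) := by
  have hZC : 1 ≤ Z * C := (div_le_iff₀ hC).1 hZ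
  have hZC2 : 1 ≤ (Z * C) ^ 2 := one_le_pow₀ hZC
  have e1 : E ^ 2 ≤ C ^ 2 * (Z * E) ^ 2 := by
    calc E ^ 2 = 1 * E ^ 2 := (one_mul _).symm
      _ ≤ (Z * C) ^ 2 * E ^ 2 := mul_le_mul_of_nonneg_right hZC2 (sq_nonneg E)
      _ = C ^ 2 * (Z * E) ^ 2 := by ring
  have e2 : (Z * E) ^ 2 ≤ 5 * (v ^ 2 + (w * P) ^ 2 + (c0 * u0) ^ 2 + (c1 * u1) ^ 2 + (c2 * b) ^ 2) := by
    rw [heq]
    have := w0_JetD_five v (-(w * P)) (-(c0 * u0)) (-(c1 * u1)) (-(c2 * b))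
    calc (v - w * P - c0 * u0 - c1 * u1 - c2 * b) ^ 2
        = (v + -(w * P) + -(c0 * u0) + -(c1 * u1) + -(c2 * b)) ^ 2 := by ring
      _ ≤ _ := this
      _ = _ := by ring
  have f0 := w0_JetD_sq (P := P) hw
  have f1 := w0_JetD_sq (P := u0) h0
  have f2 := w0_JetD_sq (P := u1) h1
  have f3 := w0_JetD_sq (P := b) h2
  have e3 : C ^ 2 * (Z * E) ^ 2 ≤ C ^ 2 * (5 * (v ^ 2 + (C * (1 / r)) ^ 2 * P ^ 2 + (C * (1 / r)) ^ 2 * u0 ^ 2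
      + (C * (1 / r)) ^ 2 * u1 ^ 2 + (C * (1 / r)) ^ 2 * b ^ 2)) :=
    mul_le_mul_of_nonneg_left (by linarith) (sq_nonneg C)
  calc E ^ 2 ≤ _ := e1.trans e3
    _ = _ := by ring

theorem w0_JetD_n2 (hq : 1 ≤ q) (u : Fin 3 → ℝ → ℝ) (y : ℝ) :
    (u 0 y) ^ 2 ≤ n2 q u y ∧ (u 1 y) ^ 2 ≤ n2 q u y ∧ ((1 - y ^ 2) * u 2 y) ^ 2 ≤ 2 * n2 q u y := by
  have hk : 1 / 2 ≤ q / (q + 1) := by
    rw [div_le_div_iff₀ (by norm_num) (by linarith)]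
    linarith
  have a0 := sq_nonneg (u 0 y)
  have a1 := sq_nonneg (u 1 y)
  have a2 := sq_nonneg ((1 - y ^ 2) * u 2 y)
  have b0 : (u 0 y) ^ 2 ≤ (q + 1) * (u 0 y) ^ 2 := by nlinarith
  have b2 : 1 / 2 * ((1 - y ^ 2) * u 2 y) ^ 2 ≤ q / (q + 1) * ((1 - y ^ 2) * u 2 y) ^ 2 :=
    mul_le_mul_of_nonneg_right hk a2
  unfold n2
  refine ⟨by linarith, by linarith, by linarith⟩

theorem w0_JetD_n2t (hq : 1 ≤ q) (u : Fin 3 → ℝ → ℝ) (y : ℝ) :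
    (tt (u 0) y) ^ 2 ≤ n2t q u y ∧ (tt (u 1) y) ^ 2 ≤ n2t q u y ∧
      (tt (fun z => (1 - z ^ 2) * u 2 z) y) ^ 2 ≤ 2 * n2t q u y := by
  have hk : 1 / 2 ≤ q / (q + 1) := by
    rw [div_le_div_iff₀ (by norm_num) (by linarith)]
    linarith
  have a0 := sq_nonneg (tt (u 0) y)
  have a1 := sq_nonneg (tt (u 1) y)
  have a2 := sq_nonneg (tt (fun z => (1 - z ^ 2) * u 2 z) y)
  have b0 : (tt (u 0) y) ^ 2 ≤ (q + 1) * (tt (u 0) y) ^ 2 := by nlinarith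
  have b2 : 1 / 2 * (tt (fun z => (1 - z ^ 2) * u 2 z) y) ^ 2 ≤ q / (q + 1) * (tt (fun z => (1 - z ^ 2) * u 2 z) y) ^ 2 :=
    mul_le_mul_of_nonneg_right hk a2
  unfold n2t
  refine ⟨by linarith, by linarith, by linarith⟩

theorem w0_JetD_fin {E2 v2 S D m : ℝ} (core : E2 ≤ 5 * C ^ 2 * v2 + 5 * C ^ 4 * S) (hS : S ≤ m * D) (hD : 0 ≤ D)
    (hv : 0 ≤ v2) (hm : 0 ≤ m) : E2 ≤ (5 * C ^ 2 + 5 * m * C ^ 4) * (v2 + D) := by
  have hC4 : 0 ≤ 5 * C ^ 4 := by positivity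
  have hC2 : 0 ≤ 5 * C ^ 2 := by positivity
  have h3 := mul_le_mul_of_nonneg_left hS hC4
  have h4 : 0 ≤ 5 * m * C ^ 4 * v2 := by positivity
  have h5 := mul_nonneg hC2 hD
  nlinarith

theorem w0_JetD_P {y A B : ℝ} (hy2 : y ^ 2 ≤ 1) : (2 * y * A - B) ^ 2 ≤ 8 * A ^ 2 + 2 * B ^ 2 := by
  have h1 : (2 * y * A - B) ^ 2 ≤ 2 * (2 * y * A) ^ 2 + 2 * B ^ 2 := by nlinarith [sq_nonneg (2 * y * A + B)]
  have h2 : (2 * y * A) ^ 2 ≤ 4 * A ^ 2 := by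
    have : (2 * y * A) ^ 2 = 4 * (y ^ 2 * A ^ 2) := by ring
    rw [this]
    nlinarith [mul_le_mul_of_nonneg_right hy2 (sq_nonneg A)]
  linarith

theorem w5_eq01 (hq : 1 ≤ q) (hC : 0 < C) (hc : CoefB q g Λ₀ C) (hΛ : Λ₀ ≤ 1) : ∃ K : ℝ, 0 ≤ K ∧
    ∀ t ∈ Ico (-Λ₀) 0, ∀ y ∈ Icc (-1 : ℝ) 1, ∀ U : Tri, (∀ j, Sm (U j)) → ∀ j : Fin 3, j ≠ 2 →
      (Xf y * deriv (deriv (slT U t j)) y - (q + 1) * y * deriv (slT U t j) y) ^ 2
        ≤ K * ((slT (Lop q g U) t j y) ^ 2 + (n2t q (slT U t) y + n2 q (slT U t) y) / (rh2 q t y) ^ 2) := by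
  refine ⟨5 * C ^ 2 + 5 * 4 * C ^ 4, by positivity, fun t ht y hy U hU j hj => ?_⟩
  obtain ⟨m0, m1, m2⟩ := w0_JetD_n2 hq (slT U t) y
  obtain ⟨k0, k1, k2⟩ := w0_JetD_n2t hq (slT U t) y
  have hfac : ∀ k : Fin 3, facJ j k y = if k = 2 then Xf y else 1 := by
    intro k
    simp [facJ, hj, Xf]
  have heq : g.Z (t, y) * (Xf y * deriv (deriv (slT U t j)) y - (q + 1) * y * deriv (slT U t j) y)
      = slT (Lop q g U) t j y - g.w1 (t, y) * (-(tt (slT U t j) y)) - g.cf q j 0 (t, y) * slT U t 0 y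
        - g.cf q j 1 (t, y) * slT U t 1 y - g.cf q j 2 (t, y) * ((1 - y ^ 2) * slT U t 2 y) := by
    have e1 : slT (Lop q g U) t j y = g.Z (t, y) * Xf y * deriv (deriv (slT U t j)) y
        + (-(dimJ q j) * y * g.Z (t, y) + Xf y * g.w1 (t, y)) * deriv (slT U t j) y
        + ∑ k, facJ j k y * g.cf q j k (t, y) * slT U t k y := rfl
    have e2 : dimJ q j = q + 1 := by simp [dimJ, hj]
    rw [e1, e2, Fin.sum_univ_three, hfac, hfac, hfac, tt_eq_Xf]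
    simp only [Fin.isValue, Fin.reduceEq, if_false, if_true]
    unfold Xf
    ring
  have core := w0_JetD_core hC (hc.Zlow t ht y hy) (hc.w1.b00 ht hy) ((hc.cf j 0 (Or.inl hj)).b00 ht hy)
    ((hc.cf j 1 (Or.inl hj)).b00 ht hy) ((hc.cf j 2 (Or.inl hj)).b00 ht hy) heq
  have hP : (-(tt (slT U t j) y)) ^ 2 ≤ n2t q (slT U t) y := by
    rw [neg_sq]
    fin_cases j
    · exact k0
    · exact k1
    · exact absurd rfl hj
  have hn2 : 0 ≤ n2 q (slT U t) y := (sq_nonneg _).trans m0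
  have hn2t : 0 ≤ n2t q (slT U t) y := (sq_nonneg _).trans k0
  have hS : ((-(tt (slT U t j) y)) ^ 2 + (slT U t 0 y) ^ 2 + (slT U t 1 y) ^ 2 + ((1 - y ^ 2) * slT U t 2 y) ^ 2) / (rh2 q t y) ^ 2
      ≤ 4 * ((n2t q (slT U t) y + n2 q (slT U t) y) / (rh2 q t y) ^ 2) := by
    rw [← mul_div_assoc]
    exact div_le_div_of_nonneg_right (by linarith) (sq_nonneg _)
  have hD : 0 ≤ (n2t q (slT U t) y + n2 q (slT U t) y) / (rh2 q t y) ^ 2 := by positivity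
  exact w0_JetD_fin core hS hD (sq_nonneg _) (by norm_num)

theorem w5_eq2 (hq : 1 ≤ q) (hC : 0 < C) (hc : CoefB q g Λ₀ C) (hΛ : Λ₀ ≤ 1) : ∃ K : ℝ, 0 ≤ K ∧
    ∀ t ∈ Ico (-Λ₀) 0, ∀ y ∈ Icc (-1 : ℝ) 1, ∀ U : Tri, (∀ j, Sm (U j)) →
      (Xf y * (Xf y * deriv (deriv (slT U t 2)) y - (q + 5) * y * deriv (slT U t 2) y)) ^ 2
        ≤ K * ((Xf y * slT (Lop q g U) t 2 y) ^ 2 + (n2t q (slT U t) y + n2 q (slT U t) y) / (rh2 q t y) ^ 2) := by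
  refine ⟨5 * C ^ 2 + 5 * 20 * C ^ 4, by positivity, fun t ht y hy U hU => ?_⟩
  obtain ⟨m0, m1, m2⟩ := w0_JetD_n2 hq (slT U t) y
  obtain ⟨k0, k1, k2⟩ := w0_JetD_n2t hq (slT U t) y
  have hd2 : DifferentiableAt ℝ (slT U t 2) y := (smI_slT hU ht.2 2).differentiableAt hy
  have htt : tt (fun z => (1 - z ^ 2) * slT U t 2 z) y
      = 2 * y * ((1 - y ^ 2) * slT U t 2 y) - Xf y ^ 2 * deriv (slT U t 2) y := by
    have h1 := tt_mul (f := Xf) (g := slT U t 2) (y := y) (smI_Xf.differentiableAt hy) hd2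
    have h2 : (fun z => (1 - z ^ 2) * slT U t 2 z) = fun z => Xf z * slT U t 2 z := rfl
    rw [h2, h1, tt_Xf, tt_eq_Xf]
    unfold Xf
    ring
  have heq : g.Z (t, y) * (Xf y * (Xf y * deriv (deriv (slT U t 2)) y - (q + 5) * y * deriv (slT U t 2) y))
      = Xf y * slT (Lop q g U) t 2 y - g.w1 (t, y) * (Xf y ^ 2 * deriv (slT U t 2) y)
        - (Xf y * g.cf q 2 0 (t, y)) * slT U t 0 y
        - (Xf y * g.cf q 2 1 (t, y)) * slT U t 1 y - g.cf q 2 2 (t, y) * ((1 - y ^ 2) * slT U t 2 y) := by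
    have e1 : slT (Lop q g U) t 2 y = g.Z (t, y) * Xf y * deriv (deriv (slT U t 2)) y
        + (-(dimJ q 2) * y * g.Z (t, y) + Xf y * g.w1 (t, y)) * deriv (slT U t 2) y
        + ∑ k, facJ 2 k y * g.cf q 2 k (t, y) * slT U t k y := rfl
    have e2 : dimJ q 2 = q + 5 := by simp [dimJ]
    have e3 : ∀ k : Fin 3, facJ 2 k y = 1 := by intro k; simp [facJ]
    rw [e1, e2, Fin.sum_univ_three, e3, e3, e3]
    unfold Xf
    ring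
  have core := w0_JetD_core hC (hc.Zlow t ht y hy) (hc.w1.b00 ht hy) ((hc.cfX 0).b00 ht hy)
    ((hc.cfX 1).b00 ht hy) ((hc.cf 2 2 (Or.inr rfl)).b00 ht hy) heq
  have hn2 : 0 ≤ n2 q (slT U t) y := (sq_nonneg _).trans m0
  have hn2t : 0 ≤ n2t q (slT U t) y := (sq_nonneg _).trans k0
  have hy2 : y ^ 2 ≤ 1 := by nlinarith [hy.1, hy.2]
  have hP : (Xf y ^ 2 * deriv (slT U t 2) y) ^ 2 ≤ 16 * n2 q (slT U t) y + 4 * n2t q (slT U t) y := by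
    have e : Xf y ^ 2 * deriv (slT U t 2) y
        = 2 * y * ((1 - y ^ 2) * slT U t 2 y) - tt (fun z => (1 - z ^ 2) * slT U t 2 z) y := by
      rw [htt]; ring
    rw [e]
    have h1 := w0_JetD_P (A := (1 - y ^ 2) * slT U t 2 y) (B := tt (fun z => (1 - z ^ 2) * slT U t 2 z) y) hy2
    linarith
  have hS : ((Xf y ^ 2 * deriv (slT U t 2) y) ^ 2 + (slT U t 0 y) ^ 2 + (slT U t 1 y) ^ 2 + ((1 - y ^ 2) * slT U t 2 y) ^ 2) / (rh2 q t y) ^ 2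
      ≤ 20 * ((n2t q (slT U t) y + n2 q (slT U t) y) / (rh2 q t y) ^ 2) := by
    rw [← mul_div_assoc]
    exact div_le_div_of_nonneg_right (by linarith) (sq_nonneg _)
  have hD : 0 ≤ (n2t q (slT U t) y + n2 q (slT U t) y) / (rh2 q t y) ^ 2 := by positivity
  exact w0_JetD_fin core hS hD (sq_nonneg _) (by norm_num)

end

end Claimed.Agent.R324.Core
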