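/-
Row 324 (S0582), PDE core, module W (architect helper427; W0, WC, W1, W2: helper217).   Blueprint 7.3 (origin/helper232:docs/R324_blueprint.md).   FILE JetE
   Λ = -t,  X = Xf y = 1 - y²,  X̃ = Xt y,  ℓ² = ell2 q t = (q-1)/100 Λ^(2γ),  γ = gaF q = 8/bAl q,  2 < bAl q < 3 (`bAl_bounds`, q ≥ 100),  r̂² = rh2 = ℓ² + X̃,  Θ = Th = Λ + X̃   (Core/Defs.lean).
   tt f = -X f',  ttp f = tt f + y f;   pointwise rules and the class `SmI` (smooth near [-1,1]): Core/W/TtCalc.lean.     𝕀 = II: Core/W/Ibp.lean.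
W5 (jets): (EL).        PP(u) = ppS u = (u₀', u₁', u₂, X u₂'),    pp2 u = Σ p²,    ppJ u = Σ (p² + (tt p)²).        om = X^k V,  V ∈ TBJ q t C_V c₁,  4 c₁ + 4 + 2k ≤ q.
      RHS := 𝕀[om n2(v)] + 𝕀[om r̂⁻⁴ (n2t(u) + n2(u))],     v = Lop q g U.         (r̂² ≤ 2 on the domain: `w0_rh2_le_Th`, `w0_Th_le_two`; so 1 ≤ 4/r̂⁴.)
* `w5_el01` (j = 0,1; p = U_j'):   `w5_coer` (k, d = q+1):   𝕀[om (p² + (tt p)²)] ≤ 𝕀[om (X p' - d y p)²] + K 𝕀[om (X p)²];   `w5_eq01` (v_j² ≤ n2(v));   (X p)² = (tt U_j)² ≤ n2t ≤ 4 n2t/r̂⁴.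
* `w5_el3` (P = U₂'):   `w5_coer` (k+2, d = q+5):   𝕀[X^{k+2} V (P² + (tt P)²)] ≤ 𝕀[X^k V (X (X P' - d y P))²] + K 𝕀[X^k V (X² P)²];   `w5_eq2` ((X v₂)² ≤ 2 n2(v));   X² P = 2 y X U₂ - tt(X U₂).
      p₃ = X P:   p₃² = X² P²,   tt p₃ = X tt P + 2 y X P,   (tt p₃)² ≤ 2 X² (tt P)² + 8 X² P².
* `w5_el2` (b = U₂):   tt b = -X U₂' = -p₃;   `w5_hardy` with R = r̂² (`hV.hd`):   𝕀[om b²] ≤ 64 𝕀[om p₃²] + K 𝕀[om (X b)²/r̂⁴],   (X b)² ≤ 2 n2.
* `w5_EL`: sum of the four (`Fin.sum_univ_four`, `ii_add`).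
-/
import Claimed.Agent.R324.Core.W.JetC
import Claimed.Agent.R324.Core.W.JetD

set_option autoImplicit false

namespace Claimed.Agent.R324.Core

open Set Filter Topology MeasureTheory
open scoped ContDiff

noncomputable section

/-- the jets `(u₀', u₁', u₂, X u₂')`. -/
def ppS (u : Fin 3 → ℝ → ℝ) : Fin 4 → ℝ → ℝ := ![deriv (u 0), deriv (u 1), u 2, fun y => Xf y * deriv (u 2) y]

/-- `Σ p²`. -/
def pp2 (u : Fin 3 → ℝ → ℝ) (y : ℝ) : ℝ := ∑ p, (ppS u p y) ^ 2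

/-- `Σ (p² + (tt p)²)`. -/
def ppJ (u : Fin 3 → ℝ → ℝ) (y : ℝ) : ℝ := ∑ p, ((ppS u p y) ^ 2 + (tt (ppS u p) y) ^ 2)

/-- hygiene. -/
theorem core_w_jete_hygiene : True := by
  have := @ppS.eq_1
  have := @pp2.eq_1
  have := @ppJ.eq_1
  trivial

variable {q Λ₀ C CV c₁ : ℝ} {g : Bg} {u : Fin 3 → ℝ → ℝ}

theorem smI_ppS (hu : ∀ j, SmI (u j)) (p : Fin 4) : SmI (ppS u p) := by
  fin_cases p
  · exact (hu 0).deriv
  · exact (hu 1).deriv
  · exact hu 2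
  · exact smI_Xf.mul (hu 2).deriv

theorem ci_ppJ (hu : ∀ j, SmI (u j)) : CI (ppJ u) := by
  have h : SmI (ppJ u) := by
    unfold ppJ
    exact smI_sum Finset.univ (F := fun p y => (ppS u p y) ^ 2 + (tt (ppS u p) y) ^ 2)
      (fun p _ => ((Claimed.Agent.R324.Core.smI_ppS hu p).pow 2).add ((Claimed.Agent.R324.Core.smI_ppS hu p).tt.pow 2))
  exact h.continuousOn

theorem pp2_le_ppJ (u : Fin 3 → ℝ → ℝ) (y : ℝ) : pp2 u y ≤ ppJ u y := by
  unfold pp2 ppJ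
  exact Finset.sum_le_sum fun p _ => le_add_of_nonneg_right (sq_nonneg _)

/-- the right hand side of (EL). -/
def elR (q : ℝ) (g : Bg) (k : ℕ) (V : ℝ → ℝ) (U : Tri) (t : ℝ) : ℝ :=
  II (fun y => Xf y ^ k * V y * n2 q (slT (Lop q g U) t) y)
    + II (fun y => Xf y ^ k * V y / (rh2 q t y) ^ 2 * (n2t q (slT U t) y + n2 q (slT U t) y))

theorem core_w_jete_hygiene2 : True := by
  have := @elR.eq_1
  trivial

/-- integration of a pointwise bound against `om`. -/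
theorem w0_JetE_bd {om F N1 M1 r : ℝ → ℝ} (hom : CI om) (hom0 : ∀ y ∈ Icc (-1 : ℝ) 1, 0 ≤ om y) (hF : CI F) (hN : CI N1)
    (hM : CI M1) (hr : CI r) (hr0 : ∀ y ∈ Icc (-1 : ℝ) 1, 0 < r y) (a : ℝ)
    (h : ∀ y ∈ Icc (-1 : ℝ) 1, F y ≤ a * (N1 y + M1 y / r y ^ 2)) :
    II (fun y => om y * F y) ≤ a * (II (fun y => om y * N1 y) + II (fun y => om y / r y ^ 2 * M1 y)) := by
  have c1 : CI (fun y => om y * N1 y) := hom.mul hN
  have c2 : CI (fun y => om y / r y ^ 2 * M1 y) :=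
    (hom.div (hr.pow 2) (fun y hy => (pow_pos (hr0 y hy) 2).ne')).mul hM
  rw [← ii_add c1 c2, ← ii_const_mul]
  refine ii_mono (hom.mul hF) (continuousOn_const.mul (c1.add c2)) fun y hy => ?_
  calc om y * F y ≤ om y * (a * (N1 y + M1 y / r y ^ 2)) := mul_le_mul_of_nonneg_left (h y hy) (hom0 y hy)
    _ = a * (om y * N1 y + om y / r y ^ 2 * M1 y) := by ring

/-- `M ≤ 4 M / r²` for `0 < r ≤ 2`. -/
theorem w0_JetE_four {M r : ℝ} (hM : 0 ≤ M) (hr : 0 < r) (hr2 : r ≤ 2) : M ≤ 4 * (M / r ^ 2) := by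
  have h1 : r ^ 2 ≤ 4 := by nlinarith
  have h2 : 0 < r ^ 2 := by positivity
  rw [← mul_div_assoc, le_div_iff₀ h2]
  nlinarith

theorem w5_el01 (hq : 100 ≤ q) (hs : BgSm g) (hC : 0 < C) (hc : CoefB q g Λ₀ C) (hΛ : Λ₀ ≤ 100 / q) (CV c₁ : ℝ) :
    ∃ K : ℝ, 0 ≤ K ∧ ∀ t ∈ Ico (-Λ₀) 0, ∀ V : ℝ → ℝ, TBJ q t CV c₁ V → ∀ k : ℕ, 4 * c₁ + 4 + 2 * k ≤ q →
      ∀ U : Tri, (∀ j, Sm (U j)) → ∀ j : Fin 3, j ≠ 2 →
        II (fun y => Xf y ^ k * V y * ((deriv (slT U t j) y) ^ 2 + (tt (deriv (slT U t j)) y) ^ 2)) ≤ K * elR q g k V U t := by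
  have hq0 : 0 < q := by linarith
  have hq1 : (1 : ℝ) ≤ q := by linarith
  have h100 : 100 / q ≤ 1 := by rw [div_le_one hq0]; exact hq
  obtain ⟨K1, hK1, hE⟩ := w5_eq01 hq1 hC hc (hΛ.trans h100)
  obtain ⟨Cr, _, hrTB⟩ := w0_tb_rh2
  refine ⟨K1 + 16 / 9 * (1 + (q + 1) * |CV|) * 4, by positivity, fun t ht V hV k hk U hU j hj => ?_⟩
  have ht0 : t < 0 := ht.2
  have hCV : |CV| = CV := abs_of_nonneg hV.tb.nonneg_C
  have hu : ∀ j, SmI (slT U t j) := smI_slT hU ht0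
  have hv : ∀ j, SmI (slT (Lop q g U) t j) := smI_slT (fun j => sm_Lop q hs hU j) ht0
  have hp : SmI (deriv (slT U t j)) := (hu j).deriv
  have hom : SmI (fun y => Xf y ^ k * V y) := (smI_Xf.pow k).mul hV.tb.sm
  have hom0 : ∀ y ∈ Icc (-1 : ℝ) 1, 0 ≤ Xf y ^ k * V y := fun y hy =>
    mul_nonneg (pow_nonneg (w0_Xf_nonneg hy) k) (hV.tb.pos y hy).le
  have hr : SmI (rh2 q t) := (hrTB q t (by linarith) ht0).sm
  have hr0 : ∀ y ∈ Icc (-1 : ℝ) 1, 0 < rh2 q t y := fun y hy => w0_rh2_pos (by linarith) ht0 hy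
  have hr2 : ∀ y ∈ Icc (-1 : ℝ) 1, rh2 q t y ≤ 2 := fun y hy =>
    (w0_rh2_le_Th hq ht0 (by linarith [ht.1]) y).trans (w0_Th_le_two (by linarith [ht.1]) hy)
  have cN : CI (n2 q (slT (Lop q g U) t)) := ci_n2 hv
  have cM : CI (fun y => n2t q (slT U t) y + n2 q (slT U t) y) := (ci_n2t hu).add (ci_n2 hu)
  have coer := w5_coer (d := q + 1) hV.tb hV.n1 hp k (by linarith)
  have hB := w0_JetE_bd (om := fun y => Xf y ^ k * V y)
    (F := fun y => (Xf y * deriv (deriv (slT U t j)) y - (q + 1) * y * deriv (slT U t j) y) ^ 2)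
    (N1 := n2 q (slT (Lop q g U) t)) (M1 := fun y => n2t q (slT U t) y + n2 q (slT U t) y) (r := rh2 q t)
    hom.continuousOn hom0
    (((smI_Xf.mul hp.deriv).sub (((smI_const (q + 1)).mul smI_id).mul hp)).pow 2).continuousOn cN cM hr.continuousOn hr0 K1
    (fun y hy => by
      refine (hE t ht y hy U hU j hj).trans (mul_le_mul_of_nonneg_left ?_ hK1)
      have hn := w0_JetD_n2 hq1 (slT (Lop q g U) t) y
      have : (slT (Lop q g U) t j y) ^ 2 ≤ n2 q (slT (Lop q g U) t) y := by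
        fin_cases j
        · exact hn.1
        · exact hn.2.1
        · exact absurd rfl hj
      linarith)
  have hD := w0_JetE_bd (om := fun y => Xf y ^ k * V y)
    (F := fun y => (Xf y * deriv (slT U t j) y) ^ 2)
    (N1 := n2 q (slT (Lop q g U) t)) (M1 := fun y => n2t q (slT U t) y + n2 q (slT U t) y) (r := rh2 q t)
    hom.continuousOn hom0 ((smI_Xf.mul hp).pow 2).continuousOn cN cM hr.continuousOn hr0 4
    (fun y hy => by
      have hn := w0_JetD_n2 hq1 (slT (Lop q g U) t) y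
      have hn' := w0_JetD_n2 hq1 (slT U t) y
      have hnt := w0_JetD_n2t hq1 (slT U t) y
      have h0 : 0 ≤ n2 q (slT (Lop q g U) t) y := (sq_nonneg _).trans hn.1
      have h1 : 0 ≤ n2 q (slT U t) y := (sq_nonneg _).trans hn'.1
      have h2 : (Xf y * deriv (slT U t j) y) ^ 2 ≤ n2t q (slT U t) y := by
        have e : (Xf y * deriv (slT U t j) y) ^ 2 = (tt (slT U t j) y) ^ 2 := by rw [tt_eq_Xf]; ring
        rw [e]
        fin_cases j
        · exact hnt.1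
        · exact hnt.2.1
        · exact absurd rfl hj
      have h3 : 0 ≤ n2t q (slT U t) y := (sq_nonneg _).trans h2
      have h4 := w0_JetE_four (M := n2t q (slT U t) y + n2 q (slT U t) y) (by linarith) (hr0 y hy) (hr2 y hy)
      show (Xf y * deriv (slT U t j) y) ^ 2 ≤ 4 * (n2 q (slT (Lop q g U) t) y
        + (n2t q (slT U t) y + n2 q (slT U t) y) / rh2 q t y ^ 2)
      linarith)
  have hc0 : 0 ≤ 16 / 9 * (1 + (q + 1) * CV) := by
    have := hV.tb.nonneg_C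
    positivity
  have hD' := mul_le_mul_of_nonneg_left hD hc0
  rw [hCV]
  unfold elR
  calc _ ≤ _ := coer
    _ ≤ _ := add_le_add hB hD'
    _ = _ := by ring

/-- pointwise: the jet `X P`. -/
theorem w0_JetE_XP {y X P T : ℝ} (hy2 : y ^ 2 ≤ 1) :
    (X * P) ^ 2 + (2 * y * X * P + X * T) ^ 2 ≤ 9 * (X ^ 2 * (P ^ 2 + T ^ 2)) := by
  have h1 : (2 * y * X * P + X * T) ^ 2 ≤ 2 * (2 * y * X * P) ^ 2 + 2 * (X * T) ^ 2 := by
    nlinarith [sq_nonneg (2 * y * X * P - X * T)]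
  have h2 : (2 * y * X * P) ^ 2 ≤ 4 * (X * P) ^ 2 := by
    have : (2 * y * X * P) ^ 2 = 4 * (y ^ 2 * (X * P) ^ 2) := by ring
    rw [this]
    nlinarith [mul_le_mul_of_nonneg_right hy2 (sq_nonneg (X * P))]
  nlinarith [sq_nonneg (X * T), sq_nonneg (X * P)]

theorem w5_el3 (hq : 100 ≤ q) (hs : BgSm g) (hC : 0 < C) (hc : CoefB q g Λ₀ C) (hΛ : Λ₀ ≤ 100 / q) (CV c₁ : ℝ) :
    ∃ K : ℝ, 0 ≤ K ∧ ∀ t ∈ Ico (-Λ₀) 0, ∀ V : ℝ → ℝ, TBJ q t CV c₁ V → ∀ k : ℕ, 4 * c₁ + 4 + 2 * k ≤ q →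
      ∀ U : Tri, (∀ j, Sm (U j)) →
        II (fun y => Xf y ^ k * V y * ((Xf y * deriv (slT U t 2) y) ^ 2
          + (tt (fun z => Xf z * deriv (slT U t 2) z) y) ^ 2)) ≤ K * elR q g k V U t := by
  have hq0 : 0 < q := by linarith
  have hq1 : (1 : ℝ) ≤ q := by linarith
  have h100 : 100 / q ≤ 1 := by rw [div_le_one hq0]; exact hq
  obtain ⟨K2, hK2, hE⟩ := w5_eq2 hq1 hC hc (hΛ.trans h100)
  obtain ⟨Cr, _, hrTB⟩ := w0_tb_rh2
  refine ⟨9 * (2 * K2 + 16 / 9 * (1 + (q + 5) * |CV|) * 64), by positivity, fun t ht V hV k hk U hU => ?_⟩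
  have ht0 : t < 0 := ht.2
  have hCV : |CV| = CV := abs_of_nonneg hV.tb.nonneg_C
  have hu : ∀ j, SmI (slT U t j) := smI_slT hU ht0
  have hv : ∀ j, SmI (slT (Lop q g U) t j) := smI_slT (fun j => sm_Lop q hs hU j) ht0
  have hP : SmI (deriv (slT U t 2)) := (hu 2).deriv
  have hom : SmI (fun y => Xf y ^ k * V y) := (smI_Xf.pow k).mul hV.tb.sm
  have hom2 : SmI (fun y => Xf y ^ (k + 2) * V y) := (smI_Xf.pow (k + 2)).mul hV.tb.sm
  have hom0 : ∀ y ∈ Icc (-1 : ℝ) 1, 0 ≤ Xf y ^ k * V y := fun y hy =>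
    mul_nonneg (pow_nonneg (w0_Xf_nonneg hy) k) (hV.tb.pos y hy).le
  have hr : SmI (rh2 q t) := (hrTB q t (by linarith) ht0).sm
  have hr0 : ∀ y ∈ Icc (-1 : ℝ) 1, 0 < rh2 q t y := fun y hy => w0_rh2_pos (by linarith) ht0 hy
  have hr2 : ∀ y ∈ Icc (-1 : ℝ) 1, rh2 q t y ≤ 2 := fun y hy =>
    (w0_rh2_le_Th hq ht0 (by linarith [ht.1]) y).trans (w0_Th_le_two (by linarith [ht.1]) hy)
  have cN : CI (n2 q (slT (Lop q g U) t)) := ci_n2 hv
  have cM : CI (fun y => n2t q (slT U t) y + n2 q (slT U t) y) := (ci_n2t hu).add (ci_n2 hu)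
  have coer := w5_coer (d := q + 5) hV.tb hV.n1 hP (k + 2) (by push_cast; linarith)
  have e1 : II (fun y => Xf y ^ (k + 2) * V y * (Xf y * deriv (deriv (slT U t 2)) y - (q + 5) * y * deriv (slT U t 2) y) ^ 2)
      = II (fun y => Xf y ^ k * V y * (Xf y * (Xf y * deriv (deriv (slT U t 2)) y - (q + 5) * y * deriv (slT U t 2) y)) ^ 2) :=
    ii_congr (fun y _ => by ring)
  have e2 : II (fun y => Xf y ^ (k + 2) * V y * (Xf y * deriv (slT U t 2) y) ^ 2)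
      = II (fun y => Xf y ^ k * V y * (Xf y ^ 2 * deriv (slT U t 2) y) ^ 2) :=
    ii_congr (fun y _ => by ring)
  rw [e1, e2] at coer
  have hB := w0_JetE_bd (om := fun y => Xf y ^ k * V y)
    (F := fun y => (Xf y * (Xf y * deriv (deriv (slT U t 2)) y - (q + 5) * y * deriv (slT U t 2) y)) ^ 2)
    (N1 := n2 q (slT (Lop q g U) t)) (M1 := fun y => n2t q (slT U t) y + n2 q (slT U t) y) (r := rh2 q t)
    hom.continuousOn hom0
    ((smI_Xf.mul ((smI_Xf.mul hP.deriv).sub (((smI_const (q + 5)).mul smI_id).mul hP))).pow 2).continuousOn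
    cN cM hr.continuousOn hr0 (2 * K2)
    (fun y hy => by
      refine (hE t ht y hy U hU).trans ?_
      have hn := w0_JetD_n2 hq1 (slT (Lop q g U) t) y
      have hn' := w0_JetD_n2 hq1 (slT U t) y
      have hnt := w0_JetD_n2t hq1 (slT U t) y
      have h1 : 0 ≤ n2 q (slT U t) y := (sq_nonneg _).trans hn'.1
      have h3 : 0 ≤ n2t q (slT U t) y := (sq_nonneg _).trans hnt.1
      have h4 : 0 ≤ (n2t q (slT U t) y + n2 q (slT U t) y) / rh2 q t y ^ 2 := by positivity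
      have h5 : (Xf y * slT (Lop q g U) t 2 y) ^ 2 ≤ 2 * n2 q (slT (Lop q g U) t) y := hn.2.2
      have h6 : (Xf y * slT (Lop q g U) t 2 y) ^ 2 + (n2t q (slT U t) y + n2 q (slT U t) y) / rh2 q t y ^ 2
          ≤ 2 * (n2 q (slT (Lop q g U) t) y + (n2t q (slT U t) y + n2 q (slT U t) y) / rh2 q t y ^ 2) := by linarith
      calc _ ≤ K2 * (2 * (n2 q (slT (Lop q g U) t) y + (n2t q (slT U t) y + n2 q (slT U t) y) / rh2 q t y ^ 2)) :=
            mul_le_mul_of_nonneg_left h6 hK2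
        _ = _ := by ring)
  have hD := w0_JetE_bd (om := fun y => Xf y ^ k * V y)
    (F := fun y => (Xf y ^ 2 * deriv (slT U t 2) y) ^ 2)
    (N1 := n2 q (slT (Lop q g U) t)) (M1 := fun y => n2t q (slT U t) y + n2 q (slT U t) y) (r := rh2 q t)
    hom.continuousOn hom0 (((smI_Xf.pow 2).mul hP).pow 2).continuousOn cN cM hr.continuousOn hr0 64
    (fun y hy => by
      have hn := w0_JetD_n2 hq1 (slT (Lop q g U) t) y
      have hn' := w0_JetD_n2 hq1 (slT U t) y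
      have hnt := w0_JetD_n2t hq1 (slT U t) y
      have h0 : 0 ≤ n2 q (slT (Lop q g U) t) y := (sq_nonneg _).trans hn.1
      have h1 : 0 ≤ n2 q (slT U t) y := (sq_nonneg _).trans hn'.1
      have h3 : 0 ≤ n2t q (slT U t) y := (sq_nonneg _).trans hnt.1
      have hy2 : y ^ 2 ≤ 1 := by nlinarith [hy.1, hy.2]
      have htt : tt (fun z => (1 - z ^ 2) * slT U t 2 z) y
          = 2 * y * ((1 - y ^ 2) * slT U t 2 y) - Xf y ^ 2 * deriv (slT U t 2) y := by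
        have a1 := tt_mul (f := Xf) (g := slT U t 2) (y := y) (smI_Xf.differentiableAt hy) ((hu 2).differentiableAt hy)
        have a2 : (fun z => (1 - z ^ 2) * slT U t 2 z) = fun z => Xf z * slT U t 2 z := rfl
        rw [a2, a1, tt_Xf, tt_eq_Xf]
        unfold Xf
        ring
      have e : Xf y ^ 2 * deriv (slT U t 2) y
          = 2 * y * ((1 - y ^ 2) * slT U t 2 y) - tt (fun z => (1 - z ^ 2) * slT U t 2 z) y := by
        rw [htt]; ring
      have h2 : (Xf y ^ 2 * deriv (slT U t 2) y) ^ 2 ≤ 16 * n2 q (slT U t) y + 4 * n2t q (slT U t) y := by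
        rw [e]
        have b1 := w0_JetD_P (A := (1 - y ^ 2) * slT U t 2 y) (B := tt (fun z => (1 - z ^ 2) * slT U t 2 z) y) hy2
        linarith [hn'.2.2, hnt.2.2]
      have h4 := w0_JetE_four (M := n2t q (slT U t) y + n2 q (slT U t) y) (by linarith) (hr0 y hy) (hr2 y hy)
      show (Xf y ^ 2 * deriv (slT U t 2) y) ^ 2 ≤ 64 * (n2 q (slT (Lop q g U) t) y
        + (n2t q (slT U t) y + n2 q (slT U t) y) / rh2 q t y ^ 2)
      linarith)
  have hT : II (fun y => Xf y ^ k * V y * ((Xf y * deriv (slT U t 2) y) ^ 2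
      + (tt (fun z => Xf z * deriv (slT U t 2) z) y) ^ 2))
      ≤ 9 * II (fun y => Xf y ^ (k + 2) * V y * ((deriv (slT U t 2) y) ^ 2 + (tt (deriv (slT U t 2)) y) ^ 2)) := by
    rw [← ii_const_mul]
    refine ii_mono (hom.mul (((smI_Xf.mul hP).pow 2).add ((smI_Xf.mul hP).tt.pow 2))).continuousOn
      (continuousOn_const.mul (hom2.mul ((hP.pow 2).add (hP.tt.pow 2))).continuousOn) fun y hy => ?_
    have hy2 : y ^ 2 ≤ 1 := by nlinarith [hy.1, hy.2]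
    rw [tt_mul (smI_Xf.differentiableAt hy) (hP.differentiableAt hy), tt_Xf]
    have b := w0_JetE_XP (X := Xf y) (P := deriv (slT U t 2) y) (T := tt (deriv (slT U t 2)) y) hy2
    calc Xf y ^ k * V y * ((Xf y * deriv (slT U t 2) y) ^ 2
          + (2 * y * Xf y * deriv (slT U t 2) y + Xf y * tt (deriv (slT U t 2)) y) ^ 2)
        ≤ Xf y ^ k * V y * (9 * (Xf y ^ 2 * ((deriv (slT U t 2) y) ^ 2 + (tt (deriv (slT U t 2)) y) ^ 2))) :=
          mul_le_mul_of_nonneg_left b (hom0 y hy)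
      _ = _ := by ring
  have hc0 : 0 ≤ 16 / 9 * (1 + (q + 5) * CV) := by
    have := hV.tb.nonneg_C
    positivity
  have hD' := mul_le_mul_of_nonneg_left hD hc0
  rw [hCV]
  unfold elR
  have h9 := (coer.trans (add_le_add hB hD'))
  calc _ ≤ _ := hT
    _ ≤ _ := mul_le_mul_of_nonneg_left h9 (by norm_num)
    _ = _ := by ring

end

end Claimed.Agent.R324.Core
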