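/-
Row 324 (S0582), PDE core, module W (architect helper427; W0, WC, W1, W2: helper217).   Blueprint 7.3 (origin/helper232:docs/R324_blueprint.md).   FILE JetF
   Λ = -t,  X = Xf y = 1 - y²,  X̃ = Xt y,  ℓ² = ell2 q t = (q-1)/100 Λ^(2γ),  γ = gaF q = 8/bAl q,  2 < bAl q < 3 (`bAl_bounds`, q ≥ 100),  r̂² = rh2 = ℓ² + X̃,  Θ = Th = Λ + X̃   (Core/Defs.lean).
   tt f = -X f',  ttp f = tt f + y f;   pointwise rules and the class `SmI` (smooth near [-1,1]): Core/W/TtCalc.lean.     𝕀 = II: Core/W/Ibp.lean.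
W5 (jets): (EL), conclusion.        PP(u) = ppS u = (u₀', u₁', u₂, X u₂'),    ppJ u = Σ (p² + (tt p)²),   elR = right hand side  (Core/W/JetE.lean).
* `w5_el2` (b = U₂):   tt b = -X U₂' = -p₃ (rfl up to `tt_eq_Xf`);   `w5_hardy` with R = rh2 q t (`hV.hd`; CI: `w0_tb_rh2`/SmI, positivity `w0_rh2_pos`):   𝕀[om b²] ≤ 64 𝕀[om p₃²] + K 𝕀[om (X b)²/r̂⁴],   (X b)² ≤ 2 n2 (q/(q+1) ≥ 1/2);   𝕀[om p₃²] by `w5_el3`.
* `w5_EL`: sum of the four (`Fin.sum_univ_four`, simp [ppS], `ii_add`, `ii_congr`);  K = 2 K₀₁ + K₃ + K₂.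
-/
import Claimed.Agent.R324.Core.W.JetE
import Claimed.Agent.R324.Core.W.FormBdA

set_option autoImplicit false

namespace Claimed.Agent.R324.Core

open Set Filter Topology MeasureTheory
open scoped ContDiff

noncomputable section

variable {q Λ₀ C CV c₁ : ℝ} {g : Bg} {u : Fin 3 → ℝ → ℝ}

/-- `elR` dominates each of its two (nonnegative) summands. -/
theorem w5f_elR_parts (hq : 100 ≤ q) {t : ℝ} {V : ℝ → ℝ} (hV : TB CV V) (k : ℕ) (U : Tri) :
    0 ≤ II (fun y => Xf y ^ k * V y * n2 q (slT (Lop q g U) t) y) ∧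
    0 ≤ II (fun y => Xf y ^ k * V y / (rh2 q t y) ^ 2 * (n2t q (slT U t) y + n2 q (slT U t) y)) := by
  have hq0 : 0 < q := by linarith
  have hX : ∀ y ∈ Icc (-1 : ℝ) 1, 0 ≤ Xf y := by
    intro y hy
    have h1 := hy.1
    have h2 := hy.2
    unfold Xf
    nlinarith
  constructor
  · refine ii_nonneg (fun y hy => ?_)
    exact mul_nonneg (mul_nonneg (pow_nonneg (hX y hy) k) (hV.pos y hy).le) (n2_nonneg hq0 _ _)
  · refine ii_nonneg (fun y hy => ?_)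
    exact mul_nonneg (div_nonneg (mul_nonneg (pow_nonneg (hX y hy) k) (hV.pos y hy).le) (sq_nonneg _))
      (add_nonneg (n2t_nonneg hq0 _ _) (n2_nonneg hq0 _ _))

theorem w5_el2 (hq : 100 ≤ q) (hs : BgSm g) (hC : 0 < C) (hc : CoefB q g Λ₀ C) (hΛ : Λ₀ ≤ 100 / q) (CV c₁ : ℝ) :
    ∃ K : ℝ, 0 ≤ K ∧ ∀ t ∈ Ico (-Λ₀) 0, ∀ V : ℝ → ℝ, TBJ q t CV c₁ V → ∀ k : ℕ, 4 * c₁ + 4 + 2 * k ≤ q →
      ∀ U : Tri, (∀ j, Sm (U j)) →
        II (fun y => Xf y ^ k * V y * ((slT U t 2 y) ^ 2 + (tt (slT U t 2) y) ^ 2)) ≤ K * elR q g k V U t := by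
  obtain ⟨K₃, hK₃, h3⟩ := w5_el3 hq hs hC hc hΛ CV c₁
  obtain ⟨Cr, _, hr⟩ := w0_tb_rh2
  refine ⟨65 * K₃ + (160 + 128 * |CV|) * 2, by positivity, ?_⟩
  intro t ht V hV k hk U hU
  have ht0 : t < 0 := ht.2
  have hq1 : 1 < q := by linarith
  have hq0 : 0 < q := by linarith
  have hCV : 0 ≤ CV := hV.tb.nonneg_C
  have hR : SmI (rh2 q t) := (hr q t hq1 ht0).sm
  have hR0 : ∀ y ∈ Icc (-1 : ℝ) 1, 0 < rh2 q t y := fun y hy => w0_rh2_pos hq1 ht0 hy
  have hu : ∀ j, SmI (slT U t j) := smI_slT hU ht0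
  have hb : SmI (slT U t 2) := hu 2
  have hX : ∀ y ∈ Icc (-1 : ℝ) 1, 0 ≤ Xf y := by
    intro y hy
    have h1 := hy.1
    have h2 := hy.2
    unfold Xf
    nlinarith
  have hom : SmI (fun y => Xf y ^ k * V y) := (smI_Xf.pow k).mul hV.tb.sm
  have hom0 : ∀ y ∈ Icc (-1 : ℝ) 1, 0 ≤ Xf y ^ k * V y := fun y hy =>
    mul_nonneg (pow_nonneg (hX y hy) k) (hV.tb.pos y hy).le
  have hardy := w5_hardy hV.tb hR.continuousOn hR0 hV.hd hb k
  have hel := h3 t ht V hV k hk U hU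
  obtain ⟨hp1, hp2⟩ := w5f_elR_parts (g := g) (t := t) hq hV.tb k U
  have hp3 : SmI (fun z => Xf z * deriv (slT U t 2) z) := smI_Xf.mul hb.deriv
  -- continuity
  have cA : CI (fun y => Xf y ^ k * V y * slT U t 2 y ^ 2) := (hom.mul (hb.pow 2)).continuousOn
  have cB : CI (fun y => Xf y ^ k * V y * tt (slT U t 2) y ^ 2) := (hom.mul (hb.tt.pow 2)).continuousOn
  have cD : CI (fun y => Xf y ^ k * V y * ((Xf y * slT U t 2 y) ^ 2 / rh2 q t y ^ 2)) :=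
    hom.continuousOn.mul ((((smI_Xf.mul hb).pow 2).continuousOn).div (hR.continuousOn.pow 2)
      (fun y hy => (pow_pos (hR0 y hy) 2).ne'))
  have cE : CI (fun y => Xf y ^ k * V y / (rh2 q t y) ^ 2 * (n2t q (slT U t) y + n2 q (slT U t) y)) :=
    (hom.continuousOn.div (hR.continuousOn.pow 2) (fun y hy => (pow_pos (hR0 y hy) 2).ne')).mul
      ((ci_n2t hu).add (ci_n2 hu))
  have cE2 : CI (fun y => 2 * (Xf y ^ k * V y / (rh2 q t y) ^ 2 * (n2t q (slT U t) y + n2 q (slT U t) y))) :=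
    continuousOn_const.mul cE
  have cP : CI (fun y => Xf y ^ k * V y * ((Xf y * deriv (slT U t 2) y) ^ 2
          + (tt (fun z => Xf z * deriv (slT U t 2) z) y) ^ 2)) :=
    (hom.mul ((hp3.pow 2).add (hp3.tt.pow 2))).continuousOn
  -- B ≤ el3
  have hB : II (fun y => Xf y ^ k * V y * tt (slT U t 2) y ^ 2) ≤ K₃ * elR q g k V U t := by
    refine le_trans (ii_mono cB cP (fun y hy => ?_)) hel
    refine mul_le_mul_of_nonneg_left ?_ (hom0 y hy)
    rw [tt_eq_Xf]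
    nlinarith [sq_nonneg (tt (fun z => Xf z * deriv (slT U t 2) z) y)]
  -- D ≤ 2 elR
  have hD : II (fun y => Xf y ^ k * V y * ((Xf y * slT U t 2 y) ^ 2 / rh2 q t y ^ 2)) ≤ 2 * elR q g k V U t := by
    have h1 : II (fun y => Xf y ^ k * V y * ((Xf y * slT U t 2 y) ^ 2 / rh2 q t y ^ 2))
        ≤ II (fun y => 2 * (Xf y ^ k * V y / (rh2 q t y) ^ 2 * (n2t q (slT U t) y + n2 q (slT U t) y))) := by
      refine ii_mono cD cE2 (fun y hy => ?_)
      have hn : (Xf y * slT U t 2 y) ^ 2 ≤ 2 * (n2t q (slT U t) y + n2 q (slT U t) y) := by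
        have e1 := n2t_nonneg hq0 (slT U t) y
        have e2 : (Xf y * slT U t 2 y) ^ 2 ≤ 2 * n2 q (slT U t) y := by
          unfold n2 Xf
          have hh : 1 / 2 ≤ q / (q + 1) := by
            rw [le_div_iff₀ (by linarith)]
            linarith
          have s0 := sq_nonneg (slT U t 0 y)
          have s1 := sq_nonneg (slT U t 1 y)
          have s2 := sq_nonneg ((1 - y ^ 2) * slT U t 2 y)
          have := mul_le_mul_of_nonneg_right hh s2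
          nlinarith
        linarith
      have hw : 0 ≤ Xf y ^ k * V y / (rh2 q t y) ^ 2 := div_nonneg (hom0 y hy) (sq_nonneg _)
      calc Xf y ^ k * V y * ((Xf y * slT U t 2 y) ^ 2 / rh2 q t y ^ 2)
          = Xf y ^ k * V y / (rh2 q t y) ^ 2 * (Xf y * slT U t 2 y) ^ 2 := by ring
        _ ≤ Xf y ^ k * V y / (rh2 q t y) ^ 2 * (2 * (n2t q (slT U t) y + n2 q (slT U t) y)) :=
            mul_le_mul_of_nonneg_left hn hw
        _ = _ := by ring
    rw [ii_const_mul] at h1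
    unfold elR
    linarith
  have hel0 : 0 ≤ elR q g k V U t := by
    unfold elR
    linarith
  have hsplit : II (fun y => Xf y ^ k * V y * ((slT U t 2 y) ^ 2 + (tt (slT U t 2) y) ^ 2))
      = II (fun y => Xf y ^ k * V y * slT U t 2 y ^ 2) + II (fun y => Xf y ^ k * V y * tt (slT U t 2) y ^ 2) := by
    rw [← ii_add cA cB]
    exact ii_congr (fun y _ => by ring)
  rw [hsplit]
  have hD0 : 0 ≤ II (fun y => Xf y ^ k * V y * ((Xf y * slT U t 2 y) ^ 2 / rh2 q t y ^ 2)) :=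
    ii_nonneg (fun y hy => mul_nonneg (hom0 y hy) (div_nonneg (sq_nonneg _) (sq_nonneg _)))
  have habs : |CV| = CV := abs_of_nonneg hCV
  rw [habs]
  have h5 : (160 + 128 * CV) * II (fun y => Xf y ^ k * V y * ((Xf y * slT U t 2 y) ^ 2 / rh2 q t y ^ 2))
      ≤ (160 + 128 * CV) * (2 * elR q g k V U t) := mul_le_mul_of_nonneg_left hD (by positivity)
  nlinarith

/-- **W5, (EL).** -/
theorem w5_EL (hq : 100 ≤ q) (hs : BgSm g) (hC : 0 < C) (hc : CoefB q g Λ₀ C) (hΛ : Λ₀ ≤ 100 / q) (CV c₁ : ℝ) :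
    ∃ K : ℝ, 0 ≤ K ∧ ∀ t ∈ Ico (-Λ₀) 0, ∀ V : ℝ → ℝ, TBJ q t CV c₁ V → ∀ k : ℕ, 4 * c₁ + 4 + 2 * k ≤ q →
      ∀ U : Tri, (∀ j, Sm (U j)) →
        II (fun y => Xf y ^ k * V y * ppJ (slT U t) y) ≤ K * elR q g k V U t := by
  obtain ⟨K₁, hK₁, h1⟩ := w5_el01 hq hs hC hc hΛ CV c₁
  obtain ⟨K₂, hK₂, h2⟩ := w5_el2 hq hs hC hc hΛ CV c₁
  obtain ⟨K₃, hK₃, h3⟩ := w5_el3 hq hs hC hc hΛ CV c₁
  refine ⟨2 * K₁ + K₃ + K₂, by positivity, ?_⟩
  intro t ht V hV k hk U hU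
  have ht0 : t < 0 := ht.2
  have hu : ∀ j, SmI (slT U t j) := smI_slT hU ht0
  have hom : SmI (fun y => Xf y ^ k * V y) := (smI_Xf.pow k).mul hV.tb.sm
  have a0 := h1 t ht V hV k hk U hU 0 (by decide)
  have a1 := h1 t ht V hV k hk U hU 1 (by decide)
  have a2 := h2 t ht V hV k hk U hU
  have a3 := h3 t ht V hV k hk U hU
  have hp3 : SmI (fun z => Xf z * deriv (slT U t 2) z) := smI_Xf.mul (hu 2).deriv
  have c0 : CI (fun y => Xf y ^ k * V y * ((deriv (slT U t 0) y) ^ 2 + (tt (deriv (slT U t 0)) y) ^ 2)) :=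
    (hom.mul (((hu 0).deriv.pow 2).add ((hu 0).deriv.tt.pow 2))).continuousOn
  have c1 : CI (fun y => Xf y ^ k * V y * ((deriv (slT U t 1) y) ^ 2 + (tt (deriv (slT U t 1)) y) ^ 2)) :=
    (hom.mul (((hu 1).deriv.pow 2).add ((hu 1).deriv.tt.pow 2))).continuousOn
  have c2 : CI (fun y => Xf y ^ k * V y * ((slT U t 2 y) ^ 2 + (tt (slT U t 2) y) ^ 2)) :=
    (hom.mul (((hu 2).pow 2).add ((hu 2).tt.pow 2))).continuousOn
  have c3 : CI (fun y => Xf y ^ k * V y * ((Xf y * deriv (slT U t 2) y) ^ 2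
          + (tt (fun z => Xf z * deriv (slT U t 2) z) y) ^ 2)) :=
    (hom.mul ((hp3.pow 2).add (hp3.tt.pow 2))).continuousOn
  have hsplit : II (fun y => Xf y ^ k * V y * ppJ (slT U t) y)
      = II (fun y => Xf y ^ k * V y * ((deriv (slT U t 0) y) ^ 2 + (tt (deriv (slT U t 0)) y) ^ 2))
        + II (fun y => Xf y ^ k * V y * ((deriv (slT U t 1) y) ^ 2 + (tt (deriv (slT U t 1)) y) ^ 2))
        + II (fun y => Xf y ^ k * V y * ((slT U t 2 y) ^ 2 + (tt (slT U t 2) y) ^ 2))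
        + II (fun y => Xf y ^ k * V y * ((Xf y * deriv (slT U t 2) y) ^ 2
          + (tt (fun z => Xf z * deriv (slT U t 2) z) y) ^ 2)) := by
    have c01 : CI (fun y => Xf y ^ k * V y * ((deriv (slT U t 0) y) ^ 2 + (tt (deriv (slT U t 0)) y) ^ 2)
        + Xf y ^ k * V y * ((deriv (slT U t 1) y) ^ 2 + (tt (deriv (slT U t 1)) y) ^ 2)) := c0.add c1
    have c012 : CI (fun y => Xf y ^ k * V y * ((deriv (slT U t 0) y) ^ 2 + (tt (deriv (slT U t 0)) y) ^ 2)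
        + Xf y ^ k * V y * ((deriv (slT U t 1) y) ^ 2 + (tt (deriv (slT U t 1)) y) ^ 2)
        + Xf y ^ k * V y * ((slT U t 2 y) ^ 2 + (tt (slT U t 2) y) ^ 2)) := c01.add c2
    rw [← ii_add c0 c1, ← ii_add c01 c2, ← ii_add c012 c3]
    refine ii_congr (fun y _ => ?_)
    unfold ppJ
    rw [Fin.sum_univ_four]
    simp only [ppS, Matrix.cons_val_zero, Matrix.cons_val_one, Matrix.cons_val]
    ring
  rw [hsplit]
  linarith

end

end Claimed.Agent.R324.Core
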