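/-
Row 324 (S0582), PDE core, module W (architect helper427; W0, WC, W1, W2: helper217).   Blueprint 7.3 (origin/helper232:docs/R324_blueprint.md).   FILE SupD
   Λ = -t,  X = Xf y = 1 - y²,  X̃ = Xt y,  ℓ² = ell2 q t = (q-1)/100 Λ^(2γ),  γ = gaF q = 8/bAl q,  2 < bAl q < 3 (`bAl_bounds`, q ≥ 100),  r̂² = rh2 = ℓ² + X̃,  Θ = Th = Λ + X̃   (Core/Defs.lean).
   tt f = -X f',  ttp f = tt f + y f;   pointwise rules and the class `SmI` (smooth near [-1,1]): Core/W/TtCalc.lean.     𝕀 = II: Core/W/Ibp.lean.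
W7 (SUP): S3 (traces), continued.
      CONTEXT  `h : WCtx q g Λ₀ C` (Core/W/SupA.lean):  1000 ≤ q,  BgSm g,  1 ≤ C,  CoefB q g Λ₀ C,  0 < Λ₀,  Λ₀ q ≤ 1/2   (so -t ≤ 100/q, -t ≤ 1, (M+1) q (-t) ≤ 30 for M ≤ 52: `WCtx.t100`, `WCtx.t1`, `WCtx.t30`).
      u = slT U t,  v = slT (Lop q g U) t,  V0 = wL 2 M q Γ t,  V1 = wL 4 M q Γ t = r̂⁴ V0 (`w0_wL_add_two`),   supN q g M Γ U t = En q V0 u + En q V1 v =: 𝒩².     En q V u = 𝕀[(1-y²) V n2 q u],  Xf y = 1 - y² (unfold Xf).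
* `w7_s3b`:  `w6_trace` (om := V0, f := tt (uV u i), k := 1);   `w3_tt2` (Core/W/FormBdA.lean):  (tt²u_i)² ≤ 3 C² (X² v_i² + C² (tt u_i)² + 3 C² Σ u_j²);    X² V0 ≤ (16/9) V1 (`w0_Xf_le_rh2`, `w0_wL_add_two`);    v_i², u_i², (tt u_i)² ≤ 2 n2(v), 2 n2(u), 2 n2t(u)  (κ_i ≥ 1/2);   `w7_s1`.
* `w7_s3c`:  `w6_trace` (om := V1, f := ppS u p, k := 1), p : Fin 4;  sum:  √X X V1 pp2 ≤ (C_V' + 4) 𝕀[X V1 ppJ];  `w7_s2`.
-/
import Claimed.Agent.R324.Core.W.SupC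

set_option autoImplicit false

namespace Claimed.Agent.R324.Core

open Set Filter Topology MeasureTheory
open scoped ContDiff

noncomputable section

variable {q Λ₀ C : ℝ} {g : Bg}

theorem w7_kapJ_half (hq : 1 ≤ q) (i : Fin 3) : 1 / 2 ≤ kapJ q i := by
  fin_cases i
  · show 1 / 2 ≤ q + 1
    linarith
  · show (1 / 2 : ℝ) ≤ 2
    norm_num
  · show 1 / 2 ≤ q / (q + 1)
    rw [div_le_div_iff₀ (by norm_num) (by linarith)]
    linarith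

theorem w7_kapJ_sum (hq : 0 < q) : ∑ i, kapJ q i ≤ q + 4 := by
  rw [Fin.sum_univ_three]
  show q + 1 + 2 + q / (q + 1) ≤ q + 4
  have : q / (q + 1) ≤ 1 := by
    rw [div_le_one (by linarith)]
    linarith
  linarith

theorem w7_sq3 (a x y z : ℝ) (h : |a| ≤ x + y + z) : a ^ 2 ≤ 3 * (x ^ 2 + y ^ 2 + z ^ 2) := by
  have h0 := abs_nonneg a
  have h1 : a ^ 2 ≤ (x + y + z) ^ 2 := by
    rw [← sq_abs a]
    exact pow_le_pow_left₀ h0 h 2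
  nlinarith [sq_nonneg (x - y), sq_nonneg (y - z), sq_nonneg (x - z)]

theorem w7_nk_tt2 (hq : 1 ≤ q) {X : ℝ} (a b c d : Fin 3 → ℝ)
    (h : ∀ i, |a i| ≤ C * (X * |d i| + C * |b i| + C * ∑ j, |c j|)) :
    nk q a ≤ 3 * C ^ 2 * (X ^ 2 * nk q d + C ^ 2 * nk q b + 6 * C ^ 2 * (q + 4) * nk q c) := by
  have hq0 : 0 < q := by linarith
  set S : ℝ := ∑ j, |c j| with hSdef
  have hS : S ^ 2 ≤ 6 * nk q c := by
    have h1 : S ^ 2 ≤ 3 * (c 0 ^ 2 + c 1 ^ 2 + c 2 ^ 2) := by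
      have := w7_sq3 S |c 0| |c 1| |c 2| (by
        rw [abs_of_nonneg (Finset.sum_nonneg fun j _ => abs_nonneg _), hSdef, Fin.sum_univ_three])
      simpa only [sq_abs] using this
    have h2 : ∀ j, c j ^ 2 ≤ 2 * (kapJ q j * c j ^ 2) := fun j => by
      nlinarith [w7_kapJ_half hq j, sq_nonneg (c j)]
    have h3 : nk q c = kapJ q 0 * c 0 ^ 2 + kapJ q 1 * c 1 ^ 2 + kapJ q 2 * c 2 ^ 2 := by
      unfold nk
      rw [Fin.sum_univ_three]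
    linarith [h2 0, h2 1, h2 2]
  have hi : ∀ i, a i ^ 2 ≤ 3 * C ^ 2 * (X ^ 2 * d i ^ 2 + C ^ 2 * b i ^ 2 + C ^ 2 * S ^ 2) := fun i => by
    have := w7_sq3 (a i) (C * (X * |d i|)) (C * (C * |b i|)) (C * (C * S)) (by linarith [h i])
    have e : 3 * ((C * (X * |d i|)) ^ 2 + (C * (C * |b i|)) ^ 2 + (C * (C * S)) ^ 2)
        = 3 * C ^ 2 * (X ^ 2 * |d i| ^ 2 + C ^ 2 * |b i| ^ 2 + C ^ 2 * S ^ 2) := by ring
    rw [e, sq_abs, sq_abs] at this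
    exact this
  have h1 : nk q a ≤ ∑ i, kapJ q i * (3 * C ^ 2 * (X ^ 2 * d i ^ 2 + C ^ 2 * b i ^ 2 + C ^ 2 * S ^ 2)) := by
    unfold nk
    exact Finset.sum_le_sum fun i _ => mul_le_mul_of_nonneg_left (hi i) (kapJ_pos hq0 i).le
  have h2 : ∑ i, kapJ q i * (3 * C ^ 2 * (X ^ 2 * d i ^ 2 + C ^ 2 * b i ^ 2 + C ^ 2 * S ^ 2))
      = 3 * C ^ 2 * (X ^ 2 * nk q d + C ^ 2 * nk q b + C ^ 2 * (S ^ 2 * ∑ i, kapJ q i)) := by
    unfold nk
    simp only [Fin.sum_univ_three]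
    ring
  have h3 : S ^ 2 * ∑ i, kapJ q i ≤ 6 * nk q c * (q + 4) :=
    mul_le_mul hS (w7_kapJ_sum hq0) (Finset.sum_nonneg fun i _ => (kapJ_pos hq0 i).le)
      (by have := nk_nonneg hq0 c; positivity)
  rw [h2] at h1
  refine h1.trans ?_
  have hC2 : 0 ≤ C ^ 2 := sq_nonneg C
  have h4 : C ^ 2 * (S ^ 2 * ∑ i, kapJ q i) ≤ 6 * C ^ 2 * (q + 4) * nk q c := by
    calc _ ≤ C ^ 2 * (6 * nk q c * (q + 4)) := mul_le_mul_of_nonneg_left h3 hC2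
      _ = _ := by ring
  exact mul_le_mul_of_nonneg_left (by linarith) (by positivity)

/-- S3 (b). -/
theorem w7_s3b (h : WCtx q g Λ₀ C) (M : ℕ) : ∃ K : ℝ, 0 ≤ K ∧ ∀ Γ : ℝ, 0 ≤ Γ → ∀ t ∈ Ico (-Λ₀) 0, ∀ U : Tri,
    (∀ j, Sm (U j)) → ∀ y ∈ Icc (-1 : ℝ) 1,
      Real.sqrt (Xf y) * Xf y * wL 2 M q Γ t y * n2t q (slT U t) y ≤ K * supN q g M Γ U t := by
  obtain ⟨CV, hCV, hTB⟩ := w0_tb_wL 2 M
  obtain ⟨CV4, hCV4, hTB4⟩ := w0_tb_wL 4 M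
  obtain ⟨K1, hK1, h1⟩ := w7_s1 h M
  have hq1 : (1 : ℝ) < q := by linarith [h.hq]
  have hq0 : (0 : ℝ) < q := by linarith
  have hC0 : 0 < C := by linarith [h.hC]
  refine ⟨(CV + 4) * ((1 + 3 * C ^ 4) * K1 + 16 / 3 * C ^ 2 + 18 * C ^ 4 * (q + 4)), by positivity, ?_⟩
  intro Γ hΓ t ht U hU y hy
  have ht0 : t < 0 := ht.2
  have tb := hTB q Γ t hq1 hΓ ht0
  have tb4 := hTB4 q Γ t hq1 hΓ ht0
  have hu : ∀ j, SmI (slT U t j) := smI_slT hU ht0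
  have hv : ∀ j, SmI (slT (Lop q g U) t j) := smI_slT (sm_Lop q h.sm hU) ht0
  set u := slT U t with hudef
  set v := slT (Lop q g U) t with hvdef
  set V0 := wL 2 M q Γ t with hV0
  set V1 := wL 4 M q Γ t with hV1
  have hp : ∀ i : Fin 3, Real.sqrt (Xf y) * Xf y ^ 1 * (V0 y * tt (uV u i) y ^ 2)
      ≤ (CV + 2 * (1 : ℕ) + 2) * II (fun z => Xf z ^ 1 * V0 z
          * (tt (uV u i) z ^ 2 + tt (tt (uV u i)) z ^ 2)) := fun i =>
    w6_trace tb.sm (smI_uV hu i).tt (fun y hy => (tb.pos y hy).le) tb.t1 1 hy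
  have hci : ∀ i ∈ (Finset.univ : Finset (Fin 3)), CI (fun z => kapJ q i * (Xf z ^ 1 * V0 z
          * (tt (uV u i) z ^ 2 + tt (tt (uV u i)) z ^ 2))) := fun i _ =>
    ((((smI_Xf.pow 1).mul tb.sm).mul (((smI_uV hu i).tt.pow 2).add
      ((smI_uV hu i).tt.tt.pow 2))).const_mul (kapJ q i)).continuousOn
  have hsum := Finset.sum_le_sum (fun i (_ : i ∈ (Finset.univ : Finset (Fin 3))) =>
    mul_le_mul_of_nonneg_left (hp i) (kapJ_pos hq0 i).le)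
  have e0 : ∑ i : Fin 3, kapJ q i * ((CV + 2 * (1 : ℕ) + 2) * II (fun z => Xf z ^ 1 * V0 z
          * (tt (uV u i) z ^ 2 + tt (tt (uV u i)) z ^ 2)))
      = (CV + 4) * II (fun z => ∑ i : Fin 3, kapJ q i * (Xf z ^ 1 * V0 z
          * (tt (uV u i) z ^ 2 + tt (tt (uV u i)) z ^ 2))) := by
    rw [ii_sum _ hci, Finset.mul_sum]
    refine Finset.sum_congr rfl fun i _ => ?_
    rw [ii_const_mul]
    push_cast
    ring
  rw [e0] at hsum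
  have e1 : Real.sqrt (Xf y) * Xf y * V0 y * n2t q u y
      = ∑ i : Fin 3, kapJ q i * (Real.sqrt (Xf y) * Xf y ^ 1 * (V0 y * tt (uV u i) y ^ 2)) := by
    rw [n2t_eq_nk]
    unfold nk
    rw [Finset.mul_sum]
    refine Finset.sum_congr rfl fun p _ => ?_
    ring
  rw [e1]
  refine hsum.trans ?_
  -- the integral bound
  have c1 : CI (fun z => Xf z * V0 z * n2t q u z) := (smI_Xf.mul tb.sm).continuousOn.mul (ci_n2t hu)
  have c2 : CI (fun z => (1 - z ^ 2) * V1 z * n2 q v z) :=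
    (((smI_const 1).sub (smI_id.pow 2)).mul tb4.sm).continuousOn.mul (ci_n2 hv)
  have c3 : CI (fun z => (1 - z ^ 2) * V0 z * n2 q u z) :=
    (((smI_const 1).sub (smI_id.pow 2)).mul tb.sm).continuousOn.mul (ci_n2 hu)
  have hpt : ∀ z ∈ Icc (-1 : ℝ) 1, ∑ i : Fin 3, kapJ q i * (Xf z ^ 1 * V0 z
          * (tt (uV u i) z ^ 2 + tt (tt (uV u i)) z ^ 2))
      ≤ (1 + 3 * C ^ 4) * (Xf z * V0 z * n2t q u z) + 16 / 3 * C ^ 2 * ((1 - z ^ 2) * V1 z * n2 q v z)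
        + 18 * C ^ 4 * (q + 4) * ((1 - z ^ 2) * V0 z * n2 q u z) := by
    intro z hz
    have hX : 0 ≤ Xf z := by
      unfold Xf
      nlinarith [hz.1, hz.2]
    have hV : 0 < V0 z := tb.pos z hz
    have hk := w7_nk_tt2 (q := q) (C := C) (X := Xf z) hq1.le (fun i => tt (tt (uV u i)) z)
      (fun i => tt (uV u i) z) (fun i => uV u i z) (fun i => uV v i z)
      (fun i => w3_tt2 h.co hC0 hU ht hz i)
    rw [← n2_eq_nk, ← n2t_eq_nk, ← n2_eq_nk] at hk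
    have e2 : ∑ i : Fin 3, kapJ q i * (Xf z ^ 1 * V0 z * (tt (uV u i) z ^ 2 + tt (tt (uV u i)) z ^ 2))
        = Xf z * V0 z * (n2t q u z + nk q (fun i => tt (tt (uV u i)) z)) := by
      rw [n2t_eq_nk]
      unfold nk
      simp only [Fin.sum_univ_three]
      ring
    rw [e2]
    have hXr : Xf z ^ 2 * V0 z ≤ 16 / 9 * V1 z := by
      have e3 : V1 z = rh2 q t z ^ 2 * V0 z := w0_wL_add_two 2 M q Γ t z
      rw [e3]
      have h5 := w0_Xf_le_rh2 hq1 ht0 hz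
      have h6 : Xf z ^ 2 ≤ (4 / 3 * rh2 q t z) ^ 2 := pow_le_pow_left₀ hX h5 2
      nlinarith
    have hnv : 0 ≤ n2 q v z := n2_nonneg hq0 v z
    have h7 : Xf z * V0 z * (n2t q u z + nk q (fun i => tt (tt (uV u i)) z))
        ≤ Xf z * V0 z * (n2t q u z + 3 * C ^ 2 * (Xf z ^ 2 * n2 q v z + C ^ 2 * n2t q u z
          + 6 * C ^ 2 * (q + 4) * n2 q u z)) :=
      mul_le_mul_of_nonneg_left (by linarith) (mul_nonneg hX hV.le)
    refine h7.trans ?_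
    have h8 : 3 * C ^ 2 * (Xf z * n2 q v z) * (Xf z ^ 2 * V0 z)
        ≤ 3 * C ^ 2 * (Xf z * n2 q v z) * (16 / 9 * V1 z) :=
      mul_le_mul_of_nonneg_left hXr (by positivity)
    have eX : (1 - z ^ 2) = Xf z := rfl
    rw [eX]
    nlinarith [h8]
  have d1 : CI (fun z => (1 + 3 * C ^ 4) * (Xf z * V0 z * n2t q u z)) := continuousOn_const.mul c1
  have d2 : CI (fun z => 16 / 3 * C ^ 2 * ((1 - z ^ 2) * V1 z * n2 q v z)) := continuousOn_const.mul c2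
  have d3 : CI (fun z => 18 * C ^ 4 * (q + 4) * ((1 - z ^ 2) * V0 z * n2 q u z)) := continuousOn_const.mul c3
  have d12 : CI (fun z => (1 + 3 * C ^ 4) * (Xf z * V0 z * n2t q u z)
        + 16 / 3 * C ^ 2 * ((1 - z ^ 2) * V1 z * n2 q v z)) := d1.add d2
  have hII : II (fun z => ∑ i : Fin 3, kapJ q i * (Xf z ^ 1 * V0 z
          * (tt (uV u i) z ^ 2 + tt (tt (uV u i)) z ^ 2)))
      ≤ II (fun z => (1 + 3 * C ^ 4) * (Xf z * V0 z * n2t q u z)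
        + 16 / 3 * C ^ 2 * ((1 - z ^ 2) * V1 z * n2 q v z)
        + 18 * C ^ 4 * (q + 4) * ((1 - z ^ 2) * V0 z * n2 q u z)) :=
    ii_mono (continuousOn_finsetSum _ hci) (d12.add d3) hpt
  rw [ii_add d12 d3, ii_add d1 d2, ii_const_mul, ii_const_mul, ii_const_mul] at hII
  have h3 := h1 Γ hΓ t ht U hU
  have hE0 : 0 ≤ En q V0 u := w7_En_nonneg hq0 (fun y hy => (tb.pos y hy).le) u
  have hE1 : 0 ≤ En q V1 v := w7_En_nonneg hq0 (fun y hy => (tb4.pos y hy).le) v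
  have hN : supN q g M Γ U t = En q V0 u + En q V1 v := rfl
  have f0 : II (fun z => (1 - z ^ 2) * V0 z * n2 q u z) = En q V0 u := rfl
  have f1 : II (fun z => (1 - z ^ 2) * V1 z * n2 q v z) = En q V1 v := rfl
  rw [f0, f1] at hII
  have g1 : (1 + 3 * C ^ 4) * II (fun z => Xf z * V0 z * n2t q u z)
      ≤ (1 + 3 * C ^ 4) * (K1 * supN q g M Γ U t) := mul_le_mul_of_nonneg_left h3 (by positivity)
  have g2 : 16 / 3 * C ^ 2 * En q V1 v ≤ 16 / 3 * C ^ 2 * supN q g M Γ U t :=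
    mul_le_mul_of_nonneg_left (by linarith) (by positivity)
  have g3 : 18 * C ^ 4 * (q + 4) * En q V0 u ≤ 18 * C ^ 4 * (q + 4) * supN q g M Γ U t :=
    mul_le_mul_of_nonneg_left (by linarith) (by positivity)
  calc _ ≤ (CV + 4) * ((1 + 3 * C ^ 4) * (K1 * supN q g M Γ U t) + 16 / 3 * C ^ 2 * supN q g M Γ U t
        + 18 * C ^ 4 * (q + 4) * supN q g M Γ U t) :=
        mul_le_mul_of_nonneg_left (by linarith) (by positivity)
    _ = _ := by ring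

/-- S3 (c) = the second statement of W7. -/
theorem w7_s3c (h : WCtx q g Λ₀ C) (M : ℕ) (hM : M ≤ 52) : ∃ K : ℝ, 0 ≤ K ∧ ∀ Γ : ℝ, 0 ≤ Γ → ∀ t ∈ Ico (-Λ₀) 0, ∀ U : Tri,
    (∀ j, Sm (U j)) → ∀ y ∈ Icc (-1 : ℝ) 1,
      Real.sqrt (Xf y) * Xf y * wL 4 M q Γ t y * pp2 (slT U t) y ≤ K * supN q g M Γ U t := by
  obtain ⟨CV, hCV, hTB⟩ := w0_tb_wL 4 M
  obtain ⟨K2, hK2, h2⟩ := w7_s2 h M hM
  have hq1 : (1 : ℝ) < q := by linarith [h.hq]
  refine ⟨(CV + 4) * K2, by positivity, ?_⟩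
  intro Γ hΓ t ht U hU y hy
  have ht0 : t < 0 := ht.2
  have tb := hTB q Γ t hq1 hΓ ht0
  have hu : ∀ j, SmI (slT U t j) := smI_slT hU ht0
  have hp : ∀ p : Fin 4, Real.sqrt (Xf y) * Xf y ^ 1 * (wL 4 M q Γ t y * ppS (slT U t) p y ^ 2)
      ≤ (CV + 2 * (1 : ℕ) + 2) * II (fun z => Xf z ^ 1 * wL 4 M q Γ t z
          * (ppS (slT U t) p z ^ 2 + tt (ppS (slT U t) p) z ^ 2)) := fun p =>
    w6_trace tb.sm (smI_ppS hu p) (fun y hy => (tb.pos y hy).le) tb.t1 1 hy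
  have hci : ∀ p ∈ (Finset.univ : Finset (Fin 4)), CI (fun z => Xf z ^ 1 * wL 4 M q Γ t z
          * (ppS (slT U t) p z ^ 2 + tt (ppS (slT U t) p) z ^ 2)) := fun p _ =>
    (((smI_Xf.pow 1).mul tb.sm).mul (((smI_ppS hu p).pow 2).add ((smI_ppS hu p).tt.pow 2))).continuousOn
  have hsum := Finset.sum_le_sum (fun p (_ : p ∈ (Finset.univ : Finset (Fin 4))) => hp p)
  have e0 : ∑ p : Fin 4, (CV + 2 * (1 : ℕ) + 2) * II (fun z => Xf z ^ 1 * wL 4 M q Γ t z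
          * (ppS (slT U t) p z ^ 2 + tt (ppS (slT U t) p) z ^ 2))
      = (CV + 2 * (1 : ℕ) + 2) * II (fun y => ∑ p : Fin 4, Xf y ^ 1 * wL 4 M q Γ t y
          * (ppS (slT U t) p y ^ 2 + tt (ppS (slT U t) p) y ^ 2)) := by
    rw [ii_sum _ hci, Finset.mul_sum]
  rw [e0] at hsum
  have e1 : Real.sqrt (Xf y) * Xf y * wL 4 M q Γ t y * pp2 (slT U t) y
      = ∑ p : Fin 4, Real.sqrt (Xf y) * Xf y ^ 1 * (wL 4 M q Γ t y * ppS (slT U t) p y ^ 2) := by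
    unfold pp2
    rw [Finset.mul_sum]
    refine Finset.sum_congr rfl fun p _ => ?_
    ring
  have e2 : (fun y => ∑ p : Fin 4, Xf y ^ 1 * wL 4 M q Γ t y
          * (ppS (slT U t) p y ^ 2 + tt (ppS (slT U t) p) y ^ 2))
      = fun y => Xf y * wL 4 M q Γ t y * ppJ (slT U t) y := by
    funext z
    unfold ppJ
    rw [Finset.mul_sum]
    refine Finset.sum_congr rfl fun p _ => ?_
    ring
  rw [e1]
  rw [e2] at hsum
  have h3 := h2 Γ hΓ t ht U hU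
  calc _ ≤ _ := hsum
    _ = (CV + 4) * II (fun y => Xf y * wL 4 M q Γ t y * ppJ (slT U t) y) := by
        push_cast; ring
    _ ≤ (CV + 4) * (K2 * supN q g M Γ U t) := mul_le_mul_of_nonneg_left h3 (by positivity)
    _ = _ := by ring

end

end Claimed.Agent.R324.Core
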