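/-
Row 324 (S0582), PDE core, module W (architect helper427; W0, WC, W1, W2: helper217).   Blueprint 7.3 (origin/helper232:docs/R324_blueprint.md).   FILE SupE
   Λ = -t,  X = Xf y = 1 - y²,  X̃ = Xt y,  ℓ² = ell2 q t = (q-1)/100 Λ^(2γ),  γ = gaF q = 8/bAl q,  2 < bAl q < 3 (`bAl_bounds`, q ≥ 100),  r̂² = rh2 = ℓ² + X̃,  Θ = Th = Λ + X̃   (Core/Defs.lean).
   tt f = -X f',  ttp f = tt f + y f;   pointwise rules and the class `SmI` (smooth near [-1,1]): Core/W/TtCalc.lean.     𝕀 = II: Core/W/Ibp.lean.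
W7 (SUP), S4: everything except U₀, U₁ on the caps.
      CONTEXT  `h : WCtx q g Λ₀ C` (Core/W/SupA.lean):  1000 ≤ q,  BgSm g,  1 ≤ C,  CoefB q g Λ₀ C,  0 < Λ₀,  Λ₀ q ≤ 1/2   (so -t ≤ 100/q, -t ≤ 1, (M+1) q (-t) ≤ 30 for M ≤ 52: `WCtx.t100`, `WCtx.t1`, `WCtx.t30`).
      u = slT U t,  v = slT (Lop q g U) t,  V0 = wL 2 M q Γ t,  V1 = wL 4 M q Γ t = r̂⁴ V0 (`w0_wL_add_two`),   supN q g M Γ U t = En q V0 u + En q V1 v =: 𝒩².     R = r̂² = rh2 q t y,  Θ = Th t y,  ℓ² = ell2 q t,  Λ = -t.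
      wH a M = R^a/Θ^M ≤ wL a M (`w0_wH_le_wL`).      S3:  √X X V0 n2 ≤ K 𝒩² (`w7_s3a`),   √X X V1 pp2 ≤ K 𝒩² (`w7_s3c`),   𝕀[X V1 ppJ] ≤ K 𝒩² (`w7_s2`).
* `w7_n2t_le`:   (tt U_j)² = X² (U_j')² (tt f = -X f');   (X U₂)² = X² U₂²;   tt (X U₂) = 2 y X U₂ - X (X U₂')  ⟹ (tt(X U₂))² ≤ 8 X² U₂² + 2 X² (X U₂')²;    pp2 = (U₀')² + (U₁')² + U₂² + (X U₂')² (`Fin.sum_univ_four`, simp [pp2, ppS]);   coefficients: q+1, 2, (q/(q+1))·9 ≤ 9.
* `w7_part1`:    √X X pp2 · R⁴/Θ^M ≤ √X X V1 pp2 ≤ K 𝒩²;      X² pp2 R³ √R = (√X X pp2 R⁴) (√X √R / R) ≤ (√X X pp2 R⁴) · 2     (X ≤ (4/3) R: `w0_Xf_le_rh2`;  √X √R ≤ √(4/3) R;  `Real.sqrt_le_sqrt`, `Real.mul_self_sqrt`).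
* `w7_regI`:     X ≥ R/4  ⟹  √X X ≥ √(R/4) R/4 = R √R/8   (√(R/4) = √R/2);      V0 ≥ R²/Θ^M;     R³ √R n2 ≤ 8 Θ^M (√X X V0 n2) ≤ 8 K Θ^M 𝒩².
-/
import Claimed.Agent.R324.Core.W.SupD

set_option autoImplicit false

namespace Claimed.Agent.R324.Core

open Set Filter Topology MeasureTheory
open scoped ContDiff

noncomputable section

variable {q Λ₀ C : ℝ} {g : Bg}

/-- everything except `U₀², U₁²` is controlled by `X² Σ p²`. -/
theorem w7_n2t_le (hq : 1 ≤ q) (u : Fin 3 → ℝ → ℝ) (hu : ∀ j, SmI (u j)) (y : ℝ) (hy : y ∈ Icc (-1 : ℝ) 1) :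
    n2t q u y + q / (q + 1) * ((1 - y ^ 2) * u 2 y) ^ 2 ≤ (q + 10) * (Xf y ^ 2 * pp2 u y) := by
  have hd : DifferentiableAt ℝ (u 2) y := (hu 2).differentiableAt hy
  have hX : DifferentiableAt ℝ Xf y := smI_Xf.differentiableAt hy
  have h1 : tt (fun z => (1 - z ^ 2) * u 2 z) y = 2 * y * Xf y * u 2 y - Xf y * (Xf y * deriv (u 2) y) := by
    have := tt_mul hX hd
    have e : (fun z => (1 - z ^ 2) * u 2 z) = fun z => Xf z * u 2 z := rfl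
    rw [e, this, tt_Xf, tt_eq_Xf]
    ring
  have hpp : pp2 u y = (deriv (u 0) y) ^ 2 + (deriv (u 1) y) ^ 2 + (u 2 y) ^ 2 + (Xf y * deriv (u 2) y) ^ 2 := by
    simp [pp2, ppS, Fin.sum_univ_four]
  have hk0 : 0 ≤ q / (q + 1) := by positivity
  have hk1 : q / (q + 1) ≤ 1 := by
    rw [div_le_one (by linarith)]
    linarith
  have hy2 : y ^ 2 ≤ 1 := by nlinarith [hy.1, hy.2]
  unfold n2t
  rw [h1, hpp, tt_eq_Xf, tt_eq_Xf]
  have e2 : (1 - y ^ 2) = Xf y := rfl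
  rw [e2]
  set X := Xf y
  set a := deriv (u 0) y
  set b := deriv (u 1) y
  set c := u 2 y
  set d := X * deriv (u 2) y
  have h3 : (2 * y * X * c - X * d) ^ 2 ≤ 8 * (X ^ 2 * c ^ 2) + 2 * (X ^ 2 * d ^ 2) := by
    have h4 : (2 * y * X * c - X * d) ^ 2 ≤ 2 * (2 * y * X * c) ^ 2 + 2 * (X * d) ^ 2 := by
      nlinarith [sq_nonneg (2 * y * X * c + X * d)]
    have h5 : (2 * y * X * c) ^ 2 ≤ 4 * (X ^ 2 * c ^ 2) := by
      have : (2 * y * X * c) ^ 2 = 4 * (y ^ 2 * (X ^ 2 * c ^ 2)) := by ring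
      rw [this]
      have : 0 ≤ X ^ 2 * c ^ 2 := by positivity
      nlinarith
    nlinarith
  have h6 : q / (q + 1) * (2 * y * X * c - X * d) ^ 2 ≤ 8 * (X ^ 2 * c ^ 2) + 2 * (X ^ 2 * d ^ 2) := by
    have h7 : 0 ≤ (2 * y * X * c - X * d) ^ 2 := sq_nonneg _
    nlinarith
  have h8 : q / (q + 1) * (X * c) ^ 2 ≤ X ^ 2 * c ^ 2 := by
    have h7 : 0 ≤ (X * c) ^ 2 := sq_nonneg _
    nlinarith
  have p1 : 0 ≤ X ^ 2 * a ^ 2 := by positivity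
  have p2 : 0 ≤ X ^ 2 * b ^ 2 := by positivity
  have p3 : 0 ≤ X ^ 2 * c ^ 2 := by positivity
  have p4 : 0 ≤ X ^ 2 * d ^ 2 := by positivity
  nlinarith

theorem w7e_pp2_nonneg (u : Fin 3 → ℝ → ℝ) (y : ℝ) : 0 ≤ pp2 u y := by
  unfold pp2
  exact Finset.sum_nonneg fun _ _ => sq_nonneg _

theorem w7e_n2_nonneg (hq : 0 ≤ q) (u : Fin 3 → ℝ → ℝ) (y : ℝ) : 0 ≤ n2 q u y := by
  unfold n2
  positivity

theorem w7_part1 (h : WCtx q g Λ₀ C) (M : ℕ) (hM : M ≤ 52) : ∃ K : ℝ, 0 ≤ K ∧ ∀ Γ : ℝ, 0 ≤ Γ → ∀ t ∈ Ico (-Λ₀) 0, ∀ U : Tri,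
    (∀ j, Sm (U j)) → ∀ y ∈ Icc (-1 : ℝ) 1,
      (rh2 q t y) ^ 3 * Real.sqrt (rh2 q t y) * (Xf y ^ 2 * pp2 (slT U t) y) ≤ K * (Th t y) ^ M * supN q g M Γ U t := by
  obtain ⟨K, hK, hS⟩ := w7_s3c h M hM
  refine ⟨2 * K, by positivity, fun Γ hΓ t ht U hU y hy => ?_⟩
  have hq1 : (1 : ℝ) < q := by linarith [h.hq]
  have h1 := hS Γ hΓ t ht U hU y hy
  have hw := w0_wH_le_wL (a := 4) (M := M) hq1 hΓ ht.2 hy
  have hR := w0_rh2_pos hq1 ht.2 hy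
  have hT := w0_Th_pos ht.2 hy
  have hX := w0_Xf_nonneg hy
  have hXR := w0_Xf_le_rh2 hq1 ht.2 hy
  have hp := w7e_pp2_nonneg (slT U t) y
  set R := rh2 q t y
  set X := Xf y
  set P := pp2 (slT U t) y
  set N := supN q g M Γ U t
  set T := Th t y
  have hs0 := Real.sqrt_nonneg X
  have hr0 := Real.sqrt_nonneg R
  have hs2 : Real.sqrt X * Real.sqrt X = X := Real.mul_self_sqrt hX
  have hr2 : Real.sqrt R * Real.sqrt R = R := Real.mul_self_sqrt hR.le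
  set s := Real.sqrt X
  set r := Real.sqrt R
  have hsr : s ≤ 2 * r := by
    by_contra hc
    push Not at hc
    nlinarith
  -- √X X R⁴ P ≤ K T^M N
  have h2 : s * X * (R ^ 4 / T ^ M) * P ≤ K * N := by
    refine le_trans ?_ h1
    have : 0 ≤ s * X := by positivity
    exact mul_le_mul_of_nonneg_right (mul_le_mul_of_nonneg_left hw this) hp
  have hTM : 0 < T ^ M := by positivity
  have h3 : s * X * R ^ 4 * P ≤ K * T ^ M * N := by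
    have e : s * X * (R ^ 4 / T ^ M) * P = (s * X * R ^ 4 * P) / T ^ M := by ring
    rw [e, div_le_iff₀ hTM] at h2
    linarith
  have h4 : R ^ 3 * r * (X ^ 2 * P) ≤ 2 * (s * X * R ^ 4 * P) := by
    have e1 : R ^ 3 * r * (X ^ 2 * P) = (R ^ 3 * r * X * s * P) * s := by
      rw [← hs2]; ring
    have e2 : 2 * (s * X * R ^ 4 * P) = (R ^ 3 * r * X * s * P) * (2 * r) := by
      have : R ^ 4 = R ^ 3 * (r * r) := by rw [hr2]; ring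
      rw [this]; ring
    rw [e1, e2]
    exact mul_le_mul_of_nonneg_left hsr (by positivity)
  calc R ^ 3 * r * (X ^ 2 * P) ≤ 2 * (s * X * R ^ 4 * P) := h4
    _ ≤ 2 * (K * T ^ M * N) := by linarith
    _ = 2 * K * T ^ M * N := by ring

/-- the region `X ≥ r̂²/4`. -/
theorem w7_regI (h : WCtx q g Λ₀ C) (M : ℕ) : ∃ K : ℝ, 0 ≤ K ∧ ∀ Γ : ℝ, 0 ≤ Γ → ∀ t ∈ Ico (-Λ₀) 0, ∀ U : Tri,
    (∀ j, Sm (U j)) → ∀ y ∈ Icc (-1 : ℝ) 1, rh2 q t y / 4 ≤ Xf y →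
      (rh2 q t y) ^ 3 * Real.sqrt (rh2 q t y) * n2 q (slT U t) y ≤ K * (Th t y) ^ M * supN q g M Γ U t := by
  obtain ⟨K, hK, hS⟩ := w7_s3a h M
  refine ⟨8 * K, by positivity, fun Γ hΓ t ht U hU y hy hreg => ?_⟩
  have hq1 : (1 : ℝ) < q := by linarith [h.hq]
  have h1 := hS Γ hΓ t ht U hU y hy
  have hw := w0_wH_le_wL (a := 2) (M := M) hq1 hΓ ht.2 hy
  have hR := w0_rh2_pos hq1 ht.2 hy
  have hT := w0_Th_pos ht.2 hy
  have hX := w0_Xf_nonneg hy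
  have hp := w7e_n2_nonneg (by linarith : (0 : ℝ) ≤ q) (slT U t) y
  set R := rh2 q t y
  set X := Xf y
  set P := n2 q (slT U t) y
  set N := supN q g M Γ U t
  set T := Th t y
  have hs0 := Real.sqrt_nonneg X
  have hr0 := Real.sqrt_nonneg R
  have hs2 : Real.sqrt X * Real.sqrt X = X := Real.mul_self_sqrt hX
  have hr2 : Real.sqrt R * Real.sqrt R = R := Real.mul_self_sqrt hR.le
  set s := Real.sqrt X
  set r := Real.sqrt R
  have hsr : r ≤ 2 * s := by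
    by_contra hc
    push Not at hc
    nlinarith
  have h2 : s * X * (R ^ 2 / T ^ M) * P ≤ K * N := by
    refine le_trans ?_ h1
    have : 0 ≤ s * X := by positivity
    exact mul_le_mul_of_nonneg_right (mul_le_mul_of_nonneg_left hw this) hp
  have hTM : 0 < T ^ M := by positivity
  have h3 : s * X * R ^ 2 * P ≤ K * T ^ M * N := by
    have e : s * X * (R ^ 2 / T ^ M) * P = (s * X * R ^ 2 * P) / T ^ M := by ring
    rw [e, div_le_iff₀ hTM] at h2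
    linarith
  have h5 : R * r ≤ 8 * (s * X) := by
    have e1 : R * r = r ^ 3 := by rw [← hr2]; ring
    have e2 : 8 * (s * X) = (2 * s) ^ 3 := by rw [← hs2]; ring
    rw [e1, e2]
    exact pow_le_pow_left₀ hr0 hsr 3
  have h4 : R ^ 3 * r * P ≤ 8 * (s * X * R ^ 2 * P) := by
    have e1 : R ^ 3 * r * P = (R * r) * (R ^ 2 * P) := by ring
    have e2 : 8 * (s * X * R ^ 2 * P) = (8 * (s * X)) * (R ^ 2 * P) := by ring
    rw [e1, e2]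
    exact mul_le_mul_of_nonneg_right h5 (by positivity)
  calc R ^ 3 * r * P ≤ 8 * (s * X * R ^ 2 * P) := h4
    _ ≤ 8 * (K * T ^ M * N) := by linarith
    _ = 8 * K * T ^ M * N := by ring

end

end Claimed.Agent.R324.Core
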