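/-
Row 324 (S0582), PDE core, module W (architect helper427; W0, WC, W1, W2: helper217).   Blueprint 7.3 (origin/helper232:docs/R324_blueprint.md).   FILE SupF
   Λ = -t,  X = Xf y = 1 - y²,  X̃ = Xt y,  ℓ² = ell2 q t = (q-1)/100 Λ^(2γ),  γ = gaF q = 8/bAl q,  2 < bAl q < 3 (`bAl_bounds`, q ≥ 100),  r̂² = rh2 = ℓ² + X̃,  Θ = Th = Λ + X̃   (Core/Defs.lean).
   tt f = -X f',  ttp f = tt f + y f;   pointwise rules and the class `SmI` (smooth near [-1,1]): Core/W/TtCalc.lean.     𝕀 = II: Core/W/Ibp.lean.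
W7 (SUP), S4: the cap lemma.       F(ϑ) := f(cos ϑ),  F' = -sin ϑ f'(cos ϑ),  sin² ϑ = Xf (cos ϑ).
* `w7_cap`:   a := arccos y₂ ≤ b := arccos y₁ (`Real.arccos_le_arccos`), [a,b] ⊆ [0,π];   y = cos ϑ, y' = cos ϑ' with ϑ, ϑ' ∈ [a,b] (ϑ = arccos y; `Real.cos_arccos`);    for s ∈ [a,b]: cos s ∈ [y₁,y₂] (`Real.cos_le_cos_of_nonneg_of_le_pi`, antitone on [0,π]).
      F(ϑ) - F(ϑ') = ∫_{ϑ'}^{ϑ} F'  (`intervalIntegral.integral_eq_sub_of_hasDerivAt`),    (∫_{ϑ'}^{ϑ} F')² ≤ |ϑ - ϑ'| ∫_{[ϑ',ϑ]} F'²  (Cauchy-Schwarz on an interval: e.g. from 0 ≤ ∫ (F' - c)² with c the mean, or `inner_mul_le_norm_mul_norm` in L², or the discriminant trick as in `ii_cs`, Core/W/IiCS.lean),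
      F'² = X (f')² ≤ X V (f')²/m on [a,b];     ∫_{[ϑ',ϑ]} ≤ ∫_0^π  (integrand ≥ 0: `intervalIntegral.integral_mono_interval`).
* `w7_arccos_le`:   x := arccos y ∈ [0,π/2] (`Real.arccos_le_pi_div_two`),   sin x = √(1 - y²) (`Real.sin_arccos`),   (2/π) x ≤ sin x (`Real.mul_le_sin`).
-/
import Claimed.Agent.R324.Core.W.IiCS
import Claimed.Agent.R324.Core.W.WtA

set_option autoImplicit false

namespace Claimed.Agent.R324.Core

open Set Filter Topology MeasureTheory
open scoped ContDiff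

noncomputable section

variable {f V : ℝ → ℝ} {y₁ y₂ m y y' : ℝ}

/-- Cauchy-Schwarz on an interval. -/
theorem w7_supf_cs {G : ℝ → ℝ} (hG : Continuous G) {a b : ℝ} (hab : a ≤ b) :
    (∫ s in a..b, G s) ^ 2 ≤ (b - a) * ∫ s in a..b, G s ^ 2 := by
  have hq : ∀ c : ℝ, 0 ≤ (b - a) * (c * c) + (-2 * ∫ s in a..b, G s) * c + ∫ s in a..b, G s ^ 2 := by
    intro c
    have h1 : 0 ≤ ∫ s in a..b, (G s - c) ^ 2 := intervalIntegral.integral_nonneg hab (fun s _ => sq_nonneg _)
    have h2 : ∫ s in a..b, (G s - c) ^ 2 = ∫ s in a..b, ((G s ^ 2 - (2 * c) * G s) + c * c) :=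
      intervalIntegral.integral_congr (fun s _ => by ring)
    have i1 : IntervalIntegrable (fun s => G s ^ 2) volume a b := (hG.pow 2).intervalIntegrable _ _
    have i2 : IntervalIntegrable (fun s => (2 * c) * G s) volume a b := (continuous_const.mul hG).intervalIntegrable _ _
    have i3 : IntervalIntegrable (fun _ : ℝ => c * c) volume a b := continuous_const.intervalIntegrable _ _
    rw [h2, intervalIntegral.integral_add (i1.sub i2) i3, intervalIntegral.integral_sub i1 i2,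
      intervalIntegral.integral_const_mul, intervalIntegral.integral_const] at h1
    simp only [smul_eq_mul] at h1
    linarith
  have hd := discrim_le_zero hq
  unfold discrim at hd
  nlinarith

/-- the cap lemma in the angle variable, ordered end points. -/
theorem w7_supf_aux (hf : SmI f) (hV : CI V) (hV0 : ∀ y ∈ Icc (-1 : ℝ) 1, 0 ≤ V y) (hm : 0 < m) {p r L : ℝ}
    (h0 : 0 ≤ p) (hpr : p ≤ r) (hr : r ≤ Real.pi) (hL : r - p ≤ L) (hVm : ∀ s ∈ Icc p r, m ≤ V (Real.cos s)) :
    (f (Real.cos r) - f (Real.cos p)) ^ 2 ≤ L / m * II (fun z => Xf z * V z * deriv f z ^ 2) := by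
  have hder : ∀ s : ℝ, HasDerivAt (fun s => f (Real.cos s)) (deriv f (Real.cos s) * (-Real.sin s)) s := by
    intro s
    exact ((hf.differentiableAt (cos_mem_Icc s)).hasDerivAt).comp s (Real.hasDerivAt_cos s)
  have hGc : Continuous (fun s => deriv f (Real.cos s) * (-Real.sin s)) :=
    (ii_continuous hf.deriv.continuousOn).mul Real.continuous_sin.neg
  have hX : CI Xf := (by unfold Xf; fun_prop : Continuous Xf).continuousOn
  have hH : CI (fun z => Xf z * V z * deriv f z ^ 2) := (hX.mul hV).mul (hf.deriv.continuousOn.pow 2)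
  have hH0 : ∀ z ∈ Icc (-1 : ℝ) 1, 0 ≤ Xf z * V z * deriv f z ^ 2 := by
    intro z hz
    have hx : 0 ≤ Xf z := by
      unfold Xf
      nlinarith [hz.1, hz.2]
    exact mul_nonneg (mul_nonneg hx (hV0 z hz)) (sq_nonneg _)
  have hftc : ∫ s in p..r, deriv f (Real.cos s) * (-Real.sin s) = f (Real.cos r) - f (Real.cos p) :=
    intervalIntegral.integral_eq_sub_of_hasDerivAt (fun s _ => hder s) (hGc.intervalIntegrable _ _)
  have hcs := w7_supf_cs hGc hpr
  rw [hftc] at hcs
  have hb1 : ∫ s in p..r, (deriv f (Real.cos s) * (-Real.sin s)) ^ 2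
      ≤ ∫ s in p..r, 1 / m * (fun z => Xf z * V z * deriv f z ^ 2) (Real.cos s) := by
    refine intervalIntegral.integral_mono_on hpr ((hGc.pow 2).intervalIntegrable _ _)
      ((continuous_const.mul (ii_continuous hH)).intervalIntegrable _ _) (fun s hs => ?_)
    have hv := hVm s hs
    have hsin : Xf (Real.cos s) = Real.sin s ^ 2 := by
      unfold Xf
      have := Real.sin_sq_add_cos_sq s
      linarith
    simp only [hsin]
    have e : 1 / m * (Real.sin s ^ 2 * V (Real.cos s) * deriv f (Real.cos s) ^ 2)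
        = (deriv f (Real.cos s) * (-Real.sin s)) ^ 2 * (V (Real.cos s) / m) := by
      field_simp
    rw [e]
    have h1 : 1 ≤ V (Real.cos s) / m := by
      rw [le_div_iff₀ hm]
      linarith
    nlinarith [sq_nonneg (deriv f (Real.cos s) * (-Real.sin s))]
  rw [intervalIntegral.integral_const_mul] at hb1
  have hb2 : ∫ s in p..r, (fun z => Xf z * V z * deriv f z ^ 2) (Real.cos s)
      ≤ II (fun z => Xf z * V z * deriv f z ^ 2) := by
    unfold II
    refine intervalIntegral.integral_mono_interval h0 hpr hr ?_ (ii_integrable hH _ _)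
    exact Filter.Eventually.of_forall (fun s => hH0 _ (cos_mem_Icc s))
  have hII : 0 ≤ II (fun z => Xf z * V z * deriv f z ^ 2) := ii_nonneg hH0
  have hI0 : 0 ≤ ∫ s in p..r, (deriv f (Real.cos s) * (-Real.sin s)) ^ 2 :=
    intervalIntegral.integral_nonneg hpr (fun s _ => sq_nonneg _)
  have hm1 : 0 ≤ 1 / m := by positivity
  calc (f (Real.cos r) - f (Real.cos p)) ^ 2
      ≤ (r - p) * ∫ s in p..r, (deriv f (Real.cos s) * (-Real.sin s)) ^ 2 := hcs
    _ ≤ L * ∫ s in p..r, (deriv f (Real.cos s) * (-Real.sin s)) ^ 2 := mul_le_mul_of_nonneg_right hL hI0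
    _ ≤ L * (1 / m * II (fun z => Xf z * V z * deriv f z ^ 2)) := by
        refine mul_le_mul_of_nonneg_left (hb1.trans (mul_le_mul_of_nonneg_left hb2 hm1)) ?_
        linarith
    _ = L / m * II (fun z => Xf z * V z * deriv f z ^ 2) := by ring

/-- the cap lemma. -/
theorem w7_cap (hf : SmI f) (hV : CI V) (hV0 : ∀ y ∈ Icc (-1 : ℝ) 1, 0 ≤ V y) (h1 : -1 ≤ y₁) (h12 : y₁ ≤ y₂) (h2 : y₂ ≤ 1)
    (hm : 0 < m) (hVm : ∀ z ∈ Icc y₁ y₂, m ≤ V z) (hy : y ∈ Icc y₁ y₂) (hy' : y' ∈ Icc y₁ y₂) :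
    (f y - f y') ^ 2 ≤ (Real.arccos y₁ - Real.arccos y₂) / m * II (fun z => Xf z * V z * deriv f z ^ 2) := by
  have key : ∀ u ∈ Icc y₁ y₂, ∀ v ∈ Icc y₁ y₂, u ≤ v →
      (f u - f v) ^ 2 ≤ (Real.arccos y₁ - Real.arccos y₂) / m * II (fun z => Xf z * V z * deriv f z ^ 2) := by
    intro u hu v hv huv
    have hu1 : -1 ≤ u := h1.trans hu.1
    have hu2 : u ≤ 1 := hu.2.trans h2
    have hv1 : -1 ≤ v := h1.trans hv.1
    have hv2 : v ≤ 1 := hv.2.trans h2
    have h := w7_supf_aux (f := f) (V := V) (m := m) hf hV hV0 hm (p := Real.arccos v) (r := Real.arccos u)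
      (L := Real.arccos y₁ - Real.arccos y₂) (Real.arccos_nonneg v) (Real.arccos_le_arccos huv) (Real.arccos_le_pi u)
      (by
        have a1 := Real.arccos_le_arccos hu.1
        have a2 := Real.arccos_le_arccos hv.2
        linarith)
      (by
        intro s hs
        have hs0 : 0 ≤ s := (Real.arccos_nonneg v).trans hs.1
        have hsp : s ≤ Real.pi := hs.2.trans (Real.arccos_le_pi u)
        apply hVm
        constructor
        · have := Real.cos_le_cos_of_nonneg_of_le_pi hs0 (Real.arccos_le_pi u) hs.2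
          rw [Real.cos_arccos hu1 hu2] at this
          exact hu.1.trans this
        · have := Real.cos_le_cos_of_nonneg_of_le_pi (Real.arccos_nonneg v) hsp hs.1
          rw [Real.cos_arccos hv1 hv2] at this
          exact this.trans hv.2)
    rwa [Real.cos_arccos hu1 hu2, Real.cos_arccos hv1 hv2] at h
  rcases le_total y y' with h | h
  · exact key y hy y' hy' h
  · have := key y' hy' y hy h
    have e : (f y - f y') ^ 2 = (f y' - f y) ^ 2 := by ring
    rw [e]
    exact this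

theorem w7_arccos_le (h0 : 0 ≤ y) (h1 : y ≤ 1) : Real.arccos y ≤ Real.pi / 2 * Real.sqrt (Xf y) := by
  have hx0 : 0 ≤ Real.arccos y := Real.arccos_nonneg y
  have hx1 : Real.arccos y ≤ Real.pi / 2 := Real.arccos_le_pi_div_two.2 h0
  have hs : Real.sin (Real.arccos y) = Real.sqrt (Xf y) := by
    rw [Real.sin_arccos]
    rfl
  have h := Real.mul_le_sin hx0 hx1
  rw [hs] at h
  have hpi := Real.pi_pos
  have e : Real.arccos y = Real.pi / 2 * (2 / Real.pi * Real.arccos y) := by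
    field_simp
  rw [e]
  exact mul_le_mul_of_nonneg_left h (by positivity)

end

end Claimed.Agent.R324.Core
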