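/-
Row 324 (S0582), PDE core, module W (architect helper427; W0, WC, W1, W2: helper217).   Blueprint 7.3 (origin/helper232:docs/R324_blueprint.md).   FILE SupG
   Λ = -t,  X = Xf y = 1 - y²,  X̃ = Xt y,  ℓ² = ell2 q t = (q-1)/100 Λ^(2γ),  γ = gaF q = 8/bAl q,  2 < bAl q < 3 (`bAl_bounds`, q ≥ 100),  r̂² = rh2 = ℓ² + X̃,  Θ = Th = Λ + X̃   (Core/Defs.lean).
   tt f = -X f',  ttp f = tt f + y f;   pointwise rules and the class `SmI` (smooth near [-1,1]): Core/W/TtCalc.lean.     𝕀 = II: Core/W/Ibp.lean.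
W7 (SUP), S4: U₀, U₁ on the caps.
      CONTEXT  `h : WCtx q g Λ₀ C` (Core/W/SupA.lean):  1000 ≤ q,  BgSm g,  1 ≤ C,  CoefB q g Λ₀ C,  0 < Λ₀,  Λ₀ q ≤ 1/2   (so -t ≤ 100/q, -t ≤ 1, (M+1) q (-t) ≤ 30 for M ≤ 52: `WCtx.t100`, `WCtx.t1`, `WCtx.t30`).
      u = slT U t,  v = slT (Lop q g U) t,  V0 = wL 2 M q Γ t,  V1 = wL 4 M q Γ t = r̂⁴ V0 (`w0_wL_add_two`),   supN q g M Γ U t = En q V0 u + En q V1 v =: 𝒩².     R = r̂² = rh2 q t y,  Θ = Th t y,  ℓ² = ell2 q t,  Λ = -t.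
      wH a M = R^a/Θ^M ≤ wL a M (`w0_wH_le_wL`).      S3:  √X X V0 n2 ≤ K 𝒩² (`w7_s3a`),   √X X V1 pp2 ≤ K 𝒩² (`w7_s3c`),   𝕀[X V1 ppJ] ≤ K 𝒩² (`w7_s2`).
 NORTH CAP.   yN := √(1 - ℓ²/3);   ℓ² ≤ Λ ≤ 1/(2q) (`w0_ell2_le`), so 1/2 ≤ yN ≤ 1,  Xf yN = ℓ²/3.    For z ∈ [yN,1]:  Xt z = Xf z ∈ [0, ℓ²/3] (`Xt_eq`),  ℓ² ≤ R(z) ≤ (4/3) ℓ²,  Λ ≤ Θ(z) ≤ (4/3) Λ,   V1(z) ≥ R⁴/Θ^M ≥ m := ℓ⁸/((4/3)Λ)^M     (ℓ⁸ = (ell2)^4).
* `w7_capN`:  y > 1/2, X(y) < R(y)/4 = (ℓ² + X)/4  ⟹  X(y) < ℓ²/3 = X(yN)  ⟹  y ≥ yN.      U_j(y)² ≤ 2 U_j(yN)² + 2 (U_j(y) - U_j(yN))².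
      at yN:  X = R/4 exactly (R(yN) = (4/3)ℓ²): `w7_regI`:  R(yN)³ √R(yN) n2(yN) ≤ K Θ(yN)^M 𝒩²,   U_j² ≤ n2 (κ_j ≥ 1),    R(y) ≤ R(yN),   Θ(yN)^M ≤ (4/3)^M Λ^M ≤ (4/3)^M Θ(y)^M.
      difference:  `w7_cap` (f := slT U t j, V := V1, y₁ := yN, y₂ := 1):   ≤ (arccos yN - arccos 1)/m · 𝕀[X V1 (U_j')²],   arccos 1 = 0,  arccos yN ≤ (π/2) √(ℓ²/3) (`w7_arccos_le`),   (U_j')² ≤ ppJ,  `w7_s2`.
      R(y)³ √R(y) ≤ ((4/3)ℓ²)³ √((4/3) ℓ²);      ((4/3)ℓ²)³ √((4/3)ℓ²) · (π/2) √(ℓ²/3) / ℓ⁸ = (4/3)³ (π/2) √(4/9) = const     (√a √b = √(ab);  √(ℓ²·ℓ²) = ℓ²).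
 SOUTH CAP.   y ∈ [-1,-1/2]:  Xt = 15/16 on y ≤ 0 (`w0_Xt_S`), so R, Θ are constant on [-1,-1/2], R ≥ 15/16, R ≤ 2;   V1 ≥ m := R⁴/Θ^M.    At y' = -1/2:  X = 3/4 ≥ R/4: `w7_regI`.     `w7_cap` (y₁ := -1, y₂ := -1/2):  arccos(-1) - arccos(-1/2) ≤ π.     R³ √R · π/m = π Θ^M √R/R ≤ π Θ^M · 2.
-/
import Claimed.Agent.R324.Core.W.SupE
import Claimed.Agent.R324.Core.W.SupF

set_option autoImplicit false

namespace Claimed.Agent.R324.Core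

open Set Filter Topology MeasureTheory
open scoped ContDiff

noncomputable section

variable {q Λ₀ C : ℝ} {g : Bg}

theorem w7_SupG_sq_le_n2 (hq : 1 ≤ q) (u : Fin 3 → ℝ → ℝ) (y : ℝ) (j : Fin 3) (hj : j ≠ 2) :
    (u j y) ^ 2 ≤ n2 q u y := by
  unfold n2
  have h3 : 0 ≤ q / (q + 1) * ((1 - y ^ 2) * u 2 y) ^ 2 := by positivity
  fin_cases j
  · simp only [Fin.zero_eta]
    nlinarith [sq_nonneg (u 0 y), sq_nonneg (u 1 y)]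
  · simp only [Fin.mk_one]
    nlinarith [sq_nonneg (u 0 y), sq_nonneg (u 1 y)]
  · exact absurd rfl hj

theorem w7_SupG_deriv_sq_le_ppJ (u : Fin 3 → ℝ → ℝ) (y : ℝ) (j : Fin 3) (hj : j ≠ 2) :
    (deriv (u j) y) ^ 2 ≤ ppJ u y := by
  have h0 : ∀ p ∈ (Finset.univ : Finset (Fin 4)), 0 ≤ (ppS u p y) ^ 2 + (tt (ppS u p) y) ^ 2 :=
    fun p _ => by positivity
  unfold ppJ
  fin_cases j
  · have h1 := Finset.single_le_sum h0 (Finset.mem_univ (0 : Fin 4))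
    have h2 : ppS u 0 = deriv (u 0) := rfl
    rw [h2] at h1
    simp only [Fin.zero_eta]
    nlinarith [sq_nonneg (tt (deriv (u 0)) y)]
  · have h1 := Finset.single_le_sum h0 (Finset.mem_univ (1 : Fin 4))
    have h2 : ppS u 1 = deriv (u 1) := rfl
    rw [h2] at h1
    simp only [Fin.mk_one]
    nlinarith [sq_nonneg (tt (deriv (u 1)) y)]
  · exact absurd rfl hj

theorem w7_SupG_sq (a b : ℝ) : a ^ 2 ≤ 2 * b ^ 2 + 2 * (a - b) ^ 2 := by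
  nlinarith [sq_nonneg (a - 2 * b)]

theorem w7_SupG_const {L P s1 s2 c : ℝ} (hL : 0 < L) (hs : s1 * s2 = 2 * L / 3) :
    (4 * L / 3) ^ 3 * s1 * (c / 2 * s2 / (L ^ 4 / P)) = 64 / 81 * c * P := by
  have e : (4 * L / 3) ^ 3 * s1 * (c / 2 * s2 / (L ^ 4 / P)) = (4 * L / 3) ^ 3 * (s1 * s2) * (c / 2) * P / L ^ 4 := by
    rw [div_div_eq_mul_div]
    ring
  rw [e, hs, div_eq_iff (by positivity)]
  ring

theorem w7_capN (h : WCtx q g Λ₀ C) (M : ℕ) (hM : M ≤ 52) : ∃ K : ℝ, 0 ≤ K ∧ ∀ Γ : ℝ, 0 ≤ Γ → ∀ t ∈ Ico (-Λ₀) 0, ∀ U : Tri,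
    (∀ j, Sm (U j)) → ∀ y ∈ Ioc (1 / 2 : ℝ) 1, Xf y < rh2 q t y / 4 → ∀ j : Fin 3, j ≠ 2 →
      (rh2 q t y) ^ 3 * Real.sqrt (rh2 q t y) * (U j (t, y)) ^ 2 ≤ K * (Th t y) ^ M * supN q g M Γ U t := by
  obtain ⟨K1, hK1, H1⟩ := w7_regI h M
  obtain ⟨K2, hK2, H2⟩ := w7_s2 h M hM
  obtain ⟨CV, _, hTB⟩ := w0_tb_wL 4 M
  refine ⟨2 * (4 / 3) ^ M * K1 + 8 * (4 / 3) ^ M * K2, by positivity, ?_⟩
  intro Γ hΓ t ht U hU y hy hX j hj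
  have hq := h.hq
  have hq1 : (1 : ℝ) < q := by linarith
  have ht0 : t < 0 := ht.2
  have hΛpos : 0 < -t := by linarith
  have hΛ := h.t100 ht
  obtain ⟨L, hL⟩ : ∃ L, L = ell2 q t := ⟨_, rfl⟩
  have hLpos : 0 < L := hL ▸ w0_ell2_pos hq1 ht0
  have hLle : L ≤ -t := hL ▸ w0_ell2_le (by linarith) ht0 hΛ
  have hΛ10 : -t ≤ 1 / 10 := by
    refine hΛ.trans ?_
    rw [div_le_iff₀ (by linarith)]
    linarith
  -- the point yN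
  obtain ⟨yN, hyN⟩ : ∃ yN, yN = Real.sqrt (1 - L / 3) := ⟨_, rfl⟩
  have hyN2 : yN ^ 2 = 1 - L / 3 := by rw [hyN]; exact Real.sq_sqrt (by linarith)
  have hyN0 : 0 ≤ yN := by rw [hyN]; exact Real.sqrt_nonneg _
  have hyNh : 1 / 2 ≤ yN := by
    by_contra hc
    push Not at hc
    nlinarith
  have hyN1 : yN ≤ 1 := by
    by_contra hc
    push Not at hc
    nlinarith
  have hz : ∀ z ∈ Icc yN 1, z ∈ Icc (-1 : ℝ) 1 ∧ rh2 q t z = L + Xf z ∧ Th t z = -t + Xf z ∧ 0 ≤ Xf z ∧ Xf z ≤ L / 3 := by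
    intro z hz
    have hzh : 1 / 2 ≤ z := hyNh.trans hz.1
    refine ⟨⟨by linarith, hz.2⟩, by unfold rh2; rw [Xt_eq hzh, hL], by unfold Th; rw [Xt_eq hzh], ?_, ?_⟩
    · unfold Xf
      nlinarith [hz.2]
    · unfold Xf
      nlinarith [hz.1]
  have hyI : y ∈ Icc yN 1 := by
    refine ⟨?_, hy.2⟩
    have e : rh2 q t y = L + Xf y := by unfold rh2; rw [Xt_eq hy.1.le, hL]
    rw [e] at hX
    unfold Xf at hX
    by_contra hc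
    push Not at hc
    nlinarith [hy.1]
  have hNI : yN ∈ Icc yN 1 := ⟨le_rfl, hyN1⟩
  have hXN : Xf yN = L / 3 := by unfold Xf; rw [hyN2]; ring
  obtain ⟨hyI1, hRy, hTy, hXy0, hXy1⟩ := hz y hyI
  obtain ⟨hNI1, hRN, hTN, -, -⟩ := hz yN hNI
  rw [hXN] at hRN hTN
  -- N ≥ 0
  obtain ⟨N, hN⟩ : ∃ N, N = supN q g M Γ U t := ⟨_, rfl⟩
  have hN0 : 0 ≤ N := by
    rw [hN]
    unfold supN
    exact add_nonneg (w7_En_nonneg (by linarith) (fun z hz => (w0_wL_pos hq1 hΓ ht0 hz).le) _)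
      (w7_En_nonneg (by linarith) (fun z hz => (w0_wL_pos hq1 hΓ ht0 hz).le) _)
  rw [← hN]
  -- lower bound of the weight
  obtain ⟨P, hP⟩ : ∃ P, P = ((4 / 3) * (-t)) ^ M := ⟨_, rfl⟩
  have hPpos : 0 < P := by rw [hP]; positivity
  have hmpos : 0 < L ^ 4 / P := by positivity
  have hVm : ∀ z ∈ Icc yN 1, L ^ 4 / P ≤ wL 4 M q Γ t z := by
    intro z hz'
    obtain ⟨hzI, hR, hT, hX0, hX1⟩ := hz z hz'
    refine le_trans ?_ (w0_wH_le_wL hq1 hΓ ht0 hzI)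
    unfold wH
    rw [hR, hT, hP]
    exact div_le_div₀ (by positivity) (pow_le_pow_left₀ hLpos.le (by linarith) 4) (by positivity)
      (pow_le_pow_left₀ (by linarith) (by linarith) M)
  have hsm : SmI (wL 4 M q Γ t) := (hTB q Γ t hq1 hΓ ht0).sm
  have hf : SmI (slT U t j) := smI_slT hU ht0 j
  have hcap := w7_cap (f := slT U t j) (V := wL 4 M q Γ t) (y₁ := yN) (y₂ := 1) (m := L ^ 4 / P) (y := y) (y' := yN)
    hf hsm.continuousOn (fun z hz => (w0_wL_pos hq1 hΓ ht0 hz).le) (by linarith) hyN1 le_rfl hmpos hVm hyI hNI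
  have hII : II (fun z => Xf z * wL 4 M q Γ t z * deriv (slT U t j) z ^ 2) ≤ K2 * N := by
    rw [hN]
    refine le_trans (ii_mono ?_ ?_ ?_) (H2 Γ hΓ t ht U hU)
    · exact ((smI_Xf.mul hsm).mul (hf.deriv.pow 2)).continuousOn
    · exact (smI_Xf.mul hsm).continuousOn.mul (ci_ppJ (smI_slT hU ht0))
    · intro z hz
      exact mul_le_mul_of_nonneg_left (w7_SupG_deriv_sq_le_ppJ _ z j hj)
        (mul_nonneg (w0_Xf_nonneg hz) (w0_wL_pos hq1 hΓ ht0 hz).le)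
  have hII0 : 0 ≤ II (fun z => Xf z * wL 4 M q Γ t z * deriv (slT U t j) z ^ 2) :=
    ii_nonneg (fun z hz => mul_nonneg (mul_nonneg (w0_Xf_nonneg hz) (w0_wL_pos hq1 hΓ ht0 hz).le) (sq_nonneg _))
  have harc := w7_arccos_le hyN0 hyN1
  rw [hXN] at harc
  rw [Real.arccos_one, sub_zero] at hcap
  -- the factor A
  obtain ⟨s1, hs1⟩ : ∃ s1, s1 = Real.sqrt (4 * L / 3) := ⟨_, rfl⟩
  obtain ⟨s2, hs2⟩ : ∃ s2, s2 = Real.sqrt (L / 3) := ⟨_, rfl⟩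
  have hs10 : 0 ≤ s1 := by rw [hs1]; exact Real.sqrt_nonneg _
  have hs20 : 0 ≤ s2 := by rw [hs2]; exact Real.sqrt_nonneg _
  have hs : s1 * s2 = 2 * L / 3 := by
    rw [hs1, hs2, ← Real.sqrt_mul (by positivity)]
    have e : 4 * L / 3 * (L / 3) = (2 * L / 3) ^ 2 := by ring
    rw [e, Real.sqrt_sq (by positivity)]
  rw [← hs2] at harc
  have hRN' : rh2 q t yN = 4 * L / 3 := by rw [hRN]; ring
  have hRle : rh2 q t y ≤ 4 * L / 3 := by rw [hRy]; linarith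
  have hR0 : 0 ≤ rh2 q t y := by rw [hRy]; linarith
  have hA : (rh2 q t y) ^ 3 * Real.sqrt (rh2 q t y) ≤ (4 * L / 3) ^ 3 * s1 := by
    rw [hs1]
    exact mul_le_mul (pow_le_pow_left₀ hR0 hRle 3) (Real.sqrt_le_sqrt hRle) (Real.sqrt_nonneg _) (by positivity)
  have hA0 : 0 ≤ (rh2 q t y) ^ 3 * Real.sqrt (rh2 q t y) := mul_nonneg (pow_nonneg hR0 3) (Real.sqrt_nonneg _)
  -- Θ
  have hPle : P ≤ (4 / 3) ^ M * (Th t y) ^ M := by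
    rw [hP, mul_pow]
    exact mul_le_mul_of_nonneg_left (pow_le_pow_left₀ hΛpos.le (by rw [hTy]; linarith) M) (by positivity)
  have hTNle : (Th t yN) ^ M ≤ P := by
    rw [hP, hTN]
    exact pow_le_pow_left₀ (by linarith) (by linarith) M
  -- part 1
  have h1 := H1 Γ hΓ t ht U hU yN hNI1 (by rw [hRN', hXN]; linarith)
  rw [← hN, hRN', ← hs1] at h1
  have hp1 : (rh2 q t y) ^ 3 * Real.sqrt (rh2 q t y) * (slT U t j yN) ^ 2 ≤ K1 * ((4 / 3) ^ M * (Th t y) ^ M) * N := by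
    calc (rh2 q t y) ^ 3 * Real.sqrt (rh2 q t y) * (slT U t j yN) ^ 2
        ≤ (4 * L / 3) ^ 3 * s1 * n2 q (slT U t) yN :=
          mul_le_mul hA (w7_SupG_sq_le_n2 (by linarith) _ yN j hj) (sq_nonneg _) (by positivity)
      _ ≤ K1 * (Th t yN) ^ M * N := h1
      _ ≤ K1 * ((4 / 3) ^ M * (Th t y) ^ M) * N :=
          mul_le_mul_of_nonneg_right (mul_le_mul_of_nonneg_left (hTNle.trans hPle) hK1) hN0
  -- part 2
  have hconst : (4 * L / 3) ^ 3 * s1 * (Real.pi / 2 * s2 / (L ^ 4 / P)) = 64 / 81 * Real.pi * P :=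
    w7_SupG_const hLpos hs
  have hp2 : (rh2 q t y) ^ 3 * Real.sqrt (rh2 q t y) * (slT U t j y - slT U t j yN) ^ 2
      ≤ 4 * ((4 / 3) ^ M * (Th t y) ^ M) * (K2 * N) := by
    calc (rh2 q t y) ^ 3 * Real.sqrt (rh2 q t y) * (slT U t j y - slT U t j yN) ^ 2
        ≤ (4 * L / 3) ^ 3 * s1 * (Real.pi / 2 * s2 / (L ^ 4 / P) * (K2 * N)) := by
          refine mul_le_mul hA (hcap.trans ?_) (sq_nonneg _) (by positivity)
          exact mul_le_mul (div_le_div_of_nonneg_right harc hmpos.le) hII hII0 (by positivity)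
      _ = 64 / 81 * Real.pi * P * (K2 * N) := by rw [← mul_assoc, hconst]
      _ ≤ 4 * ((4 / 3) ^ M * (Th t y) ^ M) * (K2 * N) := by
          refine mul_le_mul_of_nonneg_right ?_ (mul_nonneg hK2 hN0)
          have hpi : 64 / 81 * Real.pi ≤ 4 := by linarith [Real.pi_le_four]
          exact mul_le_mul hpi hPle hPpos.le (by norm_num)
  have hsq : (U j (t, y)) ^ 2 ≤ 2 * (slT U t j yN) ^ 2 + 2 * (slT U t j y - slT U t j yN) ^ 2 := by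
    have e : U j (t, y) = slT U t j y := rfl
    rw [e]
    exact w7_SupG_sq _ _
  calc (rh2 q t y) ^ 3 * Real.sqrt (rh2 q t y) * (U j (t, y)) ^ 2
      ≤ (rh2 q t y) ^ 3 * Real.sqrt (rh2 q t y) * (2 * (slT U t j yN) ^ 2 + 2 * (slT U t j y - slT U t j yN) ^ 2) :=
        mul_le_mul_of_nonneg_left hsq hA0
    _ = 2 * ((rh2 q t y) ^ 3 * Real.sqrt (rh2 q t y) * (slT U t j yN) ^ 2)
        + 2 * ((rh2 q t y) ^ 3 * Real.sqrt (rh2 q t y) * (slT U t j y - slT U t j yN) ^ 2) := by ring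
    _ ≤ 2 * (K1 * ((4 / 3) ^ M * (Th t y) ^ M) * N) + 2 * (4 * ((4 / 3) ^ M * (Th t y) ^ M) * (K2 * N)) := by linarith
    _ = (2 * (4 / 3) ^ M * K1 + 8 * (4 / 3) ^ M * K2) * (Th t y) ^ M * N := by ring

end

end Claimed.Agent.R324.Core
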