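/-
Row 324 (S0582), PDE core, module W (architect helper427; W0, WC, W1, W2: helper217).   Blueprint 7.3 (origin/helper232:docs/R324_blueprint.md).   FILE SupH
   Λ = -t,  X = Xf y = 1 - y²,  X̃ = Xt y,  ℓ² = ell2 q t = (q-1)/100 Λ^(2γ),  γ = gaF q = 8/bAl q,  2 < bAl q < 3 (`bAl_bounds`, q ≥ 100),  r̂² = rh2 = ℓ² + X̃,  Θ = Th = Λ + X̃   (Core/Defs.lean).
   tt f = -X f',  ttp f = tt f + y f;   pointwise rules and the class `SmI` (smooth near [-1,1]): Core/W/TtCalc.lean.     𝕀 = II: Core/W/Ibp.lean.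
W7 (SUP), S4: U₀, U₁ on the south cap.
      CONTEXT  `h : WCtx q g Λ₀ C` (Core/W/SupA.lean):  1000 ≤ q,  BgSm g,  1 ≤ C,  CoefB q g Λ₀ C,  0 < Λ₀,  Λ₀ q ≤ 1/2   (so -t ≤ 100/q, -t ≤ 1, (M+1) q (-t) ≤ 30 for M ≤ 52: `WCtx.t100`, `WCtx.t1`, `WCtx.t30`).
      u = slT U t,  v = slT (Lop q g U) t,  V0 = wL 2 M q Γ t,  V1 = wL 4 M q Γ t = r̂⁴ V0 (`w0_wL_add_two`),   supN q g M Γ U t = En q V0 u + En q V1 v =: 𝒩².     R = r̂² = rh2 q t y,  Θ = Th t y,  ℓ² = ell2 q t,  Λ = -t.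
      wH a M = R^a/Θ^M ≤ wL a M (`w0_wH_le_wL`).      S3:  √X X V0 n2 ≤ K 𝒩² (`w7_s3a`),   √X X V1 pp2 ≤ K 𝒩² (`w7_s3c`),   𝕀[X V1 ppJ] ≤ K 𝒩² (`w7_s2`).
 SOUTH CAP.   y ∈ [-1,-1/2]:  Xt = 15/16 on y ≤ 0 (`w0_Xt_S`), so R = ℓ² + 15/16, Θ = Λ + 15/16 are constant on [-1,-1/2],  15/16 ≤ R ≤ Θ ≤ 2;   V1 ≥ m := R⁴/Θ^M (`w0_wH_le_wL`, unfold wH).    At y' = -1/2:  X = 3/4 ≥ R/4: `w7_regI`, U_j² ≤ n2.
      U_j(y)² ≤ 2 U_j(-1/2)² + 2 (U_j(y) - U_j(-1/2))²;     `w7_cap` (f := slT U t j, V := V1, y₁ := -1, y₂ := -1/2):  arccos(-1) - arccos(-1/2) ≤ π (`Real.arccos_le_pi`, `Real.arccos_nonneg`);   (U_j')² ≤ ppJ;  `w7_s2`.     R³ √R · π/m = π Θ^M √R/R ≤ 2 π Θ^M.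
-/
import Claimed.Agent.R324.Core.W.SupE
import Claimed.Agent.R324.Core.W.SupF

set_option autoImplicit false

namespace Claimed.Agent.R324.Core

open Set Filter Topology MeasureTheory
open scoped ContDiff

noncomputable section

variable {q Λ₀ C : ℝ} {g : Bg}

theorem w7_capS (h : WCtx q g Λ₀ C) (M : ℕ) (hM : M ≤ 52) : ∃ K : ℝ, 0 ≤ K ∧ ∀ Γ : ℝ, 0 ≤ Γ → ∀ t ∈ Ico (-Λ₀) 0, ∀ U : Tri,
    (∀ j, Sm (U j)) → ∀ y ∈ Icc (-1 : ℝ) (-1 / 2), ∀ j : Fin 3, j ≠ 2 →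
      (rh2 q t y) ^ 3 * Real.sqrt (rh2 q t y) * (U j (t, y)) ^ 2 ≤ K * (Th t y) ^ M * supN q g M Γ U t := by
  obtain ⟨K1, hK1, H1⟩ := w7_regI h M
  obtain ⟨K2, hK2, H2⟩ := w7_s2 h M hM
  obtain ⟨CV, hCV, HTB⟩ := w0_tb_wL 4 M
  refine ⟨2 * K1 + 4 * Real.pi * K2, by positivity, ?_⟩
  intro Γ hΓ t ht U hU y hy j hj
  have hq1 : (1 : ℝ) < q := by linarith [h.hq]
  have hq100 : (100 : ℝ) ≤ q := by linarith [h.hq]
  have ht0 : t < 0 := ht.2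
  have hyI : y ∈ Icc (-1 : ℝ) 1 := ⟨hy.1, by linarith [hy.2]⟩
  have hy0I : (-1 / 2 : ℝ) ∈ Icc (-1 : ℝ) 1 := by constructor <;> norm_num
  have hu : ∀ j, SmI (slT U t j) := smI_slT hU ht0
  have hTB := HTB q Γ t hq1 hΓ ht0
  have hXy : Xt y = 15 / 16 := w0_Xt_S (by linarith [hy.2])
  have hRz : ∀ z : ℝ, z ≤ 0 → rh2 q t z = rh2 q t y := by
    intro z hz
    unfold rh2
    rw [hXy, w0_Xt_S hz]
  have hTz : ∀ z : ℝ, z ≤ 0 → Th t z = Th t y := by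
    intro z hz
    unfold Th
    rw [hXy, w0_Xt_S hz]
  have hR15 : 15 / 16 ≤ rh2 q t y := by
    have := w0_ell2_pos hq1 ht0
    unfold rh2
    rw [hXy]
    linarith
  have hRpos : 0 < rh2 q t y := w0_rh2_pos hq1 ht0 hyI
  have hΘpos : 0 < Th t y := w0_Th_pos ht0 hyI
  have hRΘ : rh2 q t y ≤ Th t y := w0_rh2_le_Th hq100 ht0 (h.t100 ht) y
  have hΘ2 : Th t y ≤ 2 := w0_Th_le_two (h.t1 ht) hyI
  generalize hN : supN q g M Γ U t = N at *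
  generalize hR : rh2 q t y = R at *
  generalize hΘ : Th t y = Θ at *
  have hsR : 0 < Real.sqrt R := Real.sqrt_pos.2 hRpos
  have hsR2 : Real.sqrt R * Real.sqrt R = R := Real.mul_self_sqrt hRpos.le
  -- part A
  have hA : R ^ 3 * Real.sqrt R * (U j (t, -1 / 2)) ^ 2 ≤ K1 * Θ ^ M * N := by
    have h1 := H1 Γ hΓ t ht U hU (-1 / 2) hy0I (by
      rw [hRz _ (by norm_num)]
      unfold Xf
      norm_num
      linarith)
    rw [hRz _ (by norm_num), hTz _ (by norm_num), hN] at h1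
    refine le_trans ?_ h1
    apply mul_le_mul_of_nonneg_left _ (by positivity)
    unfold n2 slT
    have h3 : 0 ≤ q / (q + 1) * ((1 - (-1 / 2 : ℝ) ^ 2) * U 2 (t, -1 / 2)) ^ 2 := by positivity
    have h4 := sq_nonneg (U 0 (t, -1 / 2))
    have h5 := sq_nonneg (U 1 (t, -1 / 2))
    fin_cases j
    · simp only [Fin.zero_eta]
      nlinarith
    · simp only [Fin.mk_one]
      nlinarith
    · exact absurd rfl hj
  -- part B
  have hm : 0 < R ^ 4 / Θ ^ M := by positivity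
  have hB := w7_cap (f := slT U t j) (V := wL 4 M q Γ t) (y₁ := -1) (y₂ := -1 / 2) (m := R ^ 4 / Θ ^ M)
    (y := y) (y' := -1 / 2) (hu j) hTB.sm.continuousOn (fun z hz => (hTB.pos z hz).le) le_rfl (by norm_num)
    (by norm_num) hm (fun z hz => by
      have hz0 : z ≤ 0 := by linarith [hz.2]
      have := w0_wH_le_wL (a := 4) (M := M) hq1 hΓ ht0 (y := z) ⟨hz.1, by linarith [hz.2]⟩
      unfold wH at this
      rwa [hRz z hz0, hTz z hz0] at this) hy ⟨by norm_num, le_rfl⟩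
  have hII : II (fun z => Xf z * wL 4 M q Γ t z * deriv (slT U t j) z ^ 2) ≤ K2 * N := by
    refine le_trans (ii_mono ((smI_Xf.mul hTB.sm).mul ((hu j).deriv.pow 2)).continuousOn
      ((smI_Xf.mul hTB.sm).continuousOn.mul (ci_ppJ hu)) ?_) (hN ▸ H2 Γ hΓ t ht U hU)
    intro z hz
    apply mul_le_mul_of_nonneg_left _ (mul_nonneg (w0_Xf_nonneg hz) (hTB.pos z hz).le)
    refine le_trans ?_ (pp2_le_ppJ _ z)
    unfold pp2
    fin_cases j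
    · exact Finset.single_le_sum (f := fun p => (ppS (slT U t) p z) ^ 2) (fun p _ => sq_nonneg _) (Finset.mem_univ (0 : Fin 4))
    · exact Finset.single_le_sum (f := fun p => (ppS (slT U t) p z) ^ 2) (fun p _ => sq_nonneg _) (Finset.mem_univ (1 : Fin 4))
    · exact absurd rfl hj
  have hII0 : 0 ≤ II (fun z => Xf z * wL 4 M q Γ t z * deriv (slT U t j) z ^ 2) :=
    ii_nonneg (fun z hz => mul_nonneg (mul_nonneg (w0_Xf_nonneg hz) (hTB.pos z hz).le) (sq_nonneg _))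
  have hac : Real.arccos (-1) - Real.arccos (-1 / 2) ≤ Real.pi := by
    linarith [Real.arccos_le_pi (-1), Real.arccos_nonneg (-1 / 2)]
  have hB2 : (U j (t, y) - U j (t, -1 / 2)) ^ 2 ≤ Real.pi / (R ^ 4 / Θ ^ M) * (K2 * N) := by
    refine le_trans hB ?_
    exact mul_le_mul (div_le_div_of_nonneg_right hac hm.le) hII hII0 (by positivity)
  have hKN : 0 ≤ K2 * N := hII0.trans hII
  have hB3 : R ^ 3 * Real.sqrt R * (U j (t, y) - U j (t, -1 / 2)) ^ 2 ≤ 2 * Real.pi * K2 * Θ ^ M * N := by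
    have h1 : R ^ 3 * Real.sqrt R * (U j (t, y) - U j (t, -1 / 2)) ^ 2
        ≤ R ^ 3 * Real.sqrt R * (Real.pi / (R ^ 4 / Θ ^ M) * (K2 * N)) :=
      mul_le_mul_of_nonneg_left hB2 (by positivity)
    have h2 : R ^ 3 * Real.sqrt R * (Real.pi / (R ^ 4 / Θ ^ M) * (K2 * N))
        = (Real.sqrt R / R) * (Real.pi * Θ ^ M * (K2 * N)) := by
      field_simp
    have h3 : Real.sqrt R / R ≤ 2 := by
      rw [div_le_iff₀ hRpos]
      nlinarith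
    have h4 : 0 ≤ Real.pi * Θ ^ M * (K2 * N) := by positivity
    calc _ ≤ _ := h1
      _ = _ := h2
      _ ≤ 2 * (Real.pi * Θ ^ M * (K2 * N)) := mul_le_mul_of_nonneg_right h3 h4
      _ = _ := by ring
  have h6 : (U j (t, y)) ^ 2 ≤ 2 * (U j (t, -1 / 2)) ^ 2 + 2 * (U j (t, y) - U j (t, -1 / 2)) ^ 2 := by
    nlinarith [sq_nonneg (U j (t, y) - 2 * U j (t, -1 / 2))]
  have h7 : 0 ≤ R ^ 3 * Real.sqrt R := by positivity
  calc R ^ 3 * Real.sqrt R * (U j (t, y)) ^ 2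
      ≤ R ^ 3 * Real.sqrt R * (2 * (U j (t, -1 / 2)) ^ 2 + 2 * (U j (t, y) - U j (t, -1 / 2)) ^ 2) :=
        mul_le_mul_of_nonneg_left h6 h7
    _ = 2 * (R ^ 3 * Real.sqrt R * (U j (t, -1 / 2)) ^ 2)
        + 2 * (R ^ 3 * Real.sqrt R * (U j (t, y) - U j (t, -1 / 2)) ^ 2) := by ring
    _ ≤ 2 * (K1 * Θ ^ M * N) + 2 * (2 * Real.pi * K2 * Θ ^ M * N) := by linarith
    _ = (2 * K1 + 4 * Real.pi * K2) * Θ ^ M * N := by ring

end

end Claimed.Agent.R324.Core
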