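/-
Row 324 (S0582), PDE core, module W (architect helper427; W0, WC, W1, W2: helper217).   Blueprint 7.3 (origin/helper232:docs/R324_blueprint.md).   FILE Sup
   Λ = -t,  X = Xf y = 1 - y²,  X̃ = Xt y,  ℓ² = ell2 q t = (q-1)/100 Λ^(2γ),  γ = gaF q = 8/bAl q,  2 < bAl q < 3 (`bAl_bounds`, q ≥ 100),  r̂² = rh2 = ℓ² + X̃,  Θ = Th = Λ + X̃   (Core/Defs.lean).
   tt f = -X f',  ttp f = tt f + y f;   pointwise rules and the class `SmI` (smooth near [-1,1]): Core/W/TtCalc.lean.     𝕀 = II: Core/W/Ibp.lean.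
W7 (SUP): RESULT.
      CONTEXT  `h : WCtx q g Λ₀ C` (Core/W/SupA.lean):  1000 ≤ q,  BgSm g,  1 ≤ C,  CoefB q g Λ₀ C,  0 < Λ₀,  Λ₀ q ≤ 1/2   (so -t ≤ 100/q, -t ≤ 1, (M+1) q (-t) ≤ 30 for M ≤ 52: `WCtx.t100`, `WCtx.t1`, `WCtx.t30`).
      u = slT U t,  v = slT (Lop q g U) t,  V0 = wL 2 M q Γ t,  V1 = wL 4 M q Γ t = r̂⁴ V0 (`w0_wL_add_two`),   supN q g M Γ U t = En q V0 u + En q V1 v =: 𝒩².     R = r̂² = rh2 q t y,  Θ = Th t y,  ℓ² = ell2 q t,  Λ = -t.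
      wH a M = R^a/Θ^M ≤ wL a M (`w0_wH_le_wL`).      S3:  √X X V0 n2 ≤ K 𝒩² (`w7_s3a`),   √X X V1 pp2 ≤ K 𝒩² (`w7_s3c`),   𝕀[X V1 ppJ] ≤ K 𝒩² (`w7_s2`).
* `w7_sup`:   n2 + n2t = (q+1) U₀² + 2 U₁² + [q/(q+1) (X U₂)² + n2t];   the bracket: `w7_n2t_le`, `w7_part1`.     U_j², j = 0,1:   y ≤ -1/2: `w7_capS`;    -1/2 ≤ y ≤ 1/2:  X ≥ 3/4 ≥ R/4 (R ≤ Θ ≤ 2): `w7_regI` (U_j² ≤ n2);    y > 1/2:  X ≥ R/4: `w7_regI`, else `w7_capN`.
* `w7_supD`:  `w6_trace` (om := V1, f := ppS u p, k := 0):  √X V1 p² ≤ (C_V + 2) 𝕀[V1 (p² + (tt p)²)];  sum over p;   `w5_EL` with k = 0:   elR q g 0 V1 U t = 𝕀[V1 n2 v] + 𝕀[V0 (n2t + n2)] ≤ Di q V1 v + 2 Di q V0 u  (`w2_Di_0`, `w2_Di_t`; V1/r̂⁴ = V0; `pow_zero`, `one_mul`).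
* `w7_sup_R`, …: `wctx_R`;  Lt q g U = Lop q (bgR q g) U (rfl).
-/
import Claimed.Agent.R324.Core.W.SupG
import Claimed.Agent.R324.Core.W.SupH

set_option autoImplicit false

namespace Claimed.Agent.R324.Core

open Set Filter Topology MeasureTheory
open scoped ContDiff

noncomputable section

variable {q Λ₀ C : ℝ} {g : Bg}

/-- **W7 (SUP)**, first statement. -/
theorem w7_sup (h : WCtx q g Λ₀ C) (M : ℕ) (hM : M ≤ 52) : ∃ K : ℝ, 0 ≤ K ∧ ∀ Γ : ℝ, 0 ≤ Γ → ∀ t ∈ Ico (-Λ₀) 0, ∀ U : Tri,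
    (∀ j, Sm (U j)) → ∀ y ∈ Icc (-1 : ℝ) 1,
      (rh2 q t y) ^ 3 * Real.sqrt (rh2 q t y) * (n2 q (slT U t) y + n2t q (slT U t) y)
        ≤ K * (Th t y) ^ M * supN q g M Γ U t := by
  obtain ⟨KP, hKP, HP⟩ := w7_part1 h M hM
  obtain ⟨KI, hKI, HI⟩ := w7_regI h M
  obtain ⟨KN, hKN, HN⟩ := w7_capN h M hM
  obtain ⟨KS, hKS, HS⟩ := w7_capS h M hM
  have hq := h.hq
  have hq1 : (1 : ℝ) < q := by linarith
  have hq1' : (1 : ℝ) ≤ q := by linarith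
  have hq100 : (100 : ℝ) ≤ q := by linarith
  refine ⟨(q + 3) * (KI + KN + KS) + (q + 10) * KP, by positivity, ?_⟩
  intro Γ hΓ t ht U hU y hy
  have ht0 : t < 0 := ht.2
  have hu : ∀ j, SmI (slT U t j) := smI_slT hU ht0
  have hR := w0_rh2_pos hq1 ht0 hy
  have hT := w0_Th_pos ht0 hy
  have hRT : rh2 q t y ≤ Th t y := w0_rh2_le_Th hq100 ht0 (h.t100 ht) y
  have hT2 : Th t y ≤ 2 := w0_Th_le_two (h.t1 ht) hy
  obtain ⟨CV2, _, htb2⟩ := w0_tb_wL 2 M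
  obtain ⟨CV4, _, htb4⟩ := w0_tb_wL 4 M
  have hN0 : 0 ≤ supN q g M Γ U t := by
    unfold supN
    have a1 := w7_En_nonneg (q := q) (by linarith) (fun y hy => ((htb2 q Γ t hq1 hΓ ht0).pos y hy).le) (slT U t)
    have a2 := w7_En_nonneg (q := q) (by linarith) (fun y hy => ((htb4 q Γ t hq1 hΓ ht0).pos y hy).le)
      (slT (Lop q g U) t)
    linarith
  set W : ℝ := (rh2 q t y) ^ 3 * Real.sqrt (rh2 q t y) with hW
  have hW0 : 0 ≤ W := by positivity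
  set B : ℝ := (Th t y) ^ M * supN q g M Γ U t with hB
  have hB0 : 0 ≤ B := by positivity
  -- the components 0, 1
  have hj : ∀ j : Fin 3, j ≠ 2 → W * (slT U t j y) ^ 2 ≤ (KI + KN + KS) * B := by
    intro j hj2
    have hreg : rh2 q t y / 4 ≤ Xf y → W * (slT U t j y) ^ 2 ≤ (KI + KN + KS) * B := by
      intro hreg
      have h1 := HI Γ hΓ t ht U hU y hy hreg
      have h2 := w7_SupG_sq_le_n2 hq1' (slT U t) y j hj2
      have h3 : W * (slT U t j y) ^ 2 ≤ W * n2 q (slT U t) y := mul_le_mul_of_nonneg_left h2 hW0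
      have h4 : KI * (Th t y) ^ M * supN q g M Γ U t = KI * B := by rw [hB]; ring
      have h5 : 0 ≤ KN * B := mul_nonneg hKN hB0
      have h6 : 0 ≤ KS * B := mul_nonneg hKS hB0
      nlinarith
    rcases le_or_gt y (-1 / 2) with hy1 | hy1
    · have h1 := HS Γ hΓ t ht U hU y ⟨hy.1, hy1⟩ j hj2
      have h4 : KS * (Th t y) ^ M * supN q g M Γ U t = KS * B := by rw [hB]; ring
      have h5 : 0 ≤ KN * B := mul_nonneg hKN hB0
      have h6 : 0 ≤ KI * B := mul_nonneg hKI hB0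
      have e : slT U t j y = U j (t, y) := rfl
      rw [e]
      nlinarith
    · rcases le_or_gt y (1 / 2) with hy2 | hy2
      · apply hreg
        have : (3 : ℝ) / 4 ≤ Xf y := by
          unfold Xf
          nlinarith
        linarith
      · rcases le_or_gt (rh2 q t y / 4) (Xf y) with hX | hX
        · exact hreg hX
        · have h1 := HN Γ hΓ t ht U hU y ⟨hy2, hy.2⟩ hX j hj2
          have h4 : KN * (Th t y) ^ M * supN q g M Γ U t = KN * B := by rw [hB]; ring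
          have h5 : 0 ≤ KS * B := mul_nonneg hKS hB0
          have h6 : 0 ≤ KI * B := mul_nonneg hKI hB0
          have e : slT U t j y = U j (t, y) := rfl
          rw [e]
          nlinarith
  have h0 := hj 0 (by decide)
  have h1 := hj 1 (by decide)
  have h2 := w7_n2t_le hq1' (slT U t) hu y hy
  have h3 := HP Γ hΓ t ht U hU y hy
  have h3' : W * (Xf y ^ 2 * pp2 (slT U t) y) ≤ KP * B := by
    have : KP * (Th t y) ^ M * supN q g M Γ U t = KP * B := by rw [hB]; ring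
    linarith
  have e : n2 q (slT U t) y + n2t q (slT U t) y
      = (q + 1) * (slT U t 0 y) ^ 2 + 2 * (slT U t 1 y) ^ 2
        + (n2t q (slT U t) y + q / (q + 1) * ((1 - y ^ 2) * slT U t 2 y) ^ 2) := by
    unfold n2
    ring
  have h4 : W * (n2t q (slT U t) y + q / (q + 1) * ((1 - y ^ 2) * slT U t 2 y) ^ 2)
      ≤ W * ((q + 10) * (Xf y ^ 2 * pp2 (slT U t) y)) := mul_le_mul_of_nonneg_left h2 hW0
  have h5 : (q + 1) * (W * (slT U t 0 y) ^ 2) ≤ (q + 1) * ((KI + KN + KS) * B) :=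
    mul_le_mul_of_nonneg_left h0 (by linarith)
  have h6 : (q + 10) * (W * (Xf y ^ 2 * pp2 (slT U t) y)) ≤ (q + 10) * (KP * B) :=
    mul_le_mul_of_nonneg_left h3' (by linarith)
  calc W * (n2 q (slT U t) y + n2t q (slT U t) y)
      = (q + 1) * (W * (slT U t 0 y) ^ 2) + 2 * (W * (slT U t 1 y) ^ 2)
        + W * (n2t q (slT U t) y + q / (q + 1) * ((1 - y ^ 2) * slT U t 2 y) ^ 2) := by
        rw [e]; ring
    _ ≤ (q + 1) * ((KI + KN + KS) * B) + 2 * ((KI + KN + KS) * B) + (q + 10) * (KP * B) := by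
        have : W * ((q + 10) * (Xf y ^ 2 * pp2 (slT U t) y))
            = (q + 10) * (W * (Xf y ^ 2 * pp2 (slT U t) y)) := by ring
        linarith
    _ = ((q + 3) * (KI + KN + KS) + (q + 10) * KP) * (Th t y) ^ M * supN q g M Γ U t := by
        rw [hB]; ring

/-- **W7 (SUP)**, third statement. -/
theorem w7_supD (h : WCtx q g Λ₀ C) (M : ℕ) (hM : M ≤ 52) : ∃ K : ℝ, 0 ≤ K ∧ ∀ Γ : ℝ, 0 ≤ Γ → ∀ t ∈ Ico (-Λ₀) 0, ∀ U : Tri,
    (∀ j, Sm (U j)) → ∀ y ∈ Icc (-1 : ℝ) 1,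
      Real.sqrt (Xf y) * wL 4 M q Γ t y * pp2 (slT U t) y
        ≤ K * (Di q (wL 2 M q Γ t) (slT U t) + Di q (wL 4 M q Γ t) (slT (Lop q g U) t)) := by
  obtain ⟨CV, hCV, hTB⟩ := w0_tb_wL 4 M
  obtain ⟨CV2, hCV2, hTB2⟩ := w0_tb_wL 2 M
  obtain ⟨CJ, hCJ, htbj⟩ := w5_tbj_wL 4 M
  have hq100 : (100 : ℝ) ≤ q := by linarith [h.hq]
  have hq1 : (1 : ℝ) < q := by linarith [h.hq]
  have hq1' : (1 : ℝ) ≤ q := by linarith [h.hq]
  have hC0 : 0 < C := by linarith [h.hC]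
  obtain ⟨K, hK, hEL⟩ := w5_EL hq100 h.sm hC0 h.co h.le100 CJ (2 * (((4 : ℕ) : ℝ) + (M : ℝ) + 2))
  refine ⟨(CV + 2) * (K * 2), by positivity, ?_⟩
  intro Γ hΓ t ht U hU y hy
  have ht0 : t < 0 := ht.2
  have tb := hTB q Γ t hq1 hΓ ht0
  have tb2 := hTB2 q Γ t hq1 hΓ ht0
  have hu : ∀ j, SmI (slT U t j) := smI_slT hU ht0
  have hv : ∀ j, SmI (slT (Lop q g U) t j) := smI_slT (sm_Lop q h.sm hU) ht0
  have hMr : (M : ℝ) ≤ 52 := by exact_mod_cast hM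
  have hk : 4 * (2 * (((4 : ℕ) : ℝ) + (M : ℝ) + 2)) + 4 + 2 * ((0 : ℕ) : ℝ) ≤ q := by
    push_cast
    linarith [h.hq]
  have h1 := hEL t ht (wL 4 M q Γ t) (htbj q Γ t hq100 hΓ ht0 (h.t30 ht hM)) 0 hk U hU
  -- the right hand side of (EL)
  have e1 : II (fun y => Xf y ^ 0 * wL 4 M q Γ t y * n2 q (slT (Lop q g U) t) y)
      = II (fun y => wL 4 M q Γ t y * n2 q (slT (Lop q g U) t) y) :=
    ii_congr (fun y _ => by rw [pow_zero, one_mul])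
  have c1 : CI (fun y => wL 2 M q Γ t y * n2t q (slT U t) y) := tb2.sm.continuousOn.mul (ci_n2t hu)
  have c2 : CI (fun y => wL 2 M q Γ t y * n2 q (slT U t) y) := tb2.sm.continuousOn.mul (ci_n2 hu)
  have e2 : II (fun y => Xf y ^ 0 * wL 4 M q Γ t y / (rh2 q t y) ^ 2 * (n2t q (slT U t) y + n2 q (slT U t) y))
      = II (fun y => wL 2 M q Γ t y * n2t q (slT U t) y) + II (fun y => wL 2 M q Γ t y * n2 q (slT U t) y) := by
    rw [← ii_add c1 c2]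
    refine ii_congr (fun y hy => ?_)
    have hr : 0 < rh2 q t y := w0_rh2_pos hq1 ht0 hy
    have hw : wL 4 M q Γ t y = (rh2 q t y) ^ 2 * wL 2 M q Γ t y := w0_wL_add_two 2 M q Γ t y
    rw [hw, pow_zero]
    field_simp
  have d1 := w2_Di_0 hq1' tb.sm.continuousOn (fun y hy => (tb.pos y hy).le) hv
  have d2 := w2_Di_t hq1' tb2.sm.continuousOn (fun y hy => (tb2.pos y hy).le) hu
  have d3 := w2_Di_0 hq1' tb2.sm.continuousOn (fun y hy => (tb2.pos y hy).le) hu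
  have d4 := w2_Di_nonneg (q := q) hq1' (fun y hy => (tb.pos y hy).le) (slT (Lop q g U) t)
  have hel : elR q g 0 (wL 4 M q Γ t) U t
      ≤ 2 * (Di q (wL 2 M q Γ t) (slT U t) + Di q (wL 4 M q Γ t) (slT (Lop q g U) t)) := by
    unfold elR
    rw [e1, e2]
    linarith
  -- the traces
  have hp : ∀ p : Fin 4, Real.sqrt (Xf y) * Xf y ^ 0 * (wL 4 M q Γ t y * ppS (slT U t) p y ^ 2)
      ≤ (CV + 2 * (0 : ℕ) + 2) * II (fun z => Xf z ^ 0 * wL 4 M q Γ t z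
          * (ppS (slT U t) p z ^ 2 + tt (ppS (slT U t) p) z ^ 2)) := fun p =>
    w6_trace tb.sm (smI_ppS hu p) (fun y hy => (tb.pos y hy).le) tb.t1 0 hy
  have hci : ∀ p ∈ (Finset.univ : Finset (Fin 4)), CI (fun z => Xf z ^ 0 * wL 4 M q Γ t z
          * (ppS (slT U t) p z ^ 2 + tt (ppS (slT U t) p) z ^ 2)) := fun p _ =>
    (((smI_Xf.pow 0).mul tb.sm).mul (((smI_ppS hu p).pow 2).add ((smI_ppS hu p).tt.pow 2))).continuousOn
  have hsum := Finset.sum_le_sum (fun p (_ : p ∈ (Finset.univ : Finset (Fin 4))) => hp p)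
  have e0 : ∑ p : Fin 4, (CV + 2 * (0 : ℕ) + 2) * II (fun z => Xf z ^ 0 * wL 4 M q Γ t z
          * (ppS (slT U t) p z ^ 2 + tt (ppS (slT U t) p) z ^ 2))
      = (CV + 2 * (0 : ℕ) + 2) * II (fun y => ∑ p : Fin 4, Xf y ^ 0 * wL 4 M q Γ t y
          * (ppS (slT U t) p y ^ 2 + tt (ppS (slT U t) p) y ^ 2)) := by
    rw [ii_sum _ hci, Finset.mul_sum]
  rw [e0] at hsum
  have e3 : Real.sqrt (Xf y) * wL 4 M q Γ t y * pp2 (slT U t) y
      = ∑ p : Fin 4, Real.sqrt (Xf y) * Xf y ^ 0 * (wL 4 M q Γ t y * ppS (slT U t) p y ^ 2) := by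
    unfold pp2
    rw [Finset.mul_sum]
    refine Finset.sum_congr rfl fun p _ => ?_
    ring
  have e4 : (fun y => ∑ p : Fin 4, Xf y ^ 0 * wL 4 M q Γ t y
          * (ppS (slT U t) p y ^ 2 + tt (ppS (slT U t) p) y ^ 2))
      = fun y => Xf y ^ 0 * wL 4 M q Γ t y * ppJ (slT U t) y := by
    funext z
    unfold ppJ
    rw [Finset.mul_sum]
  rw [e3]
  rw [e4] at hsum
  calc _ ≤ _ := hsum
    _ = (CV + 2) * II (fun y => Xf y ^ 0 * wL 4 M q Γ t y * ppJ (slT U t) y) := by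
        push_cast; ring
    _ ≤ (CV + 2) * (K * elR q g 0 (wL 4 M q Γ t) U t) := mul_le_mul_of_nonneg_left h1 (by positivity)
    _ ≤ (CV + 2) * (K * (2 * (Di q (wL 2 M q Γ t) (slT U t) + Di q (wL 4 M q Γ t) (slT (Lop q g U) t)))) :=
        mul_le_mul_of_nonneg_left (mul_le_mul_of_nonneg_left hel hK) (by positivity)
    _ = _ := by ring

/-- **W7 (SUP)** for the reference operator: all three statements, constants independent of `Γ`. -/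
theorem w7_sup_R (hq : 1000 ≤ q) (hg : BgGood q g) (M : ℕ) (hM : M ≤ 52) : ∃ K Λ₀ : ℝ, 0 ≤ K ∧ 0 < Λ₀ ∧
    ∀ Γ : ℝ, 0 ≤ Γ → ∀ t ∈ Ico (-Λ₀) 0, ∀ U : Tri, (∀ j, Sm (U j)) → ∀ y ∈ Icc (-1 : ℝ) 1,
      (rh2 q t y) ^ 3 * Real.sqrt (rh2 q t y) * (n2 q (slT U t) y + n2t q (slT U t) y)
          ≤ K * (Th t y) ^ M * (En q (wL 2 M q Γ t) (slT U t) + En q (wL 4 M q Γ t) (slT (Lt q g U) t)) ∧
      Real.sqrt (Xf y) * Xf y * wL 4 M q Γ t y * pp2 (slT U t) y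
          ≤ K * (En q (wL 2 M q Γ t) (slT U t) + En q (wL 4 M q Γ t) (slT (Lt q g U) t)) ∧
      Real.sqrt (Xf y) * wL 4 M q Γ t y * pp2 (slT U t) y
          ≤ K * (Di q (wL 2 M q Γ t) (slT U t) + Di q (wL 4 M q Γ t) (slT (Lt q g U) t)) := by
  obtain ⟨Λ₀, C, h⟩ := wctx_R hq hg
  obtain ⟨K1, hK1, H1⟩ := w7_sup h M hM
  obtain ⟨K2, hK2, H2⟩ := w7_s3c h M hM
  obtain ⟨K3, hK3, H3⟩ := w7_supD h M hM
  have hq1 : (1 : ℝ) < q := by linarith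
  have hq1' : (1 : ℝ) ≤ q := by linarith
  obtain ⟨CV2, _, htb2⟩ := w0_tb_wL 2 M
  obtain ⟨CV4, _, htb4⟩ := w0_tb_wL 4 M
  refine ⟨K1 + K2 + K3, Λ₀, by positivity, h.pos, ?_⟩
  intro Γ hΓ t ht U hU y hy
  have ht0 : t < 0 := ht.2
  have hT := w0_Th_pos ht0 hy
  have tb2 := htb2 q Γ t hq1 hΓ ht0
  have tb4 := htb4 q Γ t hq1 hΓ ht0
  have a1 := w7_En_nonneg (q := q) (by linarith) (fun y hy => (tb2.pos y hy).le) (slT U t)
  have a2 := w7_En_nonneg (q := q) (by linarith) (fun y hy => (tb4.pos y hy).le) (slT (Lt q g U) t)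
  have b1 := w2_Di_nonneg (q := q) hq1' (fun y hy => (tb2.pos y hy).le) (slT U t)
  have b2 := w2_Di_nonneg (q := q) hq1' (fun y hy => (tb4.pos y hy).le) (slT (Lt q g U) t)
  have eN : supN q (bgR q g) M Γ U t
      = En q (wL 2 M q Γ t) (slT U t) + En q (wL 4 M q Γ t) (slT (Lt q g U) t) := rfl
  have c1 := H1 Γ hΓ t ht U hU y hy
  have c2 := H2 Γ hΓ t ht U hU y hy
  have c3 := H3 Γ hΓ t ht U hU y hy
  rw [eN] at c1 c2
  have eL : Lop q (bgR q g) U = Lt q g U := rfl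
  rw [eL] at c3
  set N : ℝ := En q (wL 2 M q Γ t) (slT U t) + En q (wL 4 M q Γ t) (slT (Lt q g U) t) with hN
  set D : ℝ := Di q (wL 2 M q Γ t) (slT U t) + Di q (wL 4 M q Γ t) (slT (Lt q g U) t) with hD
  have hN0 : 0 ≤ N := by linarith
  have hD0 : 0 ≤ D := by linarith
  have hTM : 0 ≤ (Th t y) ^ M * N := by positivity
  refine ⟨?_, ?_, ?_⟩
  · have : K1 * (Th t y) ^ M * N ≤ (K1 + K2 + K3) * (Th t y) ^ M * N := by
      have := mul_nonneg (add_nonneg hK2 hK3) hTM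
      nlinarith
    linarith
  · have : K2 * N ≤ (K1 + K2 + K3) * N := by
      have := mul_nonneg (add_nonneg hK1 hK3) hN0
      nlinarith
    linarith
  · have : K3 * D ≤ (K1 + K2 + K3) * D := by
      have := mul_nonneg (add_nonneg hK1 hK2) hD0
      nlinarith
    linarith

end

end Claimed.Agent.R324.Core
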