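/-
Row 324 (S0582), PDE core, module W (architect helper427; W0, WC, W1, W2: helper217).   Blueprint 7.3 (origin/helper232:docs/R324_blueprint.md).   FILE Out
   Λ = -t,  X = Xf y = 1 - y²,  X̃ = Xt y,  ℓ² = ell2 q t = (q-1)/100 Λ^(2γ),  γ = gaF q = 8/bAl q,  2 < bAl q < 3 (`bAl_bounds`, q ≥ 100),  r̂² = rh2 = ℓ² + X̃,  Θ = Th = Λ + X̃   (Core/Defs.lean).
   tt f = -X f',  ttp f = tt f + y f;   pointwise rules and the class `SmI` (smooth near [-1,1]): Core/W/TtCalc.lean.     𝕀 = II: Core/W/Ibp.lean.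
MODULE W, OUTPUT for the consumers (HI: HiU.sup, HiU.jets;  CL: cl_need_sup;  NL: atom density), for the reference operator  Lt q g U = Lop q (bgR q g) U (rfl).      Constants independent of Γ ≥ 0, t, U.
      E0 q Γ U t = En q (V0 q Γ t) (slT U t),  V0 = wL 2 30,  V1 = wL 4 30,  E1 q g Γ U t = En q (V1 q Γ t) (slT (Lt q g U) t),  D0, D1 the same with Di   (Core/Defs.lean; all by `rfl`/unfold).
* `w_out_sup`:   `w7_sup_R` (M = 30) and `w0_rh7'` (c Θ^30 ≤ R³ √R;  needs -t ≤ 100/q: take Λ₀ := min Λ₀' (100/q)):    c Θ^30 (n2 + n2t) ≤ R³√R (n2 + n2t) ≤ K Θ^30 𝒩²,  Θ > 0  ⟹  n2 + n2t ≤ (K/c) 𝒩².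
* `w_out_jets`:  `wctx_R`, `w5_EL` with k = 0, V = V1 ∈ TBJ (`w5_tbj_wL 4 30`, `WCtx.t30`), c₁ = 2(4+30+2) = 72, 4·72 + 4 ≤ q;    elR q g' 0 V1 U t = 𝕀[V1 n2 v] + 𝕀[V0 (n2t + n2)] ≤ D1 + 2 D0  (`w2_Di_0`, `w2_Di_t`, `w0_wL_add_two`; `pow_zero`, `one_mul`).
* `w_out_tt2`:   `w3_tt2`:  (tt²u_i)² ≤ 3 C² (X² v_i² + C² (tt u_i)² + 3 C² Σ_j u_j²);    V0 X² ≤ (16/9) V1  (V1 = R² V0, X ≤ (4/3) R);     v_i², u_i², (tt u_i)² ≤ 2 n2 v, 2 n2 u, 2 n2t u;   `w2_Di_0`, `w2_Di_t`.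
-/
import Claimed.Agent.R324.Core.W.Sup

set_option autoImplicit false

namespace Claimed.Agent.R324.Core

open Set Filter Topology MeasureTheory
open scoped ContDiff

noncomputable section

variable {q : ℝ} {g : Bg}

/-- `Σ κ_i (tt² u_i)²`. -/
def n2tt (q : ℝ) (u : Fin 3 → ℝ → ℝ) (y : ℝ) : ℝ := nk q (fun i => tt (tt (uV u i)) y)

/-- hygiene. -/
theorem core_w_out_hygiene : True := by
  have := @n2tt.eq_1
  trivial

/-- **SUP** (W7 + W0 (c)):   `|u|² + |tt u|² ≤ C (E0 + E1)`. -/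
theorem w_out_sup (hq : 1000 ≤ q) (hg : BgGood q g) : ∃ K Λ₀ : ℝ, 0 ≤ K ∧ 0 < Λ₀ ∧
    ∀ Γ : ℝ, 0 ≤ Γ → ∀ t ∈ Ico (-Λ₀) 0, ∀ U : Tri, (∀ j, Sm (U j)) → ∀ y ∈ Icc (-1 : ℝ) 1,
      n2 q (slT U t) y + n2t q (slT U t) y ≤ K * (E0 q Γ U t + E1 q g Γ U t) := by
  obtain ⟨K, Λ₁, hK, hΛ₁, H⟩ := w7_sup_R hq hg 30 (by norm_num)
  obtain ⟨c, hc, hR⟩ := w0_rh7' (by linarith : (100 : ℝ) ≤ q)
  have hq0 : 0 < q := by linarith
  refine ⟨K / c, min Λ₁ (100 / q), by positivity, lt_min hΛ₁ (by positivity), ?_⟩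
  intro Γ hΓ t ht U hU y hy
  have ht1 : t ∈ Ico (-Λ₁) 0 := ⟨by have := min_le_left Λ₁ (100 / q); linarith [ht.1], ht.2⟩
  have ht2 : -t ≤ 100 / q := by have := min_le_right Λ₁ (100 / q); linarith [ht.1]
  have h1 : (rh2 q t y) ^ 3 * Real.sqrt (rh2 q t y) * (n2 q (slT U t) y + n2t q (slT U t) y)
      ≤ K * (Th t y) ^ 30 * (E0 q Γ U t + E1 q g Γ U t) := (H Γ hΓ t ht1 U hU y hy).1
  have h2 := hR t ht.2 ht2 y hy
  have hΘ := w0_Th_pos ht.2 hy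
  set A := n2 q (slT U t) y + n2t q (slT U t) y with hA
  set N := E0 q Γ U t + E1 q g Γ U t with hN
  have hA0 : 0 ≤ A := add_nonneg (n2_nonneg hq0 _ _) (n2t_nonneg hq0 _ _)
  have h3 : c * (Th t y) ^ 30 * A ≤ K * (Th t y) ^ 30 * N := (mul_le_mul_of_nonneg_right h2 hA0).trans h1
  have hΘ30 : 0 < (Th t y) ^ 30 := by positivity
  have h4 : c * A ≤ K * N := by
    have : (Th t y) ^ 30 * (c * A) ≤ (Th t y) ^ 30 * (K * N) := by
      calc (Th t y) ^ 30 * (c * A) = c * (Th t y) ^ 30 * A := by ring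
        _ ≤ K * (Th t y) ^ 30 * N := h3
        _ = (Th t y) ^ 30 * (K * N) := by ring
    exact le_of_mul_le_mul_left this hΘ30
  rw [div_mul_eq_mul_div, le_div_iff₀ hc]
  linarith

/-- **JETS** (W5, `om = V1`):   `J_{V1}(U) ≤ C (D0 + D1)`. -/
theorem w_out_jets (hq : 1000 ≤ q) (hg : BgGood q g) : ∃ K Λ₀ : ℝ, 0 ≤ K ∧ 0 < Λ₀ ∧
    ∀ Γ : ℝ, 0 ≤ Γ → ∀ t ∈ Ico (-Λ₀) 0, ∀ U : Tri, (∀ j, Sm (U j)) →
      II (fun y => V1 q Γ t y * ppJ (slT U t) y) ≤ K * (D0 q Γ U t + D1 q g Γ U t) := by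
  obtain ⟨Λ₀, C, h⟩ := wctx_R hq hg
  obtain ⟨CV, hCV, hT⟩ := w5_tbj_wL 4 30
  obtain ⟨CV0, hCV0, hT0⟩ := w0_tb_wL 2 30
  have hq100 : (100 : ℝ) ≤ q := by linarith
  have hq1 : (1 : ℝ) < q := by linarith
  obtain ⟨K, hK, H⟩ := w5_EL hq100 h.sm (by linarith [h.hC]) h.co h.le100 CV
    (2 * (((4 : ℕ) : ℝ) + ((30 : ℕ) : ℝ) + 2))
  refine ⟨K, Λ₀, hK, h.pos, ?_⟩
  intro Γ hΓ t ht U hU
  have ht0 : t < 0 := ht.2
  have hV := hT q Γ t hq100 hΓ ht0 (h.t30 ht (by norm_num))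
  have hV0 := hT0 q Γ t hq1 hΓ ht0
  have h1 := H t ht _ hV 0 (by push_cast; linarith) U hU
  have hu : ∀ j, SmI (slT U t j) := smI_slT hU ht0
  have hv : ∀ j, SmI (slT (Lop q (bgR q g) U) t j) := smI_slT (fun j => sm_Lop q h.sm hU j) ht0
  have e0 : II (fun y => V1 q Γ t y * ppJ (slT U t) y)
      = II (fun y => Xf y ^ 0 * wL 4 30 q Γ t y * ppJ (slT U t) y) :=
    ii_congr (fun y _ => by rw [pow_zero, one_mul]; rfl)
  have a1 : II (fun y => Xf y ^ 0 * wL 4 30 q Γ t y * n2 q (slT (Lop q (bgR q g) U) t) y) ≤ D1 q g Γ U t := by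
    have e : II (fun y => Xf y ^ 0 * wL 4 30 q Γ t y * n2 q (slT (Lop q (bgR q g) U) t) y)
        = II (fun y => wL 4 30 q Γ t y * n2 q (slT (Lop q (bgR q g) U) t) y) :=
      ii_congr (fun y _ => by rw [pow_zero, one_mul])
    rw [e]
    exact w2_Di_0 hq1.le hV.tb.sm.continuousOn (fun y hy => (hV.tb.pos y hy).le) hv
  have a2 : II (fun y => Xf y ^ 0 * wL 4 30 q Γ t y / (rh2 q t y) ^ 2 * (n2t q (slT U t) y + n2 q (slT U t) y))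
      ≤ D0 q Γ U t := by
    have e : II (fun y => Xf y ^ 0 * wL 4 30 q Γ t y / (rh2 q t y) ^ 2 * (n2t q (slT U t) y + n2 q (slT U t) y))
        = II (fun y => wL 2 30 q Γ t y * (n2t q (slT U t) y + n2 q (slT U t) y)) := by
      refine ii_congr (fun y hy => ?_)
      have hR := w0_rh2_pos hq1 ht0 hy
      rw [pow_zero, one_mul, w0_wL_add_two 2 30]
      field_simp
    rw [e]
    show _ ≤ II (fun y => wL 2 30 q Γ t y * (n2t q (slT U t) y + q * n2 q (slT U t) y))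
    refine ii_mono (hV0.sm.continuousOn.mul ((ci_n2t hu).add (ci_n2 hu)))
      (hV0.sm.continuousOn.mul ((ci_n2t hu).add (continuousOn_const.mul (ci_n2 hu)))) (fun y hy => ?_)
    refine mul_le_mul_of_nonneg_left ?_ (hV0.pos y hy).le
    have := n2_nonneg (by linarith : 0 < q) (slT U t) y
    nlinarith
  rw [e0]
  refine h1.trans (mul_le_mul_of_nonneg_left ?_ hK)
  unfold elR
  linarith

theorem w_out_nk3 (q : ℝ) (ξ : Fin 3 → ℝ) : nk q ξ = (q + 1) * ξ 0 ^ 2 + 2 * ξ 1 ^ 2 + q / (q + 1) * ξ 2 ^ 2 := by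
  simp only [nk, Fin.sum_univ_three, kapJ, Matrix.cons_val_zero, Matrix.cons_val_one, Matrix.cons_val]

theorem w_out_sq1 {C X T v s u0 u1 u2 : ℝ} (hC : 0 ≤ C) (hX : 0 ≤ X)
    (h : |T| ≤ C * (X * |v| + C * |s| + C * (|u0| + |u1| + |u2|))) :
    T ^ 2 ≤ 3 * C ^ 2 * (X ^ 2 * v ^ 2 + C ^ 2 * s ^ 2 + 3 * C ^ 2 * (u0 ^ 2 + u1 ^ 2 + u2 ^ 2)) := by
  set a := X * |v| with ha
  set b := C * |s| with hb
  set c := C * (|u0| + |u1| + |u2|) with hc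
  have ha0 : 0 ≤ a := mul_nonneg hX (abs_nonneg _)
  have hb0 : 0 ≤ b := mul_nonneg hC (abs_nonneg _)
  have hc0 : 0 ≤ c := mul_nonneg hC (by positivity)
  have h1 : T ^ 2 ≤ (C * (a + b + c)) ^ 2 := by
    rw [← sq_abs T]
    exact pow_le_pow_left₀ (abs_nonneg _) h 2
  have h2 : (a + b + c) ^ 2 ≤ 3 * (a ^ 2 + b ^ 2 + c ^ 2) := by
    nlinarith [sq_nonneg (a - b), sq_nonneg (a - c), sq_nonneg (b - c)]
  have ea : a ^ 2 = X ^ 2 * v ^ 2 := by rw [ha, mul_pow, sq_abs]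
  have eb : b ^ 2 = C ^ 2 * s ^ 2 := by rw [hb, mul_pow, sq_abs]
  have h3 : (|u0| + |u1| + |u2|) ^ 2 ≤ 3 * (u0 ^ 2 + u1 ^ 2 + u2 ^ 2) := by
    have e0 := sq_abs u0
    have e1 := sq_abs u1
    have e2 := sq_abs u2
    nlinarith [sq_nonneg (|u0| - |u1|), sq_nonneg (|u0| - |u2|), sq_nonneg (|u1| - |u2|)]
  have ec : c ^ 2 ≤ 3 * C ^ 2 * (u0 ^ 2 + u1 ^ 2 + u2 ^ 2) := by
    rw [hc, mul_pow]
    have := mul_le_mul_of_nonneg_left h3 (sq_nonneg C)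
    linarith
  have hC2 : 0 ≤ C ^ 2 := sq_nonneg C
  calc T ^ 2 ≤ (C * (a + b + c)) ^ 2 := h1
    _ = C ^ 2 * (a + b + c) ^ 2 := by ring
    _ ≤ C ^ 2 * (3 * (a ^ 2 + b ^ 2 + c ^ 2)) := mul_le_mul_of_nonneg_left h2 hC2
    _ ≤ C ^ 2 * (3 * (X ^ 2 * v ^ 2 + C ^ 2 * s ^ 2 + 3 * C ^ 2 * (u0 ^ 2 + u1 ^ 2 + u2 ^ 2))) := by
        apply mul_le_mul_of_nonneg_left _ hC2
        linarith
    _ = _ := by ring

theorem w_out_sq3 {q C X : ℝ} (hq : 1 ≤ q) (T v s u : Fin 3 → ℝ)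
    (h : ∀ i, T i ^ 2 ≤ 3 * C ^ 2 * (X ^ 2 * v i ^ 2 + C ^ 2 * s i ^ 2 + 3 * C ^ 2 * (u 0 ^ 2 + u 1 ^ 2 + u 2 ^ 2))) :
    nk q T ≤ 3 * C ^ 2 * (X ^ 2 * nk q v + C ^ 2 * nk q s + 6 * C ^ 2 * (q + 4) * nk q u) := by
  rw [w_out_nk3, w_out_nk3, w_out_nk3, w_out_nk3]
  set κ := q / (q + 1) with hκ
  have hq1 : 0 < q + 1 := by linarith
  have k1 : 1 / 2 ≤ κ := by rw [hκ, le_div_iff₀ hq1]; linarith
  have k2 : κ ≤ 1 := by rw [hκ, div_le_one hq1]; linarith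
  set S := u 0 ^ 2 + u 1 ^ 2 + u 2 ^ 2 with hS
  have hS0 : 0 ≤ S := by positivity
  have a0 := mul_le_mul_of_nonneg_left (h 0) hq1.le
  have a1 := mul_le_mul_of_nonneg_left (h 1) (by norm_num : (0 : ℝ) ≤ 2)
  have a2 := mul_le_mul_of_nonneg_left (h 2) (by linarith : (0 : ℝ) ≤ κ)
  have hSN : S ≤ 2 * ((q + 1) * u 0 ^ 2 + 2 * u 1 ^ 2 + κ * u 2 ^ 2) := by
    have s0 := sq_nonneg (u 0)
    have s1 := sq_nonneg (u 1)
    have s2 := sq_nonneg (u 2)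
    have := mul_le_mul_of_nonneg_right k1 s2
    nlinarith
  have hC4 : 0 ≤ 3 * C ^ 2 * (3 * C ^ 2) := by positivity
  have b1 : (q + 1 + 2 + κ) * S ≤ (q + 4) * (2 * ((q + 1) * u 0 ^ 2 + 2 * u 1 ^ 2 + κ * u 2 ^ 2)) :=
    mul_le_mul (by linarith) hSN hS0 (by linarith)
  have b2 := mul_le_mul_of_nonneg_left b1 hC4
  nlinarith [a0, a1, a2, b2]

theorem w_out_ci_n2tt {u : Fin 3 → ℝ → ℝ} (hu : ∀ j, SmI (u j)) : CI (n2tt q u) := by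
  have h : SmI (n2tt q u) := by
    have e : n2tt q u = fun y => (q + 1) * tt (tt (uV u 0)) y ^ 2 + 2 * tt (tt (uV u 1)) y ^ 2
        + q / (q + 1) * tt (tt (uV u 2)) y ^ 2 := by
      funext y
      unfold n2tt
      rw [w_out_nk3]
    rw [e]
    exact ((((smI_uV hu 0).tt.tt.pow 2).const_mul (q + 1)).add (((smI_uV hu 1).tt.tt.pow 2).const_mul 2)).add
      (((smI_uV hu 2).tt.tt.pow 2).const_mul (q / (q + 1)))
  exact h.continuousOn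

/-- second `tt`-derivatives (W3):   `𝕀[V0 |tt² u|²] ≤ C (D0 + D1)`. -/
theorem w_out_tt2 (hq : 1000 ≤ q) (hg : BgGood q g) : ∃ K Λ₀ : ℝ, 0 ≤ K ∧ 0 < Λ₀ ∧
    ∀ Γ : ℝ, 0 ≤ Γ → ∀ t ∈ Ico (-Λ₀) 0, ∀ U : Tri, (∀ j, Sm (U j)) →
      II (fun y => V0 q Γ t y * n2tt q (slT U t) y) ≤ K * (D0 q Γ U t + D1 q g Γ U t) := by
  obtain ⟨Λ₀, C, h⟩ := wctx_R hq hg
  obtain ⟨CV1, hCV1, hT1⟩ := w0_tb_wL 4 30
  obtain ⟨CV0, hCV0, hT0⟩ := w0_tb_wL 2 30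
  have hq1 : (1 : ℝ) < q := by linarith
  have hC0 : 0 < C := by linarith [h.hC]
  set a1 : ℝ := 3 * C ^ 2 * (16 / 9) with ha1
  set a2 : ℝ := 3 * C ^ 2 * C ^ 2 with ha2
  set a3 : ℝ := 3 * C ^ 2 * (6 * C ^ 2 * (q + 4)) with ha3
  have ha1' : 0 ≤ a1 := by positivity
  have ha2' : 0 ≤ a2 := by positivity
  have ha3' : 0 ≤ a3 := by positivity
  refine ⟨a1 + a2 + a3, Λ₀, by positivity, h.pos, ?_⟩
  intro Γ hΓ t ht U hU
  have ht0 : t < 0 := ht.2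
  have hV1 := hT1 q Γ t hq1 hΓ ht0
  have hV0 := hT0 q Γ t hq1 hΓ ht0
  have hu : ∀ j, SmI (slT U t j) := smI_slT hU ht0
  have hv : ∀ j, SmI (slT (Lop q (bgR q g) U) t j) := smI_slT (fun j => sm_Lop q h.sm hU j) ht0
  have c1 : CI (fun y => wL 4 30 q Γ t y * n2 q (slT (Lop q (bgR q g) U) t) y) := hV1.sm.continuousOn.mul (ci_n2 hv)
  have c2 : CI (fun y => wL 2 30 q Γ t y * n2t q (slT U t) y) := hV0.sm.continuousOn.mul (ci_n2t hu)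
  have c3 : CI (fun y => wL 2 30 q Γ t y * n2 q (slT U t) y) := hV0.sm.continuousOn.mul (ci_n2 hu)
  have k1 : CI (fun y => a1 * (wL 4 30 q Γ t y * n2 q (slT (Lop q (bgR q g) U) t) y)) :=
    continuousOn_const.mul c1
  have k2 : CI (fun y => a2 * (wL 2 30 q Γ t y * n2t q (slT U t) y)) := continuousOn_const.mul c2
  have k3 : CI (fun y => a3 * (wL 2 30 q Γ t y * n2 q (slT U t) y)) := continuousOn_const.mul c3
  have k12 : CI (fun y => a1 * (wL 4 30 q Γ t y * n2 q (slT (Lop q (bgR q g) U) t) y)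
      + a2 * (wL 2 30 q Γ t y * n2t q (slT U t) y)) := k1.add k2
  have d1 : II (fun y => wL 4 30 q Γ t y * n2 q (slT (Lop q (bgR q g) U) t) y) ≤ D1 q g Γ U t :=
    w2_Di_0 hq1.le hV1.sm.continuousOn (fun y hy => (hV1.pos y hy).le) hv
  have d2 : II (fun y => wL 2 30 q Γ t y * n2t q (slT U t) y) ≤ D0 q Γ U t :=
    w2_Di_t hq1.le hV0.sm.continuousOn (fun y hy => (hV0.pos y hy).le) hu
  have d3 : II (fun y => wL 2 30 q Γ t y * n2 q (slT U t) y) ≤ D0 q Γ U t :=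
    w2_Di_0 hq1.le hV0.sm.continuousOn (fun y hy => (hV0.pos y hy).le) hu
  have hD0 : 0 ≤ D0 q Γ U t := w2_Di_nonneg hq1.le (fun y hy => (hV0.pos y hy).le) _
  have hD1 : 0 ≤ D1 q g Γ U t := w2_Di_nonneg hq1.le (fun y hy => (hV1.pos y hy).le) _
  have key : II (fun y => V0 q Γ t y * n2tt q (slT U t) y)
      ≤ II (fun y => a1 * (wL 4 30 q Γ t y * n2 q (slT (Lop q (bgR q g) U) t) y)
        + a2 * (wL 2 30 q Γ t y * n2t q (slT U t) y) + a3 * (wL 2 30 q Γ t y * n2 q (slT U t) y)) := by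
    refine ii_mono (hV0.sm.continuousOn.mul (w_out_ci_n2tt hu))
      (k12.add k3) (fun y hy => ?_)
    have hX := w0_Xf_nonneg hy
    have hR := w0_rh2_pos hq1 ht0 hy
    have hXR := w0_Xf_le_rh2 hq1 ht0 hy
    have hW0 := (hV0.pos y hy).le
    have p1 : n2tt q (slT U t) y ≤ 3 * C ^ 2 * (Xf y ^ 2 * n2 q (slT (Lop q (bgR q g) U) t) y
        + C ^ 2 * n2t q (slT U t) y + 6 * C ^ 2 * (q + 4) * n2 q (slT U t) y) := by
      rw [n2_eq_nk, n2t_eq_nk, n2_eq_nk]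
      unfold n2tt
      refine w_out_sq3 hq1.le _ _ _ _ (fun i => ?_)
      refine w_out_sq1 hC0.le hX ?_
      have := w3_tt2 h.co hC0 hU ht hy i
      rw [Fin.sum_univ_three] at this
      exact this
    have hNv := n2_nonneg (by linarith : 0 < q) (slT (Lop q (bgR q g) U) t) y
    have p2 : wL 2 30 q Γ t y * Xf y ^ 2 ≤ 16 / 9 * wL 4 30 q Γ t y := by
      rw [w0_wL_add_two 2 30]
      have : Xf y ^ 2 ≤ (4 / 3 * rh2 q t y) ^ 2 := pow_le_pow_left₀ hX hXR 2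
      have := mul_le_mul_of_nonneg_left this hW0
      nlinarith
    have p3 := mul_le_mul_of_nonneg_left p1 hW0
    have p4 := mul_le_mul_of_nonneg_right p2 hNv
    have p5 := mul_le_mul_of_nonneg_left p4 (by positivity : 0 ≤ 3 * C ^ 2)
    show wL 2 30 q Γ t y * n2tt q (slT U t) y ≤ _
    rw [ha1, ha2, ha3]
    nlinarith [p3, p5]
  have e : II (fun y => a1 * (wL 4 30 q Γ t y * n2 q (slT (Lop q (bgR q g) U) t) y)
        + a2 * (wL 2 30 q Γ t y * n2t q (slT U t) y) + a3 * (wL 2 30 q Γ t y * n2 q (slT U t) y))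
      = a1 * II (fun y => wL 4 30 q Γ t y * n2 q (slT (Lop q (bgR q g) U) t) y)
        + a2 * II (fun y => wL 2 30 q Γ t y * n2t q (slT U t) y) + a3 * II (fun y => wL 2 30 q Γ t y * n2 q (slT U t) y) := by
    rw [ii_add k12 k3, ii_add k1 k2, ii_const_mul, ii_const_mul, ii_const_mul]
  rw [e] at key
  have f1 := mul_le_mul_of_nonneg_left d1 ha1'
  have f2 := mul_le_mul_of_nonneg_left d2 ha2'
  have f3 := mul_le_mul_of_nonneg_left d3 ha3'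
  have g1 := mul_nonneg ha1' hD0
  have g2 := mul_nonneg ha2' hD1
  have g3 := mul_nonneg ha3' hD1
  nlinarith [key, f1, f2, f3, g1, g2, g3]

end

end Claimed.Agent.R324.Core
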