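/-
Row 324 (S0582), PDE core, module W (architect helper427; W0, WC, W1, W2: helper217).   Blueprint 7.3 (origin/helper232:docs/R324_blueprint.md).   FILE WtS
   Λ = -t,  X = Xf y = 1 - y²,  X̃ = Xt y,  ℓ² = ell2 q t = (q-1)/100 Λ^(2γ),  γ = gaF q = 8/bAl q,  2 < bAl q < 3 (`bAl_bounds`, q ≥ 100),  r̂² = rh2 = ℓ² + X̃,  Θ = Th = Λ + X̃   (Core/Defs.lean).
   tt f = -X f',  ttp f = tt f + y f;   pointwise rules and the class `SmI` (smooth near [-1,1]): Core/W/TtCalc.lean.     𝕀 = II: Core/W/Ibp.lean.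
W0, joint smoothness of the weights in (t,y) near {t < 0} × [-1,1]  (for the differentiation of the energies in time, LD0).
* rh2 q t y = (q-1)/100 * (-t)^(2γ) + Xt y:   `ContDiffAt.rpow_const_of_ne` (or `Real.contDiffAt_rpow_const_of_ne`) at -t ≠ 0, composed with `contDiffAt_fst.neg`;   `w0_contDiff_Xt` composed with `contDiffAt_snd`.
* wL, wH: `ContDiffAt.div` with Th t y ^ _ ≠ 0 (`w0_Th_pos`), `.pow`, `.mul`.
-/
import Claimed.Agent.R324.Core.W.WtB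

set_option autoImplicit false

namespace Claimed.Agent.R324.Core

open Set Filter Topology MeasureTheory
open scoped ContDiff

noncomputable section

variable {q Γ t y : ℝ} {a M : ℕ}

/-! ### joint smoothness (for the differentiation of the energies in time) -/

theorem w0_WtS_Xt (t y : ℝ) : ContDiffAt ℝ ∞ (fun p : ℝ × ℝ => Xt p.2) (t, y) :=
  (w0_contDiff_Xt.comp contDiff_snd).contDiffAt

theorem w0_WtS_neg (t y : ℝ) : ContDiffAt ℝ ∞ (fun p : ℝ × ℝ => -p.1) (t, y) :=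
  contDiffAt_fst.neg

theorem w0_contDiffAt_rh2 (ht : t < 0) (y : ℝ) : ContDiffAt ℝ ∞ (fun p : ℝ × ℝ => rh2 q p.1 p.2) (t, y) := by
  unfold rh2 ell2 lam2
  have h1 : ContDiffAt ℝ ∞ (fun p : ℝ × ℝ => (-p.1) ^ (2 * gaF q)) (t, y) :=
    (w0_WtS_neg t y).rpow_const_of_ne (by simpa using (neg_pos.2 ht).ne')
  exact (contDiffAt_const.mul h1).add (w0_WtS_Xt t y)

theorem w0_contDiffAt_Th (t y : ℝ) : ContDiffAt ℝ ∞ (fun p : ℝ × ℝ => Th p.1 p.2) (t, y) := by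
  unfold Th
  exact (w0_WtS_neg t y).add (w0_WtS_Xt t y)

theorem w0_contDiffAt_wL (a M : ℕ) (q Γ : ℝ) (ht : t < 0) (hy : y ∈ Icc (-1 : ℝ) 1) :
    ContDiffAt ℝ ∞ (fun p : ℝ × ℝ => wL a M q Γ p.1 p.2) (t, y) := by
  unfold wL
  refine ContDiffAt.div (((w0_contDiffAt_rh2 ht y).pow a).mul
    ((contDiffAt_const.mul (w0_WtS_neg t y)).add (w0_WtS_Xt t y))) ((w0_contDiffAt_Th t y).pow (M + 1)) ?_
  exact pow_ne_zero _ (w0_Th_pos ht hy).ne'

theorem w0_contDiffAt_wH (a M : ℕ) (q : ℝ) (ht : t < 0) (hy : y ∈ Icc (-1 : ℝ) 1) :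
    ContDiffAt ℝ ∞ (fun p : ℝ × ℝ => wH a M q p.1 p.2) (t, y) := by
  unfold wH
  refine ContDiffAt.div ((w0_contDiffAt_rh2 ht y).pow a) ((w0_contDiffAt_Th t y).pow M) ?_
  exact pow_ne_zero _ (w0_Th_pos ht hy).ne'

end

end Claimed.Agent.R324.Core
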