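/-
Row 324 (S0582), PDE core, module W (architect helper427; W0, WC, W1, W2: helper217).   Blueprint 7.3 (origin/helper232:docs/R324_blueprint.md).   FILE JetA
   Λ = -t,  X = Xf y = 1 - y²,  X̃ = Xt y,  ℓ² = ell2 q t = (q-1)/100 Λ^(2γ),  γ = gaF q = 8/bAl q,  2 < bAl q < 3 (`bAl_bounds`, q ≥ 100),  r̂² = rh2 = ℓ² + X̃,  Θ = Th = Λ + X̃   (Core/Defs.lean).
   tt f = -X f',  ttp f = tt f + y f;   pointwise rules and the class `SmI` (smooth near [-1,1]): Core/W/TtCalc.lean.     𝕀 = II: Core/W/Ibp.lean.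
W5 (jets), scalar lemmas.      om = X^k V,  V ∈ TB C  (Core/W/TBa.lean),   tt(X^k V) = X^k (2 k y V + tt V).
* `w5_tt_XkV`:  `tt_mul`, `tt_pow`, `tt_Xf`;  k = 0 separately (`tt_pow` has the exponent k - 1).
* `w5_id`:  X p' - d y p = -(tt p + d y p)   (tt p = -X p');    (tt p + d y p)² = (tt p)² + 2 d y p tt p + d² y² p²;     𝕀[(om y) p tt p] = -½ 𝕀[ttp(om y) p²] (`ii_ibp_sq` with F = om·y),   ttp(om y) = y tt om - X om + y² om  (`tt_mul`, `tt_id`).
* `w5_coer`:  `w5_id` with om = X^k V;   c(y) := om ((d-1) y² + X) - y tt om = X^k [V ((d-1-2k) y² + X) - y tt V].    POINTWISE, for all y ∈ [-1,1]:      d c(y) p² ≥ om p² - K om (X p)²,   K = (16/9)(1 + d C):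
        |y| > 1/2:  c ≥ X^k V ((d-1-2k)/4 - c₁) ≥ X^k V ≥ om/d·… (d ≥ 1, (d-1-2k)/4 - c₁ ≥ 1);        |y| ≤ 1/2:  X ≥ 3/4,  c ≥ -C X^k V,  K X² ≥ 1 + d C.
      Then `ii_mono`, `ii_add`, `ii_sub`, `ii_const_mul`.
* `w5_hardy`:  𝕀[ttp(om y) b²] = -2 𝕀[om y b tt b] (`ii_ibp_sq`);    POINTWISE:   ttp(om y) = X^k [(y² - X + 2k y²) V + y tt V] ≥ om/4 - (20 + 16 C) om X²/R²      [X < R/4: hypothesis `hd`;   X ≥ R/4: ≥ -(1 + C) om and 16 X²/R² ≥ 1];
      |2 om y b tt b| ≤ om (b²/8 + 8 (tt b)²).      ⟹   𝕀[om b²]/8 ≤ 8 𝕀[om (tt b)²] + (20 + 16 C) 𝕀[om (X b)²/R²].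
-/
import Claimed.Agent.R324.Core.W.TB

set_option autoImplicit false

namespace Claimed.Agent.R324.Core

open Set Filter Topology MeasureTheory
open scoped ContDiff

noncomputable section

variable {C c₁ d : ℝ} {V om p b R : ℝ → ℝ} {y : ℝ}

theorem w5_tt_XkV (hV : SmI V) (k : ℕ) (hy : y ∈ Icc (-1 : ℝ) 1) :
    tt (fun z => Xf z ^ k * V z) y = Xf y ^ k * (2 * k * y * V y + tt V y) := by
  rw [tt_mul ((smI_Xf.pow k).differentiableAt hy) (hV.differentiableAt hy),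
    tt_pow (smI_Xf.differentiableAt hy), tt_Xf]
  cases k with
  | zero => simp
  | succ k =>
    simp only [Nat.add_sub_cancel]
    push_cast
    ring

/-- the identity (i). -/
theorem w5_id (hom : SmI om) (hp : SmI p) (d : ℝ) :
    II (fun y => om y * (Xf y * deriv p y - d * y * p y) ^ 2)
      = II (fun y => om y * tt p y ^ 2)
        + d * II (fun y => (om y * ((d - 1) * y ^ 2 + Xf y) - y * tt om y) * p y ^ 2) := by
  have h1 := ii_ibp_sq (hom.mul smI_id) hp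
  have e1 : II (fun y => ttp (fun z => om z * z) y * p y ^ 2)
      = II (fun y => (tt om y * y - om y * Xf y + y ^ 2 * om y) * p y ^ 2) := by
    refine ii_congr (fun y hy => ?_)
    rw [ttp_apply, tt_mul (hom.differentiableAt hy) (smI_id.differentiableAt hy), tt_id]
    ring
  have e2 : II (fun y => om y * (Xf y * deriv p y - d * y * p y) ^ 2)
      = II (fun y => om y * tt p y ^ 2
          + ((2 * d) * (om y * y * p y * tt p y) + d * (d * y ^ 2 * om y * p y ^ 2))) := by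
    refine ii_congr (fun y _ => ?_)
    rw [tt_eq_Xf]
    ring
  have c1 : CI (fun y => om y * tt p y ^ 2) := (hom.mul (hp.tt.pow 2)).continuousOn
  have c2 : CI (fun y => (2 * d) * (om y * y * p y * tt p y)) :=
    ((((hom.mul smI_id).mul hp).mul hp.tt).const_mul (2 * d)).continuousOn
  have c3' : CI (fun y => d * y ^ 2 * om y * p y ^ 2) :=
    (((((smI_id.pow 2).const_mul d)).mul hom).mul (hp.pow 2)).continuousOn
  have c3 : CI (fun y => d * (d * y ^ 2 * om y * p y ^ 2)) :=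
    ((((((smI_id.pow 2).const_mul d)).mul hom).mul (hp.pow 2)).const_mul d).continuousOn
  have c4 : CI (fun y => (tt om y * y - om y * Xf y + y ^ 2 * om y) * p y ^ 2) :=
    (((((hom.tt.mul smI_id).sub (hom.mul smI_Xf)).add ((smI_id.pow 2).mul hom))).mul
      (hp.pow 2)).continuousOn
  have e3 : II (fun y => (om y * ((d - 1) * y ^ 2 + Xf y) - y * tt om y) * p y ^ 2)
      = II (fun y => d * y ^ 2 * om y * p y ^ 2)
        - II (fun y => (tt om y * y - om y * Xf y + y ^ 2 * om y) * p y ^ 2) := by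
    rw [← ii_sub c3' c4]
    refine ii_congr (fun y _ => ?_)
    ring
  have c23 : CI (fun y => (2 * d) * (om y * y * p y * tt p y)
      + d * (d * y ^ 2 * om y * p y ^ 2)) := c2.add c3
  rw [e2, ii_add c1 c23, ii_add c2 c3, ii_const_mul, ii_const_mul, h1, e1, e3]
  ring

/-- the pointwise inequality behind `w5_coer`. -/
theorem w5_coer_pt {v T κ : ℝ} (hv : 0 < v) (hC : |T| ≤ C * v) (hN : 1 / 2 < |y| → |T| ≤ c₁ * v)
    (hc₁ : 0 ≤ c₁) (hκ : 0 ≤ κ) (hy : y ∈ Icc (-1 : ℝ) 1) (hd : 4 * c₁ + 5 + 2 * κ ≤ d) :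
    0 ≤ d * (v * ((d - 1 - 2 * κ) * y ^ 2 + (1 - y ^ 2)) - y * T)
        + 16 / 9 * (1 + d * C) * v * (1 - y ^ 2) ^ 2 - v := by
  have hC0 : 0 ≤ C := by
    by_contra h
    push Not at h
    have : C * v < 0 := mul_neg_of_neg_of_pos h hv
    linarith [abs_nonneg T]
  have hd5 : 5 ≤ d := by linarith
  have hya : |y| ≤ 1 := abs_le.mpr ⟨hy.1, hy.2⟩
  have hy2 : y ^ 2 ≤ 1 := by
    rw [← sq_abs]
    nlinarith [abs_nonneg y]
  have hyT : y * T ≤ |y| * |T| := by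
    rw [← abs_mul]
    exact le_abs_self _
  have hK : 0 ≤ 16 / 9 * (1 + d * C) * v := by positivity
  by_cases h : 1 / 2 < |y|
  · have hT := hN h
    have hy4 : 1 / 4 ≤ y ^ 2 := by
      rw [← sq_abs]
      nlinarith
    have h1 : y * T ≤ c₁ * v := by
      have : |y| * |T| ≤ 1 * |T| := mul_le_mul_of_nonneg_right hya (abs_nonneg T)
      linarith
    have h2 : c₁ + 1 ≤ (d - 1 - 2 * κ) * y ^ 2 := by
      have : (4 * c₁ + 4) * (1 / 4) ≤ (d - 1 - 2 * κ) * y ^ 2 :=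
        mul_le_mul (by linarith) hy4 (by norm_num) (by linarith)
      linarith
    have h3 : v ≤ v * ((d - 1 - 2 * κ) * y ^ 2 + (1 - y ^ 2)) - y * T := by
      have : v * (c₁ + 1) ≤ v * ((d - 1 - 2 * κ) * y ^ 2 + (1 - y ^ 2)) :=
        mul_le_mul_of_nonneg_left (by linarith) hv.le
      nlinarith
    have h4 : 1 * v ≤ d * (v * ((d - 1 - 2 * κ) * y ^ 2 + (1 - y ^ 2)) - y * T) :=
      mul_le_mul (by linarith) h3 hv.le (by linarith)
    have h5 : 0 ≤ 16 / 9 * (1 + d * C) * v * (1 - y ^ 2) ^ 2 := mul_nonneg hK (sq_nonneg _)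
    linarith
  · push Not at h
    have hy4 : y ^ 2 ≤ 1 / 4 := by
      rw [← sq_abs]
      nlinarith [abs_nonneg y]
    have h1 : y * T ≤ C * v := by
      have : |y| * |T| ≤ 1 * |T| := mul_le_mul_of_nonneg_right hya (abs_nonneg T)
      linarith
    have h2 : 0 ≤ (d - 1 - 2 * κ) * y ^ 2 := mul_nonneg (by linarith) (sq_nonneg _)
    have h3 : -(C * v) ≤ v * ((d - 1 - 2 * κ) * y ^ 2 + (1 - y ^ 2)) - y * T := by
      have : 0 ≤ v * ((d - 1 - 2 * κ) * y ^ 2 + (1 - y ^ 2)) :=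
        mul_nonneg hv.le (by linarith)
      linarith
    have h4 : d * (-(C * v)) ≤ d * (v * ((d - 1 - 2 * κ) * y ^ 2 + (1 - y ^ 2)) - y * T) :=
      mul_le_mul_of_nonneg_left h3 (by linarith)
    have h6 : 9 / 16 ≤ (1 - y ^ 2) ^ 2 := by nlinarith
    have h5 : 16 / 9 * (1 + d * C) * v * (9 / 16) ≤ 16 / 9 * (1 + d * C) * v * (1 - y ^ 2) ^ 2 :=
      mul_le_mul_of_nonneg_left h6 hK
    nlinarith

/-- coercivity of the pole operator `X p' - d y p`. -/
theorem w5_coer (hV : TB C V) (hN : ∀ y ∈ Icc (-1 : ℝ) 1, 1 / 2 < |y| → |tt V y| ≤ c₁ * V y) (hp : SmI p) (k : ℕ)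
    (hd : 4 * c₁ + 5 + 2 * k ≤ d) :
    II (fun y => Xf y ^ k * V y * (p y ^ 2 + tt p y ^ 2))
      ≤ II (fun y => Xf y ^ k * V y * (Xf y * deriv p y - d * y * p y) ^ 2)
        + 16 / 9 * (1 + d * C) * II (fun y => Xf y ^ k * V y * (Xf y * p y) ^ 2) := by
  have hom : SmI (fun y => Xf y ^ k * V y) := (smI_Xf.pow k).mul hV.sm
  have hid := w5_id hom hp d
  beta_reduce at hid
  rw [hid]
  have h1m : (1 : ℝ) ∈ Icc (-1 : ℝ) 1 := by constructor <;> norm_num
  have hc₁ : 0 ≤ c₁ := by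
    have h := hN 1 h1m (by norm_num)
    have hv := hV.pos 1 h1m
    by_contra hc
    push Not at hc
    have : c₁ * V 1 < 0 := mul_neg_of_neg_of_pos hc hv
    linarith [abs_nonneg (tt V 1)]
  have c1 : CI (fun y => Xf y ^ k * V y * p y ^ 2) := (hom.mul (hp.pow 2)).continuousOn
  have c2 : CI (fun y => Xf y ^ k * V y * tt p y ^ 2) := (hom.mul (hp.tt.pow 2)).continuousOn
  have c3 : CI (fun y => d * ((Xf y ^ k * V y * ((d - 1) * y ^ 2 + Xf y)
      - y * tt (fun y => Xf y ^ k * V y) y) * p y ^ 2)) :=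
    ((((hom.mul (((smI_id.pow 2).const_mul (d - 1)).add smI_Xf)).sub
      (smI_id.mul hom.tt)).mul (hp.pow 2)).const_mul d).continuousOn
  have c4 : CI (fun y => 16 / 9 * (1 + d * C) * (Xf y ^ k * V y * (Xf y * p y) ^ 2)) :=
    ((hom.mul ((smI_Xf.mul hp).pow 2)).const_mul (16 / 9 * (1 + d * C))).continuousOn
  have e1 : II (fun y => Xf y ^ k * V y * (p y ^ 2 + tt p y ^ 2))
      = II (fun y => Xf y ^ k * V y * p y ^ 2) + II (fun y => Xf y ^ k * V y * tt p y ^ 2) := by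
    rw [← ii_add c1 c2]
    refine ii_congr (fun y _ => ?_)
    ring
  have key : II (fun y => Xf y ^ k * V y * p y ^ 2)
      ≤ d * II (fun y => (Xf y ^ k * V y * ((d - 1) * y ^ 2 + Xf y)
          - y * tt (fun y => Xf y ^ k * V y) y) * p y ^ 2)
        + 16 / 9 * (1 + d * C) * II (fun y => Xf y ^ k * V y * (Xf y * p y) ^ 2) := by
    have c34 : CI (fun y => d * ((Xf y ^ k * V y * ((d - 1) * y ^ 2 + Xf y)
        - y * tt (fun y => Xf y ^ k * V y) y) * p y ^ 2)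
        + 16 / 9 * (1 + d * C) * (Xf y ^ k * V y * (Xf y * p y) ^ 2)) := c3.add c4
    rw [← ii_const_mul, ← ii_const_mul, ← ii_add c3 c4]
    refine ii_mono c1 c34 (fun y hy => ?_)
    rw [w5_tt_XkV hV.sm k hy]
    have hpt := w5_coer_pt (κ := (k : ℝ)) (hV.pos y hy) (hV.t1 y hy) (hN y hy) hc₁
      (Nat.cast_nonneg k) hy hd
    have hX : 0 ≤ Xf y := by
      unfold Xf
      have : y ^ 2 ≤ 1 := by nlinarith [hy.1, hy.2]
      linarith
    have hXk : 0 ≤ Xf y ^ k * p y ^ 2 := mul_nonneg (pow_nonneg hX k) (sq_nonneg _)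
    have hm := mul_nonneg hXk hpt
    have hXe : Xf y = 1 - y ^ 2 := rfl
    rw [← hXe] at hm
    nlinarith
  rw [e1]
  linarith

end

end Claimed.Agent.R324.Core
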