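/-
Row 324 (S0582), PDE core, module W (architect helper427; W0, WC, W1, W2: helper217).   Blueprint 7.3 (origin/helper232:docs/R324_blueprint.md).   FILE JetB
   Λ = -t,  X = Xf y = 1 - y²,  X̃ = Xt y,  ℓ² = ell2 q t = (q-1)/100 Λ^(2γ),  γ = gaF q = 8/bAl q,  2 < bAl q < 3 (`bAl_bounds`, q ≥ 100),  r̂² = rh2 = ℓ² + X̃,  Θ = Th = Λ + X̃   (Core/Defs.lean).
   tt f = -X f',  ttp f = tt f + y f;   pointwise rules and the class `SmI` (smooth near [-1,1]): Core/W/TtCalc.lean.     𝕀 = II: Core/W/Ibp.lean.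
W5 (jets), Hardy inequality at the poles.      om = X^k V,  V ∈ TB C  (Core/W/TBa.lean),   tt(X^k V) = X^k (2 k y V + tt V) (`w5_tt_XkV`).
* `w5_hardy`:  𝕀[ttp(om y) b²] = -2 𝕀[om y b tt b] (`ii_ibp_sq` with F = om·y);   ttp(om y) = y tt om - X om + y² om (`tt_mul`, `tt_id`).
      POINTWISE:   ttp(om y) = X^k [(y² - X + 2k y²) V + y tt V] ≥ om/4 - (20 + 16 C) om X²/R²      [X < R/4: hypothesis `hd`;   X ≥ R/4: ≥ -(1 + C) om and 16 X²/R² ≥ 1];
      |2 om y b tt b| ≤ om (b²/8 + 8 (tt b)²).      ⟹   𝕀[om b²]/8 ≤ 8 𝕀[om (tt b)²] + (20 + 16 C) 𝕀[om (X b)²/R²].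
-/
import Claimed.Agent.R324.Core.W.JetA

set_option autoImplicit false

namespace Claimed.Agent.R324.Core

open Set Filter Topology MeasureTheory
open scoped ContDiff

noncomputable section

variable {C c₁ d : ℝ} {V om p b R : ℝ → ℝ} {y : ℝ}

/-- the pointwise inequality behind `w5_hardy`. -/
theorem w5b_pointwise {v T r : ℝ} (hC : 0 ≤ C) (hv : 0 < v) (hT : |T| ≤ C * v) (hr : 0 < r) (hy : y ∈ Icc (-1 : ℝ) 1)
    (hd : Xf y < r / 4 → 1 / 4 * v ≤ (y ^ 2 - Xf y) * v + y * T) (k : ℕ) (β τ : ℝ) :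
    1 / 8 * (Xf y ^ k * v * β ^ 2) - 8 * (Xf y ^ k * v * τ ^ 2)
        - (20 + 16 * C) * (Xf y ^ k * v * ((Xf y * β) ^ 2 / r ^ 2))
      ≤ Xf y ^ k * ((y ^ 2 - Xf y + 2 * k * y ^ 2) * v + y * T) * β ^ 2 + 2 * (Xf y ^ k * v * y * β * τ) := by
  have hy2 : y ^ 2 ≤ 1 := by
    have h1 := hy.1
    have h2 := hy.2
    nlinarith
  have hx0 : 0 ≤ Xf y := by unfold Xf; linarith
  have hx1 : Xf y ≤ 1 := by unfold Xf; nlinarith [sq_nonneg y]
  have hP : 0 ≤ Xf y ^ k := pow_nonneg hx0 k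
  have hs0 : 0 ≤ Xf y ^ 2 / r ^ 2 := by positivity
  have hk : 0 ≤ 2 * (k : ℝ) * y ^ 2 * v := by positivity
  -- claim 1
  have c1 : 1 / 4 * v - (20 + 16 * C) * v * (Xf y ^ 2 / r ^ 2)
      ≤ (y ^ 2 - Xf y + 2 * k * y ^ 2) * v + y * T := by
    by_cases hc : Xf y < r / 4
    · have h1 := hd hc
      have h2 : 0 ≤ (20 + 16 * C) * v * (Xf y ^ 2 / r ^ 2) := by positivity
      nlinarith
    · have hc' : r / 4 ≤ Xf y := not_lt.1 hc
      have hs : 1 / 16 ≤ Xf y ^ 2 / r ^ 2 := by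
        rw [le_div_iff₀ (pow_pos hr 2)]
        nlinarith
      have h3 : -(C * v) ≤ y * T := by
        have h4 : |y * T| ≤ C * v := by
          rw [abs_mul]
          have h5 : |y| ≤ 1 := abs_le.2 ⟨hy.1, hy.2⟩
          calc |y| * |T| ≤ 1 * |T| := mul_le_mul_of_nonneg_right h5 (abs_nonneg _)
            _ = |T| := one_mul _
            _ ≤ C * v := hT
        exact (abs_le.1 h4).1
      have h6 : (20 + 16 * C) * v * (1 / 16) ≤ (20 + 16 * C) * v * (Xf y ^ 2 / r ^ 2) :=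
        mul_le_mul_of_nonneg_left hs (by positivity)
      have h7 : 0 ≤ y ^ 2 * v := by positivity
      have h8 : Xf y * v ≤ 1 * v := mul_le_mul_of_nonneg_right hx1 hv.le
      nlinarith
  -- claim 2
  have c2 : 0 ≤ 2 * y * β * τ + β ^ 2 / 8 + 8 * τ ^ 2 := by
    nlinarith [sq_nonneg (β + 8 * y * τ), mul_nonneg (sub_nonneg.2 hy2) (sq_nonneg τ)]
  have h1 : 0 ≤ Xf y ^ k * β ^ 2 * (((y ^ 2 - Xf y + 2 * k * y ^ 2) * v + y * T)
      - (1 / 4 * v - (20 + 16 * C) * v * (Xf y ^ 2 / r ^ 2))) :=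
    mul_nonneg (mul_nonneg hP (sq_nonneg _)) (sub_nonneg.2 c1)
  have h2 : 0 ≤ Xf y ^ k * v * (2 * y * β * τ + β ^ 2 / 8 + 8 * τ ^ 2) := mul_nonneg (mul_nonneg hP hv.le) c2
  have e : (Xf y * β) ^ 2 / r ^ 2 = Xf y ^ 2 / r ^ 2 * β ^ 2 := by ring
  rw [e]
  nlinarith [h1, h2]

/-- Hardy. -/
theorem w5_hardy (hV : TB C V) (hR : CI R) (hR0 : ∀ y ∈ Icc (-1 : ℝ) 1, 0 < R y)
    (hd : ∀ y ∈ Icc (-1 : ℝ) 1, Xf y < R y / 4 → 1 / 4 * V y ≤ (y ^ 2 - Xf y) * V y + y * tt V y)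
    (hb : SmI b) (k : ℕ) :
    II (fun y => Xf y ^ k * V y * b y ^ 2)
      ≤ 64 * II (fun y => Xf y ^ k * V y * tt b y ^ 2)
        + (160 + 128 * C) * II (fun y => Xf y ^ k * V y * ((Xf y * b y) ^ 2 / R y ^ 2)) := by
  have hC := hV.nonneg_C
  have hom : SmI (fun y => Xf y ^ k * V y) := (smI_Xf.pow k).mul hV.sm
  have hF : SmI (fun y => Xf y ^ k * V y * y) := hom.mul smI_id
  have hibp := ii_ibp_sq hF hb
  have http : ∀ y ∈ Icc (-1 : ℝ) 1, ttp (fun y => Xf y ^ k * V y * y) y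
      = Xf y ^ k * ((y ^ 2 - Xf y + 2 * k * y ^ 2) * V y + y * tt V y) := by
    intro y hy
    rw [ttp_apply, tt_mul (hom.differentiableAt hy) (smI_id.differentiableAt hy), w5_tt_XkV hV.sm k hy, tt_id]
    ring
  have cA : CI (fun y => Xf y ^ k * V y * b y ^ 2) := (hom.mul (hb.pow 2)).continuousOn
  have cB : CI (fun y => Xf y ^ k * V y * tt b y ^ 2) := (hom.mul (hb.tt.pow 2)).continuousOn
  have cD : CI (fun y => Xf y ^ k * V y * ((Xf y * b y) ^ 2 / R y ^ 2)) :=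
    hom.continuousOn.mul ((((smI_Xf.mul hb).pow 2).continuousOn).div (hR.pow 2)
      (fun y hy => (pow_pos (hR0 y hy) 2).ne'))
  have cG : CI (fun y => ttp (fun y => Xf y ^ k * V y * y) y * b y ^ 2) := (hF.ttp.mul (hb.pow 2)).continuousOn
  have cH : CI (fun y => Xf y ^ k * V y * y * b y * tt b y) := ((hF.mul hb).mul hb.tt).continuousOn
  have cA' : CI (fun y => 1 / 8 * (Xf y ^ k * V y * b y ^ 2)) := continuousOn_const.mul cA
  have cB' : CI (fun y => 8 * (Xf y ^ k * V y * tt b y ^ 2)) := continuousOn_const.mul cB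
  have cD' : CI (fun y => (20 + 16 * C) * (Xf y ^ k * V y * ((Xf y * b y) ^ 2 / R y ^ 2))) :=
    continuousOn_const.mul cD
  have cH' : CI (fun y => 2 * (Xf y ^ k * V y * y * b y * tt b y)) := continuousOn_const.mul cH
  have key : II (fun y => 1 / 8 * (Xf y ^ k * V y * b y ^ 2) - 8 * (Xf y ^ k * V y * tt b y ^ 2)
        - (20 + 16 * C) * (Xf y ^ k * V y * ((Xf y * b y) ^ 2 / R y ^ 2)))
      ≤ II (fun y => ttp (fun y => Xf y ^ k * V y * y) y * b y ^ 2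
        + 2 * (Xf y ^ k * V y * y * b y * tt b y)) := by
    refine ii_mono ((cA'.sub cB').sub cD') (cG.add cH') (fun y hy => ?_)
    rw [http y hy]
    exact w5b_pointwise hC (hV.pos y hy) (hV.t1 y hy) (hR0 y hy) hy (hd y hy) k (b y) (tt b y)
  have cAB : CI (fun y => 1 / 8 * (Xf y ^ k * V y * b y ^ 2) - 8 * (Xf y ^ k * V y * tt b y ^ 2)) := cA'.sub cB'
  rw [ii_sub cAB cD', ii_sub cA' cB', ii_const_mul, ii_const_mul, ii_const_mul, ii_add cG cH',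
    ii_const_mul, hibp] at key
  linarith

end

end Claimed.Agent.R324.Core
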