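/-
Row 324 (S0582), PDE core, module W (architect helper427; W0, WC, W1, W2: helper217).   Blueprint 7.3 (origin/helper232:docs/R324_blueprint.md).   FILE Mult
   Λ = -t,  X = Xf y = 1 - y²,  X̃ = Xt y,  ℓ² = ell2 q t = (q-1)/100 Λ^(2γ),  γ = gaF q = 8/bAl q,  2 < bAl q < 3 (`bAl_bounds`, q ≥ 100),  r̂² = rh2 = ℓ² + X̃,  Θ = Th = Λ + X̃   (Core/Defs.lean).
   tt f = -X f',  ttp f = tt f + y f;   pointwise rules and the class `SmI` (smooth near [-1,1]): Core/W/TtCalc.lean.     𝕀 = II: Core/W/Ibp.lean.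
W4 (multipliers), scalar dissipation form  d_V(f) = 𝕀[V (|tt f|² + q f²)].
* `w4_Di_eq`:  unfold Di dV n2 n2t;  `ii_congr` to the sum, `ii_add`, `ii_const_mul`  (uV u 2 = fun y => (1 - y²) u 2 y: `uV_two`).    Continuity: `SmI.continuousOn`, `SmI.tt`, `ContinuousOn.mul/add/pow`.
* `w4_pt`:  tt(mu A) = tt mu A + mu tt A (`tt_mul`);  with m = |mu| + |tt mu|:  (mu A)² ≤ m² A²,  (tt(mu A))² ≤ (|tt mu||A| + |mu||tt A|)² ≤ m² … precisely (a|A| + b|B|)² ≤ (a+b)²·max ≤ … use:  (mu A)² + (tt mu A + mu B)² ≤ 2 (|mu| + |tt mu|)² (A² + B²)  (nlinarith / Cauchy-Schwarz).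
* `w4_mult`:  pointwise  V (|tt(mu f)|² + q mu² f²) ≤ V (2 m² f² + 2 m² |tt f|² + q m² f²) ≤ 2 m² V (|tt f|² + q f²)  for q ≥ 2;  `ii_mono`, `ii_const_mul`.
-/
import Claimed.Agent.R324.Core.W.FormDefs

set_option autoImplicit false

namespace Claimed.Agent.R324.Core

open Set Filter Topology MeasureTheory
open scoped ContDiff

noncomputable section

/-- `d_V(f) = 𝕀[V (|tt f|² + q f²)]`. -/
def dV (q : ℝ) (V f : ℝ → ℝ) : ℝ := II (fun y => V y * (tt f y ^ 2 + q * f y ^ 2))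

/-- hygiene. -/
theorem core_w_mult_hygiene : True := by
  have := @dV.eq_1
  trivial

variable {q m : ℝ} {V mu f A : ℝ → ℝ} {u : Fin 3 → ℝ → ℝ} {y : ℝ}

theorem w4_ci_dV (q : ℝ) (hV : CI V) (hf : SmI f) : CI (fun y => V y * (tt f y ^ 2 + q * f y ^ 2)) := by
  have h : SmI (fun y => tt f y ^ 2 + q * f y ^ 2) := (hf.tt.pow 2).add ((hf.pow 2).const_mul q)
  exact hV.mul h.continuousOn

theorem w4_Di_eq (hV : CI V) (hu : ∀ j, SmI (u j)) :
    Di q V u = (q + 1) * dV q V (u 0) + 2 * dV q V (u 1) + q / (q + 1) * dV q V (uV u 2) := by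
  have h0 := w4_ci_dV q hV (hu 0)
  have h1 := w4_ci_dV q hV (hu 1)
  have h2 := w4_ci_dV q hV (smI_uV hu 2)
  have c0 : CI (fun y => (q + 1) * (V y * (tt (u 0) y ^ 2 + q * u 0 y ^ 2))) := continuousOn_const.mul h0
  have c1 : CI (fun y => 2 * (V y * (tt (u 1) y ^ 2 + q * u 1 y ^ 2))) := continuousOn_const.mul h1
  have c2 : CI (fun y => q / (q + 1) * (V y * (tt (uV u 2) y ^ 2 + q * uV u 2 y ^ 2))) :=
    continuousOn_const.mul h2
  unfold Di dV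
  have c01 : CI (fun y => (q + 1) * (V y * (tt (u 0) y ^ 2 + q * u 0 y ^ 2))
      + 2 * (V y * (tt (u 1) y ^ 2 + q * u 1 y ^ 2))) := c0.add c1
  rw [← ii_const_mul, ← ii_const_mul, ← ii_const_mul, ← ii_add c0 c1, ← ii_add c01 c2]
  apply ii_congr
  intro y _
  simp only [n2, n2t, uV_two]
  ring

theorem w4_dV_nonneg (hq : 0 ≤ q) (h0 : ∀ y ∈ Icc (-1 : ℝ) 1, 0 ≤ V y) (f : ℝ → ℝ) : 0 ≤ dV q V f := by
  unfold dV
  apply ii_nonneg
  intro y hy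
  exact mul_nonneg (h0 y hy) (add_nonneg (sq_nonneg _) (mul_nonneg hq (sq_nonneg _)))

theorem w4_pt (hmu : DifferentiableAt ℝ mu y) (hA : DifferentiableAt ℝ A y) :
    (mu y * A y) ^ 2 + (tt (fun z => mu z * A z) y) ^ 2 ≤ 2 * (|mu y| + |tt mu y|) ^ 2 * (A y ^ 2 + tt A y ^ 2) := by
  rw [tt_mul hmu hA]
  generalize mu y = a
  generalize tt mu y = b
  generalize A y = c
  generalize tt A y = d
  have e : (|a| + |b|) ^ 2 = a ^ 2 + b ^ 2 + 2 * (|a| * |b|) := by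
    have h1 := sq_abs a
    have h2 := sq_abs b
    nlinarith
  have hab : 0 ≤ |a| * |b| := mul_nonneg (abs_nonneg _) (abs_nonneg _)
  rw [e]
  nlinarith [sq_nonneg (b * c - a * d), sq_nonneg (a * c), sq_nonneg (b * d), sq_nonneg (a * d), sq_nonneg (b * c),
    mul_nonneg hab (add_nonneg (sq_nonneg c) (sq_nonneg d))]

theorem w4_mult (hq : 2 ≤ q) (hV : CI V) (h0 : ∀ y ∈ Icc (-1 : ℝ) 1, 0 ≤ V y) (hmu : SmI mu) (hf : SmI f)
    (hm : ∀ y ∈ Icc (-1 : ℝ) 1, |mu y| + |tt mu y| ≤ m) :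
    dV q V (fun y => mu y * f y) ≤ 2 * m ^ 2 * dV q V f := by
  unfold dV
  rw [← ii_const_mul]
  refine ii_mono (w4_ci_dV q hV (hmu.mul hf)) (continuousOn_const.mul (w4_ci_dV q hV hf)) ?_
  intro y hy
  have hp := w4_pt (hmu.differentiableAt hy) (hf.differentiableAt hy)
  have hmy := hm y hy
  have hs0 : 0 ≤ |mu y| + |tt mu y| := add_nonneg (abs_nonneg _) (abs_nonneg _)
  have hsq : (|mu y| + |tt mu y|) ^ 2 ≤ m ^ 2 := pow_le_pow_left₀ hs0 hmy 2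
  have hmu2 : mu y ^ 2 ≤ m ^ 2 := by
    have h1 : |mu y| ≤ m := le_trans (le_add_of_nonneg_right (abs_nonneg _)) hmy
    have h2 : |mu y| ^ 2 ≤ m ^ 2 := pow_le_pow_left₀ (abs_nonneg _) h1 2
    rwa [sq_abs] at h2
  have hS : 0 ≤ f y ^ 2 + tt f y ^ 2 := add_nonneg (sq_nonneg _) (sq_nonneg _)
  have hp2 : (mu y * f y) ^ 2 + (tt (fun z => mu z * f z) y) ^ 2 ≤ 2 * m ^ 2 * (f y ^ 2 + tt f y ^ 2) := by
    refine hp.trans ?_
    have := mul_le_mul_of_nonneg_right hsq hS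
    nlinarith
  have hmf : (mu y * f y) ^ 2 ≤ m ^ 2 * f y ^ 2 := by
    rw [mul_pow]
    exact mul_le_mul_of_nonneg_right hmu2 (sq_nonneg _)
  have hkey : tt (fun z => mu z * f z) y ^ 2 + q * (mu y * f y) ^ 2
      ≤ 2 * m ^ 2 * (tt f y ^ 2 + q * f y ^ 2) := by
    have hq1 : 0 ≤ q - 1 := by linarith
    have h3 := mul_le_mul_of_nonneg_left hmf hq1
    have h4 : 0 ≤ m ^ 2 * f y ^ 2 := mul_nonneg (sq_nonneg _) (sq_nonneg _)
    nlinarith
  calc V y * (tt (fun z => mu z * f z) y ^ 2 + q * (mu y * f y) ^ 2)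
      ≤ V y * (2 * m ^ 2 * (tt f y ^ 2 + q * f y ^ 2)) := mul_le_mul_of_nonneg_left hkey (h0 y hy)
    _ = 2 * m ^ 2 * (V y * (tt f y ^ 2 + q * f y ^ 2)) := by ring

end

end Claimed.Agent.R324.Core
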