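/-
Row 324 (S0582), PDE core, module W (architect helper427; W0, WC, W1, W2: helper217).   Blueprint 7.3 (origin/helper232:docs/R324_blueprint.md).   FILE Trace
   Λ = -t,  X = Xf y = 1 - y²,  X̃ = Xt y,  ℓ² = ell2 q t = (q-1)/100 Λ^(2γ),  γ = gaF q = 8/bAl q,  2 < bAl q < 3 (`bAl_bounds`, q ≥ 100),  r̂² = rh2 = ℓ² + X̃,  Θ = Th = Λ + X̃   (Core/Defs.lean).
   tt f = -X f',  ttp f = tt f + y f;   pointwise rules and the class `SmI` (smooth near [-1,1]): Core/W/TtCalc.lean.     𝕀 = II: Core/W/Ibp.lean.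
W6 (trace).     G(ϑ) := sin^{2k+1} ϑ · H(cos ϑ),   G(0) = 0,   G'(ϑ) = sin^{2k} ϑ [(2k+1) y H + tt H](cos ϑ)      (sin² ϑ = Xf (cos ϑ);  d/dϑ H(cos ϑ) = -sin ϑ H'(cos ϑ),  sin^{2k+1}·(-sin) H' = sin^{2k} tt H).
* `w6_hasDerivAt`: `Real.hasDerivAt_sin`, `.pow`, `HasDerivAt.comp` (as in `ii_hasDerivAt`, Core/W/Ibp.lean);  Xf (cos ϑ) = sin² ϑ (`Real.sin_sq_add_cos_sq`);  sin^{2k} = (sin²)^k (`pow_mul`).
* `w6_trace0`:  y = cos ϑ₀, ϑ₀ = arccos y ∈ [0,π] (`Real.cos_arccos`, `Real.arccos_nonneg`, `Real.arccos_le_pi`);   sin ϑ₀ = √(1 - y²) (`Real.sin_arccos`), so sin^{2k+1} ϑ₀ = √X X^k;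
      G(ϑ₀) = ∫_0^{ϑ₀} G' (`intervalIntegral.integral_eq_sub_of_hasDerivAt`; G' continuous);   |∫_0^{ϑ₀} G'| ≤ ∫_0^{ϑ₀} |G'| ≤ ∫_0^π |G'|  (`intervalIntegral.abs_integral_le_integral_abs`, `intervalIntegral.integral_mono_interval`).
* `w6_trace`:  H := om f²;   tt H = tt om f² + 2 om f tt f;   |(2k+1) y H + tt H| ≤ om ((2k+1) f² + C₀ f² + f² + (tt f)²) ≤ (C₀ + 2k + 2) om (f² + (tt f)²);  `ii_mono`, `ii_const_mul`.
-/
import Claimed.Agent.R324.Core.W.TB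

set_option autoImplicit false

namespace Claimed.Agent.R324.Core

open Set Filter Topology MeasureTheory
open scoped ContDiff

noncomputable section

variable {C₀ : ℝ} {H om f : ℝ → ℝ} {y : ℝ}

theorem w6_hasDerivAt (hH : SmI H) (k : ℕ) (ϑ : ℝ) :
    HasDerivAt (fun s => Real.sin s ^ (2 * k + 1) * H (Real.cos s))
      (Xf (Real.cos ϑ) ^ k * ((2 * k + 1) * Real.cos ϑ * H (Real.cos ϑ) + tt H (Real.cos ϑ))) ϑ := by
  have h1 : HasDerivAt H (deriv H (Real.cos ϑ)) (Real.cos ϑ) :=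
    (hH.differentiableAt (cos_mem_Icc ϑ)).hasDerivAt
  have h2 : HasDerivAt (fun s => H (Real.cos s)) (deriv H (Real.cos ϑ) * (-Real.sin ϑ)) ϑ :=
    h1.comp ϑ (Real.hasDerivAt_cos ϑ)
  have h3 : HasDerivAt (fun s => Real.sin s ^ (2 * k + 1))
      (((2 * k + 1 : ℕ) : ℝ) * Real.sin ϑ ^ (2 * k) * Real.cos ϑ) ϑ := by
    simpa using (Real.hasDerivAt_sin ϑ).fun_pow (2 * k + 1)
  have h4 := h3.mul h2
  have hs : Xf (Real.cos ϑ) = Real.sin ϑ ^ 2 := by
    have := Real.sin_sq_add_cos_sq ϑ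
    unfold Xf
    linarith
  have e : Xf (Real.cos ϑ) ^ k * ((2 * k + 1) * Real.cos ϑ * H (Real.cos ϑ) + tt H (Real.cos ϑ))
      = ((2 * k + 1 : ℕ) : ℝ) * Real.sin ϑ ^ (2 * k) * Real.cos ϑ * H (Real.cos ϑ)
        + Real.sin ϑ ^ (2 * k + 1) * (deriv H (Real.cos ϑ) * (-Real.sin ϑ)) := by
    rw [tt_eq_Xf, hs, ← pow_mul]
    push_cast
    ring
  rw [e]
  exact h4

theorem w6_trace0 (hH : SmI H) (k : ℕ) (hy : y ∈ Icc (-1 : ℝ) 1) :
    |Real.sqrt (Xf y) * Xf y ^ k * H y| ≤ II (fun z => Xf z ^ k * |(2 * k + 1) * z * H z + tt H z|) := by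
  set F : ℝ → ℝ := fun z => Xf z ^ k * ((2 * k + 1) * z * H z + tt H z) with hF
  have hFs : SmI F :=
    (smI_Xf.pow k).mul ((((smI_const (2 * (k : ℝ) + 1)).mul smI_id).mul hH).add hH.tt)
  have hFc : Continuous (fun ϑ => F (Real.cos ϑ)) := ii_continuous hFs.continuousOn
  have h0 : (0 : ℝ) ≤ Real.arccos y := Real.arccos_nonneg y
  have hpi : Real.arccos y ≤ Real.pi := Real.arccos_le_pi y
  have hX0 : 0 ≤ Xf y := by
    unfold Xf
    nlinarith [hy.1, hy.2]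
  have hint : ∫ ϑ in (0 : ℝ)..Real.arccos y, F (Real.cos ϑ)
      = Real.sin (Real.arccos y) ^ (2 * k + 1) * H (Real.cos (Real.arccos y))
        - Real.sin 0 ^ (2 * k + 1) * H (Real.cos 0) :=
    intervalIntegral.integral_eq_sub_of_hasDerivAt (fun ϑ _ => w6_hasDerivAt hH k ϑ)
      (hFc.intervalIntegrable _ _)
  have hG : Real.sin (Real.arccos y) ^ (2 * k + 1) * H (Real.cos (Real.arccos y))
      = Real.sqrt (Xf y) * Xf y ^ k * H y := by
    rw [Real.cos_arccos hy.1 hy.2, Real.sin_arccos]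
    have : Real.sqrt (1 - y ^ 2) ^ (2 * k + 1) = Real.sqrt (Xf y) * Xf y ^ k := by
      show Real.sqrt (Xf y) ^ (2 * k + 1) = _
      rw [pow_succ, pow_mul, Real.sq_sqrt hX0]
      ring
    rw [this]
  rw [hG, Real.sin_zero, zero_pow (by omega), zero_mul, sub_zero] at hint
  rw [← hint]
  have habs : ∀ ϑ, |F (Real.cos ϑ)|
      = Xf (Real.cos ϑ) ^ k * |(2 * k + 1) * Real.cos ϑ * H (Real.cos ϑ) + tt H (Real.cos ϑ)| := by
    intro ϑ
    have hXc : 0 ≤ Xf (Real.cos ϑ) := by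
      have := Real.sin_sq_add_cos_sq ϑ
      unfold Xf
      nlinarith [sq_nonneg (Real.sin ϑ)]
    rw [hF]
    simp only
    rw [abs_mul, abs_of_nonneg (pow_nonneg hXc k)]
  calc |∫ ϑ in (0 : ℝ)..Real.arccos y, F (Real.cos ϑ)|
      ≤ ∫ ϑ in (0 : ℝ)..Real.arccos y, |F (Real.cos ϑ)| :=
        intervalIntegral.abs_integral_le_integral_abs h0
    _ ≤ ∫ ϑ in (0 : ℝ)..Real.pi, |F (Real.cos ϑ)| := by
        refine intervalIntegral.integral_mono_interval le_rfl h0 hpi ?_ (hFc.abs.intervalIntegrable _ _)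
        exact Filter.Eventually.of_forall (fun ϑ => abs_nonneg _)
    _ = II (fun z => Xf z ^ k * |(2 * k + 1) * z * H z + tt H z|) := by
        unfold II
        exact intervalIntegral.integral_congr (fun ϑ _ => habs ϑ)

/-- **W6.** -/
theorem w6_trace (hom : SmI om) (hf : SmI f) (h0 : ∀ y ∈ Icc (-1 : ℝ) 1, 0 ≤ om y)
    (h1 : ∀ y ∈ Icc (-1 : ℝ) 1, |tt om y| ≤ C₀ * om y) (k : ℕ) (hy : y ∈ Icc (-1 : ℝ) 1) :
    Real.sqrt (Xf y) * Xf y ^ k * (om y * f y ^ 2)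
      ≤ (C₀ + 2 * k + 2) * II (fun z => Xf z ^ k * om z * (f z ^ 2 + tt f z ^ 2)) := by
  have hHs : SmI (fun z => om z * f z ^ 2) := hom.mul (hf.pow 2)
  have h2 := w6_trace0 hHs k hy
  have h3 : Real.sqrt (Xf y) * Xf y ^ k * (om y * f y ^ 2)
      ≤ |Real.sqrt (Xf y) * Xf y ^ k * (om y * f y ^ 2)| := le_abs_self _
  refine h3.trans (h2.trans ?_)
  rw [← ii_const_mul]
  have hc1 : CI (fun z => Xf z ^ k * |(2 * k + 1) * z * (om z * f z ^ 2) + tt (fun z => om z * f z ^ 2) z|) :=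
    (smI_Xf.pow k).continuousOn.mul
      ((((smI_const (2 * (k : ℝ) + 1)).mul smI_id).mul hHs).add hHs.tt).continuousOn.abs
  have hc2 : CI (fun z => (C₀ + 2 * k + 2) * (Xf z ^ k * om z * (f z ^ 2 + tt f z ^ 2))) :=
    ((smI_const (C₀ + 2 * k + 2)).mul
      (((smI_Xf.pow k).mul hom).mul ((hf.pow 2).add (hf.tt.pow 2)))).continuousOn
  refine ii_mono hc1 hc2 (fun z hz => ?_)
  have hX0 : 0 ≤ Xf z := by
    unfold Xf
    nlinarith [hz.1, hz.2]
  have hXk : 0 ≤ Xf z ^ k := pow_nonneg hX0 k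
  have htt : tt (fun z => om z * f z ^ 2) z = tt om z * f z ^ 2 + om z * (2 * f z * tt f z) := by
    rw [tt_mul (hom.differentiableAt hz) ((hf.pow 2).differentiableAt hz), tt_pow (hf.differentiableAt hz)]
    push_cast
    ring
  rw [htt]
  have hom0 := h0 z hz
  have hto := h1 z hz
  have hk0 : (0 : ℝ) ≤ k := Nat.cast_nonneg k
  have hmain : |(2 * k + 1) * z * (om z * f z ^ 2) + (tt om z * f z ^ 2 + om z * (2 * f z * tt f z))|
      ≤ (C₀ + 2 * k + 2) * (om z * (f z ^ 2 + tt f z ^ 2)) := by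
    rcases eq_or_lt_of_le hom0 with hz0 | hpos
    · rw [← hz0] at hto ⊢
      have : tt om z = 0 := by
        rw [mul_zero] at hto
        exact abs_nonpos_iff.mp hto
      rw [this]
      simp
    · have hC : 0 ≤ C₀ := by
        by_contra hneg
        push Not at hneg
        have : C₀ * om z < 0 := mul_neg_of_neg_of_pos hneg hpos
        linarith [abs_nonneg (tt om z)]
      have hf2 : 0 ≤ f z ^ 2 := sq_nonneg _
      have ht2 : 0 ≤ tt f z ^ 2 := sq_nonneg _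
      have a1 : |(2 * k + 1) * z * (om z * f z ^ 2)| ≤ (2 * k + 1) * (om z * f z ^ 2) := by
        rw [abs_mul, abs_mul, abs_of_nonneg (by positivity : (0 : ℝ) ≤ 2 * k + 1),
          abs_of_nonneg (mul_nonneg hom0 hf2)]
        have hz1 : |z| ≤ 1 := abs_le.mpr hz
        have : (2 * (k : ℝ) + 1) * |z| ≤ (2 * k + 1) * 1 :=
          mul_le_mul_of_nonneg_left hz1 (by positivity)
        calc (2 * (k : ℝ) + 1) * |z| * (om z * f z ^ 2) ≤ (2 * k + 1) * 1 * (om z * f z ^ 2) :=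
              mul_le_mul_of_nonneg_right this (mul_nonneg hom0 hf2)
          _ = (2 * k + 1) * (om z * f z ^ 2) := by ring
      have a2 : |tt om z * f z ^ 2| ≤ C₀ * om z * f z ^ 2 := by
        rw [abs_mul, abs_of_nonneg hf2]
        exact mul_le_mul_of_nonneg_right hto hf2
      have a3 : |om z * (2 * f z * tt f z)| ≤ om z * (f z ^ 2 + tt f z ^ 2) := by
        rw [abs_mul, abs_of_nonneg hom0]
        refine mul_le_mul_of_nonneg_left ?_ hom0
        rw [abs_le]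
        constructor
        · nlinarith [sq_nonneg (f z + tt f z)]
        · nlinarith [sq_nonneg (f z - tt f z)]
      have a4 := abs_add_le ((2 * k + 1) * z * (om z * f z ^ 2)) (tt om z * f z ^ 2 + om z * (2 * f z * tt f z))
      have a5 := abs_add_le (tt om z * f z ^ 2) (om z * (2 * f z * tt f z))
      have a6 : 0 ≤ (C₀ + 2 * k + 1) * (om z * tt f z ^ 2) :=
        mul_nonneg (by positivity) (mul_nonneg hom0 ht2)
      nlinarith
  calc Xf z ^ k * |(2 * k + 1) * z * (om z * f z ^ 2) + (tt om z * f z ^ 2 + om z * (2 * f z * tt f z))|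
      ≤ Xf z ^ k * ((C₀ + 2 * k + 2) * (om z * (f z ^ 2 + tt f z ^ 2))) :=
        mul_le_mul_of_nonneg_left hmain hXk
    _ = (C₀ + 2 * k + 2) * (Xf z ^ k * om z * (f z ^ 2 + tt f z ^ 2)) := by ring

end

end Claimed.Agent.R324.Core
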