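/-
Row 324 (S0582), PDE core, module W (architect helper427; W0, WC, W1, W2: helper217).   Blueprint 7.3 (origin/helper232:docs/R324_blueprint.md).   FILE SupA
   Λ = -t,  X = Xf y = 1 - y²,  X̃ = Xt y,  ℓ² = ell2 q t = (q-1)/100 Λ^(2γ),  γ = gaF q = 8/bAl q,  2 < bAl q < 3 (`bAl_bounds`, q ≥ 100),  r̂² = rh2 = ℓ² + X̃,  Θ = Th = Λ + X̃   (Core/Defs.lean).
   tt f = -X f',  ttp f = tt f + y f;   pointwise rules and the class `SmI` (smooth near [-1,1]): Core/W/TtCalc.lean.     𝕀 = II: Core/W/Ibp.lean.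
W7 (SUP), preliminaries: the context `WCtx`;  bounds of zzF and quadM;  the gradient bound from the form identity.
* `w1_ttp_ttp`:  ttp F = tt F + y F;   ttp(ttp F) = tt²F + tt(y F) + y tt F + y² F,   tt(y F) = -X F + y tt F  (`tt_add`, `tt_mul`, `tt_id`; SmI).
* `w1_zzF_bd`:  F = om Z:  tt F = tt om Z + om tt Z,   tt² F = tt²om Z + 2 tt om tt Z + om tt²Z (`tt_tt_mul`, Core/W/TBa.lean);   |Z|, |tt Z|, |tt²Z|, |b̂|, |tt b̂| ≤ C (`hc.Z.b00/b01/b02`, `hc.bh.b00/b01`; Z(t,·) = sl g.Z t);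
      |ttp ttp F| ≤ (5C₁+4) C B,   |ttp(om b̂)| ≤ (C₁+2) C B,   zzF = ½ ttp ttp (om Z) - ½ ttp (om b̂).     (|y| ≤ 1, |y² - X| ≤ 1.)
* `w1_quadM_bd`:  `bilM_self`, `bilM_abs_le` with ξ = η, `Real.mul_self_sqrt`.
* `w7_grad`:  `w1_form_id`:   𝕀[om Z n2t] = -𝕀[X om ⟨u,v⟩] + 𝕀[zzF n2] + 𝕀[om quadM];    om n2t ≤ C om Z n2t (1/C ≤ Z);   |zzF| ≤ 3(C₁+1) C om;   |quadM| ≤ 36(q+1) C n2 (`n2_eq_nk`).     `ii_mono`, `ii_abs_le`.
-/
import Claimed.Agent.R324.Core.W.FormBd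
import Claimed.Agent.R324.Core.W.JetF
import Claimed.Agent.R324.Core.W.Trace

set_option autoImplicit false

namespace Claimed.Agent.R324.Core

open Set Filter Topology MeasureTheory
open scoped ContDiff

noncomputable section

/-- the standing assumptions of W7. -/
structure WCtx (q : ℝ) (g : Bg) (Λ₀ C : ℝ) : Prop where
  hq : 1000 ≤ q
  sm : BgSm g
  hC : 1 ≤ C
  co : CoefB q g Λ₀ C
  pos : 0 < Λ₀
  hΛ : Λ₀ * q ≤ 1 / 2

/-- `𝒩² = E_{V0}(U) + E_{V1}(L U)`. -/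
def supN (q : ℝ) (g : Bg) (M : ℕ) (Γ : ℝ) (U : Tri) (t : ℝ) : ℝ :=
  En q (wL 2 M q Γ t) (slT U t) + En q (wL 4 M q Γ t) (slT (Lop q g U) t)

/-- hygiene. -/
theorem core_w_supa_hygiene : True := by
  have := @supN.eq_1
  trivial

variable {q Λ₀ C C₁ B Γ t y : ℝ} {g : Bg} {om F : ℝ → ℝ} {U : Tri} {M : ℕ}

theorem WCtx.t100 (h : WCtx q g Λ₀ C) (ht : t ∈ Ico (-Λ₀) 0) : -t ≤ 100 / q := by
  have hq0 : 0 < q := by linarith [h.hq]
  rw [le_div_iff₀ hq0]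
  have h1 : -t ≤ Λ₀ := by linarith [ht.1]
  have h2 : -t * q ≤ Λ₀ * q := mul_le_mul_of_nonneg_right h1 hq0.le
  linarith [h.hΛ]

theorem WCtx.t1 (h : WCtx q g Λ₀ C) (ht : t ∈ Ico (-Λ₀) 0) : -1 ≤ t := by
  have h1 : -t ≤ Λ₀ := by linarith [ht.1]
  have h2 : Λ₀ * 1000 ≤ Λ₀ * q := mul_le_mul_of_nonneg_left h.hq h.pos.le
  linarith [h.hΛ]

theorem WCtx.t30 (h : WCtx q g Λ₀ C) (ht : t ∈ Ico (-Λ₀) 0) (hM : M ≤ 52) : ((M : ℝ) + 1) * q * (-t) ≤ 30 := by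
  have hq0 : 0 < q := by linarith [h.hq]
  have h1 : -t ≤ Λ₀ := by linarith [ht.1]
  have h0 : 0 ≤ -t := by linarith [ht.2]
  have h2 : q * (-t) ≤ 1 / 2 := by
    have := mul_le_mul_of_nonneg_left h1 hq0.le
    linarith [h.hΛ]
  have h3 : 0 ≤ q * (-t) := mul_nonneg hq0.le h0
  have hM' : (M : ℝ) ≤ 52 := by exact_mod_cast hM
  have hM0 : (0 : ℝ) ≤ (M : ℝ) := Nat.cast_nonneg M
  calc ((M : ℝ) + 1) * q * (-t) = ((M : ℝ) + 1) * (q * (-t)) := by ring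
    _ ≤ 53 * (1 / 2) := mul_le_mul (by linarith) h2 h3 (by norm_num)
    _ ≤ 30 := by norm_num

theorem WCtx.le100 (h : WCtx q g Λ₀ C) : Λ₀ ≤ 100 / q := by
  have hq0 : 0 < q := by linarith [h.hq]
  rw [le_div_iff₀ hq0]
  linarith [h.hΛ]

/-- the context for the reference background. -/
theorem wctx_R (hq : 1000 ≤ q) (hg : BgGood q g) : ∃ Λ₀ C : ℝ, WCtx q (bgR q g) Λ₀ C := by
  have hq0 : 0 < q := by linarith
  obtain ⟨Λ₀, C, h0, -, hC, hc⟩ := wc_coefB_R (by linarith : (100 : ℝ) ≤ q) hg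
  refine ⟨min Λ₀ (1 / (2 * q)), C, hq, bgR_sm (by linarith) hg.sm, hC, hc.mono_Lam (min_le_left _ _),
    lt_min h0 (by positivity), ?_⟩
  have h1 : min Λ₀ (1 / (2 * q)) * q ≤ 1 / (2 * q) * q :=
    mul_le_mul_of_nonneg_right (min_le_right _ _) hq0.le
  have h2 : 1 / (2 * q) * q = 1 / 2 := by field_simp
  linarith

theorem w7_En_nonneg (hq : 0 < q) {V : ℝ → ℝ} (h0 : ∀ y ∈ Icc (-1 : ℝ) 1, 0 ≤ V y) (u : Fin 3 → ℝ → ℝ) : 0 ≤ En q V u := by
  unfold En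
  apply ii_nonneg
  intro y hy
  have hX : 0 ≤ 1 - y ^ 2 := by
    have h1 := hy.1
    have h2 := hy.2
    nlinarith
  have hn : 0 ≤ n2 q u y := by
    unfold n2
    have : 0 ≤ q / (q + 1) := by positivity
    positivity
  exact mul_nonneg (mul_nonneg hX (h0 y hy)) hn

theorem w1_ttp_ttp (hF : SmI F) (hy : y ∈ Icc (-1 : ℝ) 1) :
    ttp (ttp F) y = tt (tt F) y + 2 * y * tt F y + (y ^ 2 - Xf y) * F y := by
  have e : ttp F = fun z => tt F z + z * F z := rfl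
  rw [ttp_apply, e, tt_add (hF.tt.differentiableAt hy) ((smI_id.mul hF).differentiableAt hy),
    tt_mul (smI_id.differentiableAt hy) (hF.differentiableAt hy), tt_id]
  ring

theorem w1_zzF_bd (hs : BgSm g) (hc : CoefB q g Λ₀ C) (ht : t ∈ Ico (-Λ₀) 0) (hy : y ∈ Icc (-1 : ℝ) 1) (hom : SmI om)
    (hC₁ : 0 ≤ C₁) (h0 : |om y| ≤ B) (h1 : |tt om y| ≤ C₁ * B) (h2 : |tt (tt om) y| ≤ C₁ * B) :
    |zzF q g om t y| ≤ 3 * (C₁ + 1) * C * B := by
  have ht0 : t < 0 := ht.2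
  have hZs : SmI (sl g.Z t) := hs.smZ.smI ht0
  have hbs : SmI (sl (g.bh q) t) := (hs.smbh q).smI ht0
  have z0 : |sl g.Z t y| ≤ C := by simpa [sl] using hc.Z.b00 ht hy
  have z1 : |tt (sl g.Z t) y| ≤ C := by simpa using hc.Z.b01 ht hy
  have z2 : |tt (tt (sl g.Z t)) y| ≤ C := by simpa using hc.Z.b02 ht hy
  have b0 : |sl (g.bh q) t y| ≤ C := by simpa [sl] using hc.bh.b00 ht hy
  have b1 : |tt (sl (g.bh q) t) y| ≤ C := by simpa using hc.bh.b01 ht hy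
  have hB : 0 ≤ B := (abs_nonneg _).trans h0
  have hC0 : 0 ≤ C := (abs_nonneg _).trans z0
  have hCB : 0 ≤ C₁ * B := mul_nonneg hC₁ hB
  have hy1 : |y| ≤ 1 := abs_le.mpr hy
  have hyX : |y ^ 2 - Xf y| ≤ 1 := by
    unfold Xf
    rw [abs_le]
    have h1 := hy.1
    have h2 := hy.2
    constructor <;> nlinarith
  have e1 : zzF q g om t y = 1 / 2 * ttp (ttp (fun z => om z * sl g.Z t z)) y
      - 1 / 2 * ttp (fun z => om z * sl (g.bh q) t z) y := rfl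
  have pr : ∀ {a b A' B' : ℝ}, |a| ≤ A' → |b| ≤ B' → 0 ≤ A' → |a * b| ≤ A' * B' := by
    intro a b A' B' ha hb hA
    rw [abs_mul]
    exact mul_le_mul ha hb (abs_nonneg _) hA
  -- the first term
  have f0 : |om y * sl g.Z t y| ≤ B * C := pr h0 z0 hB
  have f1 : |tt (fun z => om z * sl g.Z t z) y| ≤ (C₁ + 1) * (B * C) := by
    rw [tt_mul (hom.differentiableAt hy) (hZs.differentiableAt hy)]
    have a1 := pr h1 z0 hCB
    have a2 := pr h0 z1 hB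
    calc _ ≤ |tt om y * sl g.Z t y| + |om y * tt (sl g.Z t) y| := abs_add_le _ _
      _ ≤ C₁ * B * C + B * C := add_le_add a1 a2
      _ = _ := by ring
  have f2 : |tt (tt (fun z => om z * sl g.Z t z)) y| ≤ (3 * C₁ + 1) * (B * C) := by
    rw [tt_tt_mul hom hZs hy]
    have a1 := pr h2 z0 hCB
    have a2 := pr h1 z1 hCB
    have a3 := pr h0 z2 hB
    have a2' : |2 * tt om y * tt (sl g.Z t) y| ≤ 2 * (C₁ * B * C) := by
      have : 2 * tt om y * tt (sl g.Z t) y = 2 * (tt om y * tt (sl g.Z t) y) := by ring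
      rw [this, abs_mul, abs_two]
      linarith
    calc _ ≤ |tt (tt om) y * sl g.Z t y + 2 * tt om y * tt (sl g.Z t) y| + |om y * tt (tt (sl g.Z t)) y| :=
          abs_add_le _ _
      _ ≤ |tt (tt om) y * sl g.Z t y| + |2 * tt om y * tt (sl g.Z t) y| + |om y * tt (tt (sl g.Z t)) y| :=
          add_le_add (abs_add_le _ _) le_rfl
      _ ≤ C₁ * B * C + 2 * (C₁ * B * C) + B * C := add_le_add (add_le_add a1 a2') a3
      _ = _ := by ring
  have hBC : 0 ≤ B * C := mul_nonneg hB hC0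
  have g1 : |ttp (ttp (fun z => om z * sl g.Z t z)) y| ≤ (5 * C₁ + 4) * (B * C) := by
    rw [w1_ttp_ttp (hom.mul hZs) hy]
    have a2 : |2 * y * tt (fun z => om z * sl g.Z t z) y| ≤ 2 * ((C₁ + 1) * (B * C)) := by
      have : 2 * y * tt (fun z => om z * sl g.Z t z) y = 2 * (y * tt (fun z => om z * sl g.Z t z) y) := by ring
      rw [this, abs_mul, abs_two]
      have := pr hy1 f1 zero_le_one
      linarith
    have a3 : |(y ^ 2 - Xf y) * (om y * sl g.Z t y)| ≤ 1 * (B * C) := pr hyX f0 zero_le_one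
    calc _ ≤ |tt (tt (fun z => om z * sl g.Z t z)) y + 2 * y * tt (fun z => om z * sl g.Z t z) y|
            + |(y ^ 2 - Xf y) * (om y * sl g.Z t y)| := abs_add_le _ _
      _ ≤ |tt (tt (fun z => om z * sl g.Z t z)) y| + |2 * y * tt (fun z => om z * sl g.Z t z) y|
            + |(y ^ 2 - Xf y) * (om y * sl g.Z t y)| := add_le_add (abs_add_le _ _) le_rfl
      _ ≤ (3 * C₁ + 1) * (B * C) + 2 * ((C₁ + 1) * (B * C)) + 1 * (B * C) := add_le_add (add_le_add f2 a2) a3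
      _ = _ := by ring
  -- the second term
  have g2 : |ttp (fun z => om z * sl (g.bh q) t z) y| ≤ (C₁ + 2) * (B * C) := by
    rw [ttp_apply, tt_mul (hom.differentiableAt hy) (hbs.differentiableAt hy)]
    have a1 := pr h1 b0 hCB
    have a2 := pr h0 b1 hB
    have a3 : |y * (om y * sl (g.bh q) t y)| ≤ 1 * (B * C) := pr hy1 (pr h0 b0 hB) zero_le_one
    calc _ ≤ |tt om y * sl (g.bh q) t y + om y * tt (sl (g.bh q) t) y| + |y * (om y * sl (g.bh q) t y)| :=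
          abs_add_le _ _
      _ ≤ |tt om y * sl (g.bh q) t y| + |om y * tt (sl (g.bh q) t) y| + |y * (om y * sl (g.bh q) t y)| :=
          add_le_add (abs_add_le _ _) le_rfl
      _ ≤ C₁ * B * C + B * C + 1 * (B * C) := add_le_add (add_le_add a1 a2) a3
      _ = _ := by ring
  rw [e1]
  calc _ ≤ |1 / 2 * ttp (ttp (fun z => om z * sl g.Z t z)) y| + |1 / 2 * ttp (fun z => om z * sl (g.bh q) t z) y| :=
        abs_sub _ _
    _ = 1 / 2 * |ttp (ttp (fun z => om z * sl g.Z t z)) y| + 1 / 2 * |ttp (fun z => om z * sl (g.bh q) t z) y| := by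
        rw [abs_mul, abs_mul]; norm_num
    _ ≤ 1 / 2 * ((5 * C₁ + 4) * (B * C)) + 1 / 2 * ((C₁ + 2) * (B * C)) := by linarith
    _ = _ := by ring

theorem w1_quadM_bd (hq : 1 ≤ q) (hc : CoefB q g Λ₀ C) (ht : t ∈ Ico (-Λ₀) 0) (hy : y ∈ Icc (-1 : ℝ) 1)
    (ξ : Fin 3 → ℝ) : |quadM q g (t, y) ξ| ≤ 36 * (q + 1) * C * nk q ξ := by
  have hq0 : 0 < q := by linarith
  have hC : ∀ i j, |mF q g i j (t, y)| ≤ C := fun i j => by simpa using (hc.mF i j).b00 ht hy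
  have h := bilM_abs_le hq hC ξ ξ
  rw [bilM_self, Real.mul_self_sqrt (nk_nonneg hq0 ξ)] at h
  exact h

end

end Claimed.Agent.R324.Core
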