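/-
Row 324 (S0582), PDE core, module W (architect helper427; W0, WC, W1, W2: helper217).   Blueprint 7.3 (origin/helper232:docs/R324_blueprint.md).   FILE SupB
   Λ = -t,  X = Xf y = 1 - y²,  X̃ = Xt y,  ℓ² = ell2 q t = (q-1)/100 Λ^(2γ),  γ = gaF q = 8/bAl q,  2 < bAl q < 3 (`bAl_bounds`, q ≥ 100),  r̂² = rh2 = ℓ² + X̃,  Θ = Th = Λ + X̃   (Core/Defs.lean).
   tt f = -X f',  ttp f = tt f + y f;   pointwise rules and the class `SmI` (smooth near [-1,1]): Core/W/TtCalc.lean.     𝕀 = II: Core/W/Ibp.lean.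
W7 (SUP): the gradient bound from the form identity (also used by HI, H2).
      CONTEXT  `h : WCtx q g Λ₀ C` (Core/W/SupA.lean):  1000 ≤ q,  BgSm g,  1 ≤ C,  CoefB q g Λ₀ C,  0 < Λ₀,  Λ₀ q ≤ 1/2   (so -t ≤ 100/q, -t ≤ 1, (M+1) q (-t) ≤ 30 for M ≤ 52: `WCtx.t100`, `WCtx.t1`, `WCtx.t30`).
      u = slT U t,  v = slT (Lop q g U) t,  V0 = wL 2 M q Γ t,  V1 = wL 4 M q Γ t = r̂⁴ V0 (`w0_wL_add_two`),   supN q g M Γ U t = En q V0 u + En q V1 v =: 𝒩².     En q V u = 𝕀[(1-y²) V n2 q u],  Xf y = 1 - y² (unfold Xf).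
* `w7_grad`:  `w1_form_id` (Core/W/FormId2.lean):   𝕀[om Z n2t] = -𝕀[X om ⟨u,v⟩] + 𝕀[zzF n2] + 𝕀[om quadM];    om n2t ≤ C om Z n2t (1/C ≤ Z: `hc.Zlow`);   |zzF| ≤ 3(C₁+1) C om (`w1_zzF_bd` with B = om y);   |quadM| ≤ 36(q+1) C n2 (`w1_quadM_bd`, `n2_eq_nk`).     `ii_mono`, `ii_abs_le`, `ii_const_mul`.
      Continuity of y ↦ zzF q g om t y on [-1,1]:  zzF is ½ ttp ttp (om Z) - ½ ttp (om b̂), SmI by `SmI.ttp`, `SmI.mul`, `hs.smZ.smI`, `(hs.smbh q).smI`.     quadM: finite sum of products of SmI functions (`(hs.smmF q i j).smI`).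
* `w7_s1`:   om = X V0:  SmI, ≥ 0,  |tt om| ≤ (C_V+2) om,  |tt² om| ≤ (5C_V+6) om  (`TB.X_mul`, `w0_tb_wL 2 M`).    `w7_grad` with C₁ = 5 C_V + 6.      𝕀[om n2] = En q V0 u.
      |𝕀[X·X V0 ⟨u,v⟩]| ≤ (4/3) √(En V0 u) √(En V1 v) ≤ (2/3) 𝒩²:   `w2_cs_gen` (Core/W/FormBdA.lean) with V := X V0, V' := X V1, A := n2 u, B := n2 v, K = 4/3:   √(X V0 · X V1) = X V0 r̂² (V1 = r̂⁴ V0),  X ≤ (4/3) r̂² (`w0_Xf_le_rh2`), `ipK_abs_le`, `n2_eq_nk`.
-/
import Claimed.Agent.R324.Core.W.SupA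

set_option autoImplicit false

namespace Claimed.Agent.R324.Core

open Set Filter Topology MeasureTheory
open scoped ContDiff

noncomputable section

variable {q Λ₀ C C₁ Γ t y : ℝ} {g : Bg} {om : ℝ → ℝ} {U : Tri}

/-- the gradient bound. -/
theorem w7_grad (hq : 1 ≤ q) (hs : BgSm g) (hC : 0 < C) (hc : CoefB q g Λ₀ C) (ht : t ∈ Ico (-Λ₀) 0) (hom : SmI om)
    (hC₁ : 0 ≤ C₁) (h0 : ∀ y ∈ Icc (-1 : ℝ) 1, 0 ≤ om y) (h1 : ∀ y ∈ Icc (-1 : ℝ) 1, |tt om y| ≤ C₁ * om y)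
    (h2 : ∀ y ∈ Icc (-1 : ℝ) 1, |tt (tt om) y| ≤ C₁ * om y) (hU : ∀ j, Sm (U j)) :
    II (fun y => om y * n2t q (slT U t) y)
      ≤ C * (|II (fun y => Xf y * om y * ipK q (fun i => uV (slT U t) i y) (fun i => uV (slT (Lop q g U) t) i y))|
        + (3 * (C₁ + 1) * C + 36 * (q + 1) * C) * II (fun y => om y * n2 q (slT U t) y)) := by
  have hq0 : 0 < q := by linarith
  have ht0 : t < 0 := ht.2
  have hk : ∀ j, SmI (slT U t j) := smI_slT hU ht0
  have hu : ∀ i, SmI (uV (slT U t) i) := smI_uV hk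
  have hZs : SmI (fun y => g.Z (t, y)) := hs.smZ.smI ht0
  have hA : SmI (fun z => om z * g.bh q (t, z)) := hom.mul ((hs.smbh q).smI ht0)
  have hB : SmI (fun z => om z * g.Z (t, z)) := hom.mul hZs
  have hzz : SmI (zzF q g om t) := (hB.ttp.ttp.const_mul (1 / 2)).sub (hA.ttp.const_mul (1 / 2))
  have hM : ∀ i j, SmI (fun y => mF q g i j (t, y)) := fun i j => (hs.smmF q i j).smI ht0
  have hQ : SmI (fun y => om y * quadM q g (t, y) (fun i => uV (slT U t) i y)) := by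
    unfold quadM
    exact hom.mul (smI_sum _ (fun i _ => smI_sum _ (fun j _ =>
      (((smI_const _).mul (hM i j)).mul (hu i)).mul (hu j))))
  have cn2 : CI (n2 q (slT U t)) := ci_n2 hk
  have cn2t : CI (n2t q (slT U t)) := ci_n2t hk
  have cN : CI (fun y => om y * n2 q (slT U t) y) := hom.continuousOn.mul cn2
  have hid := w1_form_id (U := U) q hs hU ht0 hom
  -- the two error terms
  have b1 : |II (fun y => zzF q g om t y * n2 q (slT U t) y)|
      ≤ 3 * (C₁ + 1) * C * II (fun y => om y * n2 q (slT U t) y) := by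
    refine (ii_abs_le _).trans ?_
    rw [← ii_const_mul]
    refine ii_mono (hzz.continuousOn.mul cn2).abs (continuousOn_const.mul cN) (fun y hy => ?_)
    have h3 := w1_zzF_bd (B := om y) hs hc ht hy hom hC₁ (by rw [abs_of_nonneg (h0 y hy)])
      (h1 y hy) (h2 y hy)
    rw [abs_mul, abs_of_nonneg (n2_nonneg hq0 _ y)]
    calc |zzF q g om t y| * n2 q (slT U t) y
        ≤ (3 * (C₁ + 1) * C * om y) * n2 q (slT U t) y :=
          mul_le_mul_of_nonneg_right h3 (n2_nonneg hq0 _ y)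
      _ = 3 * (C₁ + 1) * C * (om y * n2 q (slT U t) y) := by ring
  have b2 : |II (fun y => om y * quadM q g (t, y) (fun i => uV (slT U t) i y))|
      ≤ 36 * (q + 1) * C * II (fun y => om y * n2 q (slT U t) y) := by
    refine (ii_abs_le _).trans ?_
    rw [← ii_const_mul]
    refine ii_mono hQ.continuousOn.abs (continuousOn_const.mul cN) (fun y hy => ?_)
    have h3 := w1_quadM_bd hq hc ht hy (fun i => uV (slT U t) i y)
    rw [← n2_eq_nk] at h3
    rw [abs_mul, abs_of_nonneg (h0 y hy)]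
    calc om y * |quadM q g (t, y) (fun i => uV (slT U t) i y)|
        ≤ om y * (36 * (q + 1) * C * n2 q (slT U t) y) := mul_le_mul_of_nonneg_left h3 (h0 y hy)
      _ = 36 * (q + 1) * C * (om y * n2 q (slT U t) y) := by ring
  -- the main term
  have b3 : II (fun y => om y * n2t q (slT U t) y)
      ≤ C * II (fun y => om y * g.Z (t, y) * n2t q (slT U t) y) := by
    rw [← ii_const_mul]
    refine ii_mono (hom.continuousOn.mul cn2t) (continuousOn_const.mul (hB.continuousOn.mul cn2t))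
      (fun y hy => ?_)
    have hz := hc.Zlow t ht y hy
    have hz1 : 1 ≤ C * g.Z (t, y) := by
      have := mul_le_mul_of_nonneg_left hz hC.le
      rwa [mul_one_div_cancel hC.ne'] at this
    have hp : 0 ≤ om y * n2t q (slT U t) y := mul_nonneg (h0 y hy) (n2t_nonneg hq0 _ y)
    calc om y * n2t q (slT U t) y = 1 * (om y * n2t q (slT U t) y) := by ring
      _ ≤ (C * g.Z (t, y)) * (om y * n2t q (slT U t) y) := mul_le_mul_of_nonneg_right hz1 hp
      _ = C * (om y * g.Z (t, y) * n2t q (slT U t) y) := by ring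
  refine b3.trans (mul_le_mul_of_nonneg_left ?_ hC.le)
  have a1 := neg_abs_le (II (fun y => Xf y * om y * ipK q (fun i => uV (slT U t) i y)
    (fun i => uV (slT (Lop q g U) t) i y)))
  have a2 := le_abs_self (II (fun y => zzF q g om t y * n2 q (slT U t) y))
  have a3 := le_abs_self (II (fun y => om y * quadM q g (t, y) (fun i => uV (slT U t) i y)))
  linarith

/-- S1. -/
theorem w7_s1 (h : WCtx q g Λ₀ C) (M : ℕ) : ∃ K : ℝ, 0 ≤ K ∧ ∀ Γ : ℝ, 0 ≤ Γ → ∀ t ∈ Ico (-Λ₀) 0, ∀ U : Tri,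
    (∀ j, Sm (U j)) → II (fun y => Xf y * wL 2 M q Γ t y * n2t q (slT U t) y) ≤ K * supN q g M Γ U t := by
  obtain ⟨CV, hCV0, hTB⟩ := w0_tb_wL 2 M
  obtain ⟨CV4, _, hTB4⟩ := w0_tb_wL 4 M
  have hq := h.hq
  have hq1 : 1 < q := by linarith
  have hq0 : 0 < q := by linarith
  have hC0 : 0 < C := by linarith [h.hC]
  have hE0 : 0 ≤ 3 * ((5 * CV + 6) + 1) * C + 36 * (q + 1) * C := by positivity
  refine ⟨C * (2 / 3 + (3 * ((5 * CV + 6) + 1) * C + 36 * (q + 1) * C)), by positivity, ?_⟩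
  intro Γ hΓ t ht U hU
  have ht0 : t < 0 := ht.2
  have tb := hTB q Γ t hq1 hΓ ht0
  have tb4 := hTB4 q Γ t hq1 hΓ ht0
  have hX0 : ∀ y ∈ Icc (-1 : ℝ) 1, 0 ≤ Xf y := by
    intro y hy
    unfold Xf
    nlinarith [hy.1, hy.2]
  have hom : SmI (fun y => Xf y * wL 2 M q Γ t y) := smI_Xf.mul tb.sm
  have hom4 : SmI (fun y => Xf y * wL 4 M q Γ t y) := smI_Xf.mul tb4.sm
  have h0 : ∀ y ∈ Icc (-1 : ℝ) 1, 0 ≤ Xf y * wL 2 M q Γ t y :=
    fun y hy => mul_nonneg (hX0 y hy) (tb.pos y hy).le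
  have h04 : ∀ y ∈ Icc (-1 : ℝ) 1, 0 ≤ Xf y * wL 4 M q Γ t y :=
    fun y hy => mul_nonneg (hX0 y hy) (tb4.pos y hy).le
  have h1 : ∀ y ∈ Icc (-1 : ℝ) 1, |tt (fun y => Xf y * wL 2 M q Γ t y) y|
      ≤ (5 * CV + 6) * (Xf y * wL 2 M q Γ t y) := by
    intro y hy
    refine (tb.X_mul y hy).1.trans (mul_le_mul_of_nonneg_right (by linarith) (h0 y hy))
  have h2 : ∀ y ∈ Icc (-1 : ℝ) 1, |tt (tt (fun y => Xf y * wL 2 M q Γ t y)) y|
      ≤ (5 * CV + 6) * (Xf y * wL 2 M q Γ t y) := fun y hy => (tb.X_mul y hy).2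
  have hg := w7_grad (q := q) (g := g) (Λ₀ := Λ₀) (C := C) (C₁ := 5 * CV + 6) (t := t) (U := U)
    (om := fun y => Xf y * wL 2 M q Γ t y) (by linarith) h.sm hC0 h.co ht hom (by positivity) h0 h1 h2 hU
  have hk : ∀ j, SmI (slT U t j) := smI_slT hU ht0
  have hkL : ∀ j, SmI (slT (Lop q g U) t j) := smI_slT (sm_Lop q h.sm hU) ht0
  have hu : ∀ i, SmI (uV (slT U t) i) := smI_uV hk
  have huL : ∀ i, SmI (uV (slT (Lop q g U) t) i) := smI_uV hkL
  have eE0 : II (fun y => Xf y * wL 2 M q Γ t y * n2 q (slT U t) y)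
      = En q (wL 2 M q Γ t) (slT U t) := rfl
  have eE1 : II (fun y => Xf y * wL 4 M q Γ t y * n2 q (slT (Lop q g U) t) y)
      = En q (wL 4 M q Γ t) (slT (Lop q g U) t) := rfl
  have hE0n : 0 ≤ En q (wL 2 M q Γ t) (slT U t) := by
    rw [← eE0]
    exact ii_nonneg fun y hy => mul_nonneg (h0 y hy) (n2_nonneg hq0 _ y)
  have hE1n : 0 ≤ En q (wL 4 M q Γ t) (slT (Lop q g U) t) := by
    rw [← eE1]
    exact ii_nonneg fun y hy => mul_nonneg (h04 y hy) (n2_nonneg hq0 _ y)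
  have hG : SmI (fun y => Xf y * (Xf y * wL 2 M q Γ t y) * ipK q (fun i => uV (slT U t) i y)
      (fun i => uV (slT (Lop q g U) t) i y)) := by
    unfold ipK
    exact (smI_Xf.mul hom).mul (smI_sum _ (fun i _ => ((smI_const _).mul (hu i)).mul (huL i)))
  have hcs := w2_cs_gen (K := 4 / 3) (V := fun y => Xf y * wL 2 M q Γ t y)
    (V' := fun y => Xf y * wL 4 M q Γ t y) (A := n2 q (slT U t)) (B := n2 q (slT (Lop q g U) t))
    hG.continuousOn hom.continuousOn hom4.continuousOn (ci_n2 hk) (ci_n2 hkL) (by norm_num) h0 h04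
    (fun y _ => n2_nonneg hq0 _ y) (fun y _ => n2_nonneg hq0 _ y) (by
      intro y hy
      have hr := w0_rh2_pos hq1 ht0 hy
      have hXr := w0_Xf_le_rh2 hq1 ht0 hy
      have hs : Real.sqrt (Xf y * wL 2 M q Γ t y * (Xf y * wL 4 M q Γ t y))
          = Xf y * wL 2 M q Γ t y * rh2 q t y := by
        rw [show wL 4 M q Γ t y = (rh2 q t y) ^ 2 * wL 2 M q Γ t y from w0_wL_add_two 2 M q Γ t y,
          show Xf y * wL 2 M q Γ t y * (Xf y * ((rh2 q t y) ^ 2 * wL 2 M q Γ t y))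
            = (Xf y * wL 2 M q Γ t y * rh2 q t y) ^ 2 by ring]
        exact Real.sqrt_sq (mul_nonneg (h0 y hy) hr.le)
      rw [hs, abs_mul, abs_of_nonneg (mul_nonneg (hX0 y hy) (h0 y hy)), n2_eq_nk, n2_eq_nk]
      have hip := ipK_abs_le hq0 (fun i => uV (slT U t) i y) (fun i => uV (slT (Lop q g U) t) i y)
      have hS0 : 0 ≤ Real.sqrt (nk q fun i => uV (slT U t) i y)
          * Real.sqrt (nk q fun i => uV (slT (Lop q g U) t) i y) :=
        mul_nonneg (Real.sqrt_nonneg _) (Real.sqrt_nonneg _)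
      calc Xf y * (Xf y * wL 2 M q Γ t y) * |ipK q (fun i => uV (slT U t) i y)
            (fun i => uV (slT (Lop q g U) t) i y)|
          ≤ Xf y * (Xf y * wL 2 M q Γ t y) * (Real.sqrt (nk q fun i => uV (slT U t) i y)
            * Real.sqrt (nk q fun i => uV (slT (Lop q g U) t) i y)) :=
            mul_le_mul_of_nonneg_left hip (mul_nonneg (hX0 y hy) (h0 y hy))
        _ ≤ (4 / 3 * rh2 q t y) * (Xf y * wL 2 M q Γ t y)
            * (Real.sqrt (nk q fun i => uV (slT U t) i y)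
            * Real.sqrt (nk q fun i => uV (slT (Lop q g U) t) i y)) :=
            mul_le_mul_of_nonneg_right (mul_le_mul_of_nonneg_right hXr (h0 y hy)) hS0
        _ = 4 / 3 * (Xf y * wL 2 M q Γ t y * rh2 q t y)
            * (Real.sqrt (nk q fun i => uV (slT U t) i y)
            * Real.sqrt (nk q fun i => uV (slT (Lop q g U) t) i y)) := by ring)
  rw [eE0, eE1] at hcs
  rw [eE0] at hg
  have ham : Real.sqrt (En q (wL 2 M q Γ t) (slT U t))
      * Real.sqrt (En q (wL 4 M q Γ t) (slT (Lop q g U) t))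
      ≤ (En q (wL 2 M q Γ t) (slT U t) + En q (wL 4 M q Γ t) (slT (Lop q g U) t)) / 2 := by
    have e1 := Real.sq_sqrt hE0n
    have e2 := Real.sq_sqrt hE1n
    nlinarith [sq_nonneg (Real.sqrt (En q (wL 2 M q Γ t) (slT U t))
      - Real.sqrt (En q (wL 4 M q Γ t) (slT (Lop q g U) t)))]
  have hlast : (3 * ((5 * CV + 6) + 1) * C + 36 * (q + 1) * C) * En q (wL 2 M q Γ t) (slT U t)
      ≤ (3 * ((5 * CV + 6) + 1) * C + 36 * (q + 1) * C)
        * (En q (wL 2 M q Γ t) (slT U t) + En q (wL 4 M q Γ t) (slT (Lop q g U) t)) :=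
    mul_le_mul_of_nonneg_left (by linarith) hE0
  have key : |II fun y => Xf y * (Xf y * wL 2 M q Γ t y) * ipK q (fun i => uV (slT U t) i y)
        fun i => uV (slT (Lop q g U) t) i y|
      + (3 * ((5 * CV + 6) + 1) * C + 36 * (q + 1) * C) * En q (wL 2 M q Γ t) (slT U t)
      ≤ (2 / 3 + (3 * ((5 * CV + 6) + 1) * C + 36 * (q + 1) * C))
        * (En q (wL 2 M q Γ t) (slT U t) + En q (wL 4 M q Γ t) (slT (Lop q g U) t)) := by
    linarith
  have key2 := mul_le_mul_of_nonneg_left key hC0.le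
  refine hg.trans (key2.trans (le_of_eq ?_))
  unfold supN
  ring

end

end Claimed.Agent.R324.Core
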