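/-
Row 324 (S0582), PDE core, module W (architect helper427; W0, WC, W1, W2: helper217).   Blueprint 7.3 (origin/helper232:docs/R324_blueprint.md).   FILE SupC
   Λ = -t,  X = Xf y = 1 - y²,  X̃ = Xt y,  ℓ² = ell2 q t = (q-1)/100 Λ^(2γ),  γ = gaF q = 8/bAl q,  2 < bAl q < 3 (`bAl_bounds`, q ≥ 100),  r̂² = rh2 = ℓ² + X̃,  Θ = Th = Λ + X̃   (Core/Defs.lean).
   tt f = -X f',  ttp f = tt f + y f;   pointwise rules and the class `SmI` (smooth near [-1,1]): Core/W/TtCalc.lean.     𝕀 = II: Core/W/Ibp.lean.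
W7 (SUP): S2 (jets), S3 (traces).
      CONTEXT  `h : WCtx q g Λ₀ C` (Core/W/SupA.lean):  1000 ≤ q,  BgSm g,  1 ≤ C,  CoefB q g Λ₀ C,  0 < Λ₀,  Λ₀ q ≤ 1/2   (so -t ≤ 100/q, -t ≤ 1, (M+1) q (-t) ≤ 30 for M ≤ 52: `WCtx.t100`, `WCtx.t1`, `WCtx.t30`).
      u = slT U t,  v = slT (Lop q g U) t,  V0 = wL 2 M q Γ t,  V1 = wL 4 M q Γ t = r̂⁴ V0 (`w0_wL_add_two`),   supN q g M Γ U t = En q V0 u + En q V1 v =: 𝒩².     En q V u = 𝕀[(1-y²) V n2 q u],  Xf y = 1 - y² (unfold Xf).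
* `w7_s2`:   `w5_EL` (Core/W/JetF.lean) with k = 1, V = V1 ∈ TBJ q t C_V (2(4+M+2)) (`w5_tbj_wL 4 M`, `h.t30`), 4 c₁ + 4 + 2 = 8M + 54 ≤ 470 ≤ q.     elR q g 1 V1 U t = En q V1 v + 𝕀[X V0 (n2t + n2)]  (V1/r̂⁴ = V0; `pow_one`)  ≤ (1 + K₁) 𝒩² (`w7_s1`).
* `w7_s3a`:  `w6_trace` (om := V0, f := uV u i, k := 1) for i = 0,1,2;  multiply by κ_i = kapJ q i > 0 and sum:  √X X V0 n2 ≤ (C_V + 4) 𝕀[X V0 (n2 + n2t)]  (`n2_eq_nk`, `n2t_eq_nk`, `nk`, `Fin.sum_univ_three`, `ii_add`, `ii_const_mul`);  `w7_s1`.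
* `w7_s3b`:  `w6_trace` (om := V0, f := tt (uV u i), k := 1);   `w3_tt2`:  (tt²u_i)² ≤ 3 C² (X² v_i² + C² (tt u_i)² + 3 C² Σ u_j²);    X² V0 ≤ (16/9) V1;    v_i², u_i², (tt u_i)² ≤ 2 n2(v), 2 n2(u), 2 n2t(u)  (κ_i ≥ 1/2).
* `w7_s3c`:  `w6_trace` (om := V1, f := ppS u p, k := 1), p : Fin 4;  sum:  √X X V1 pp2 ≤ (C_V' + 4) 𝕀[X V1 ppJ];  `w7_s2`.
-/
import Claimed.Agent.R324.Core.W.SupB

set_option autoImplicit false

namespace Claimed.Agent.R324.Core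

open Set Filter Topology MeasureTheory
open scoped ContDiff

noncomputable section

variable {q Λ₀ C : ℝ} {g : Bg}

/-- auxiliary: `𝕀[X V0 (n2t + n2)] ≤ K 𝒩²`, and the two energies are nonnegative. -/
theorem w7_supc_aux (h : WCtx q g Λ₀ C) (M : ℕ) : ∃ K : ℝ, 0 ≤ K ∧ ∀ Γ : ℝ, 0 ≤ Γ → ∀ t ∈ Ico (-Λ₀) 0, ∀ U : Tri,
    (∀ j, Sm (U j)) →
      II (fun y => Xf y * wL 2 M q Γ t y * (n2t q (slT U t) y + n2 q (slT U t) y)) ≤ K * supN q g M Γ U t ∧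
      0 ≤ En q (wL 2 M q Γ t) (slT U t) ∧ 0 ≤ En q (wL 4 M q Γ t) (slT (Lop q g U) t) := by
  obtain ⟨K1, hK1, hs1⟩ := w7_s1 h M
  obtain ⟨CV, hCV, htb⟩ := w0_tb_wL 2 M
  obtain ⟨CV4, hCV4, htb4⟩ := w0_tb_wL 4 M
  have hq1 : (1 : ℝ) < q := by linarith [h.hq]
  have hq0 : (0 : ℝ) < q := by linarith [h.hq]
  refine ⟨K1 + 1, by linarith, ?_⟩
  intro Γ hΓ t ht U hU
  have hV0 : TB CV (wL 2 M q Γ t) := htb q Γ t hq1 hΓ ht.2
  have hV1 : TB CV4 (wL 4 M q Γ t) := htb4 q Γ t hq1 hΓ ht.2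
  have hu : ∀ j, SmI (slT U t j) := smI_slT hU ht.2
  have hE0 : 0 ≤ En q (wL 2 M q Γ t) (slT U t) :=
    w7_En_nonneg hq0 (fun y hy => (hV0.pos y hy).le) _
  have hE1 : 0 ≤ En q (wL 4 M q Γ t) (slT (Lop q g U) t) :=
    w7_En_nonneg hq0 (fun y hy => (hV1.pos y hy).le) _
  refine ⟨?_, hE0, hE1⟩
  have c1 : CI (fun y => Xf y * wL 2 M q Γ t y * n2t q (slT U t) y) :=
    (smI_Xf.mul hV0.sm).continuousOn.mul (ci_n2t hu)
  have c2 : CI (fun y => Xf y * wL 2 M q Γ t y * n2 q (slT U t) y) :=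
    (smI_Xf.mul hV0.sm).continuousOn.mul (ci_n2 hu)
  have e1 : II (fun y => Xf y * wL 2 M q Γ t y * (n2t q (slT U t) y + n2 q (slT U t) y))
      = II (fun y => Xf y * wL 2 M q Γ t y * n2t q (slT U t) y)
        + II (fun y => Xf y * wL 2 M q Γ t y * n2 q (slT U t) y) := by
    rw [← ii_add c1 c2]
    exact ii_congr (fun y _ => by ring)
  have e2 : II (fun y => Xf y * wL 2 M q Γ t y * n2 q (slT U t) y) = En q (wL 2 M q Γ t) (slT U t) := rfl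
  have h1 := hs1 Γ hΓ t ht U hU
  rw [e1, e2]
  have e3 : supN q g M Γ U t
      = En q (wL 2 M q Γ t) (slT U t) + En q (wL 4 M q Γ t) (slT (Lop q g U) t) := rfl
  rw [e3] at h1 ⊢
  linarith

/-- S2. -/
theorem w7_s2 (h : WCtx q g Λ₀ C) (M : ℕ) (hM : M ≤ 52) : ∃ K : ℝ, 0 ≤ K ∧ ∀ Γ : ℝ, 0 ≤ Γ → ∀ t ∈ Ico (-Λ₀) 0, ∀ U : Tri,
    (∀ j, Sm (U j)) → II (fun y => Xf y * wL 4 M q Γ t y * ppJ (slT U t) y) ≤ K * supN q g M Γ U t := by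
  obtain ⟨K1, hK1, haux⟩ := w7_supc_aux h M
  obtain ⟨CV, hCV, htbj⟩ := w5_tbj_wL 4 M
  have hq100 : (100 : ℝ) ≤ q := by linarith [h.hq]
  have hq1 : (1 : ℝ) < q := by linarith [h.hq]
  have hC0 : 0 < C := by linarith [h.hC]
  obtain ⟨K, hK, hEL⟩ := w5_EL hq100 h.sm hC0 h.co h.le100 CV (2 * (((4 : ℕ) : ℝ) + (M : ℝ) + 2))
  refine ⟨K * (1 + K1), mul_nonneg hK (by linarith), ?_⟩
  intro Γ hΓ t ht U hU
  obtain ⟨ha, hE0, hE1⟩ := haux Γ hΓ t ht U hU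
  have hMr : (M : ℝ) ≤ 52 := by exact_mod_cast hM
  have hk : 4 * (2 * (((4 : ℕ) : ℝ) + (M : ℝ) + 2)) + 4 + 2 * ((1 : ℕ) : ℝ) ≤ q := by
    push_cast
    linarith [h.hq]
  have h1 := hEL t ht (wL 4 M q Γ t) (htbj q Γ t hq100 hΓ ht.2 (h.t30 ht hM)) 1 hk U hU
  have e0 : II (fun y => Xf y * wL 4 M q Γ t y * ppJ (slT U t) y)
      = II (fun y => Xf y ^ 1 * wL 4 M q Γ t y * ppJ (slT U t) y) :=
    ii_congr (fun y _ => by rw [pow_one])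
  rw [e0]
  refine h1.trans ?_
  have e1 : II (fun y => Xf y ^ 1 * wL 4 M q Γ t y * n2 q (slT (Lop q g U) t) y)
      = En q (wL 4 M q Γ t) (slT (Lop q g U) t) := by
    unfold En
    exact ii_congr (fun y _ => by rw [pow_one]; rfl)
  have e2 : II (fun y => Xf y ^ 1 * wL 4 M q Γ t y / (rh2 q t y) ^ 2 * (n2t q (slT U t) y + n2 q (slT U t) y))
      = II (fun y => Xf y * wL 2 M q Γ t y * (n2t q (slT U t) y + n2 q (slT U t) y)) := by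
    refine ii_congr (fun y hy => ?_)
    have hr : 0 < rh2 q t y := w0_rh2_pos hq1 ht.2 hy
    have hw : wL 4 M q Γ t y = (rh2 q t y) ^ 2 * wL 2 M q Γ t y := w0_wL_add_two 2 M q Γ t y
    rw [hw, pow_one]
    field_simp
  have e3 : elR q g 1 (wL 4 M q Γ t) U t
      = En q (wL 4 M q Γ t) (slT (Lop q g U) t)
        + II (fun y => Xf y * wL 2 M q Γ t y * (n2t q (slT U t) y + n2 q (slT U t) y)) := by
    unfold elR
    rw [e1, e2]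
  have e4 : supN q g M Γ U t
      = En q (wL 2 M q Γ t) (slT U t) + En q (wL 4 M q Γ t) (slT (Lop q g U) t) := rfl
  rw [e3]
  have h2 : En q (wL 4 M q Γ t) (slT (Lop q g U) t)
      + II (fun y => Xf y * wL 2 M q Γ t y * (n2t q (slT U t) y + n2 q (slT U t) y))
      ≤ (1 + K1) * supN q g M Γ U t := by
    have : En q (wL 4 M q Γ t) (slT (Lop q g U) t) ≤ supN q g M Γ U t := by
      rw [e4]; linarith
    linarith
  calc K * (En q (wL 4 M q Γ t) (slT (Lop q g U) t)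
      + II (fun y => Xf y * wL 2 M q Γ t y * (n2t q (slT U t) y + n2 q (slT U t) y)))
      ≤ K * ((1 + K1) * supN q g M Γ U t) := mul_le_mul_of_nonneg_left h2 hK
    _ = K * (1 + K1) * supN q g M Γ U t := by ring

/-- S3 (a). -/
theorem w7_s3a (h : WCtx q g Λ₀ C) (M : ℕ) : ∃ K : ℝ, 0 ≤ K ∧ ∀ Γ : ℝ, 0 ≤ Γ → ∀ t ∈ Ico (-Λ₀) 0, ∀ U : Tri,
    (∀ j, Sm (U j)) → ∀ y ∈ Icc (-1 : ℝ) 1,
      Real.sqrt (Xf y) * Xf y * wL 2 M q Γ t y * n2 q (slT U t) y ≤ K * supN q g M Γ U t := by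
  obtain ⟨K1, hK1, haux⟩ := w7_supc_aux h M
  obtain ⟨CV, hCV, htb⟩ := w0_tb_wL 2 M
  have hq1 : (1 : ℝ) < q := by linarith [h.hq]
  have hq0 : (0 : ℝ) < q := by linarith [h.hq]
  refine ⟨(CV + 4) * K1, mul_nonneg (by linarith) hK1, ?_⟩
  intro Γ hΓ t ht U hU y hy
  obtain ⟨ha, hE0, hE1⟩ := haux Γ hΓ t ht U hU
  have hV0 : TB CV (wL 2 M q Γ t) := htb q Γ t hq1 hΓ ht.2
  have hu : ∀ j, SmI (slT U t j) := smI_slT hU ht.2
  have huV : ∀ i, SmI (uV (slT U t) i) := smI_uV hu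
  set u := slT U t with hudef
  set V := wL 2 M q Γ t with hVdef
  have htr : ∀ i : Fin 3, Real.sqrt (Xf y) * Xf y ^ 1 * (V y * uV u i y ^ 2)
      ≤ (CV + 2 * ((1 : ℕ) : ℝ) + 2) * II (fun z => Xf z ^ 1 * V z * (uV u i z ^ 2 + tt (uV u i) z ^ 2)) :=
    fun i => w6_trace hV0.sm (huV i) (fun y hy => (hV0.pos y hy).le) hV0.t1 1 hy
  have hci : ∀ i : Fin 3, CI (fun z => Xf z ^ 1 * V z * (uV u i z ^ 2 + tt (uV u i) z ^ 2)) :=
    fun i => (((smI_Xf.pow 1).mul hV0.sm).mul (((huV i).pow 2).add ((huV i).tt.pow 2))).continuousOn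
  have hcic : ∀ i : Fin 3, CI (fun z => kapJ q i * (Xf z ^ 1 * V z * (uV u i z ^ 2 + tt (uV u i) z ^ 2))) :=
    fun i => continuousOn_const.mul (hci i)
  have esum : II (fun z => Xf z * V z * (n2t q u z + n2 q u z))
      = kapJ q 0 * II (fun z => Xf z ^ 1 * V z * (uV u 0 z ^ 2 + tt (uV u 0) z ^ 2))
        + kapJ q 1 * II (fun z => Xf z ^ 1 * V z * (uV u 1 z ^ 2 + tt (uV u 1) z ^ 2))
        + kapJ q 2 * II (fun z => Xf z ^ 1 * V z * (uV u 2 z ^ 2 + tt (uV u 2) z ^ 2)) := by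
    have hc01 : CI (fun z => kapJ q 0 * (Xf z ^ 1 * V z * (uV u 0 z ^ 2 + tt (uV u 0) z ^ 2))
        + kapJ q 1 * (Xf z ^ 1 * V z * (uV u 1 z ^ 2 + tt (uV u 1) z ^ 2))) := (hcic 0).add (hcic 1)
    rw [← ii_const_mul, ← ii_const_mul, ← ii_const_mul, ← ii_add (hcic 0) (hcic 1),
      ← ii_add hc01 (hcic 2)]
    refine ii_congr (fun z _ => ?_)
    rw [n2_eq_nk, n2t_eq_nk]
    simp only [nk, Fin.sum_univ_three]
    ring
  have epw : Real.sqrt (Xf y) * Xf y * V y * n2 q u y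
      = kapJ q 0 * (Real.sqrt (Xf y) * Xf y ^ 1 * (V y * uV u 0 y ^ 2))
        + kapJ q 1 * (Real.sqrt (Xf y) * Xf y ^ 1 * (V y * uV u 1 y ^ 2))
        + kapJ q 2 * (Real.sqrt (Xf y) * Xf y ^ 1 * (V y * uV u 2 y ^ 2)) := by
    rw [n2_eq_nk]
    simp only [nk, Fin.sum_univ_three]
    ring
  have k0 := mul_le_mul_of_nonneg_left (htr 0) (kapJ_pos hq0 0).le
  have k1 := mul_le_mul_of_nonneg_left (htr 1) (kapJ_pos hq0 1).le
  have k2 := mul_le_mul_of_nonneg_left (htr 2) (kapJ_pos hq0 2).le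
  have hfin : Real.sqrt (Xf y) * Xf y * V y * n2 q u y
      ≤ (CV + 4) * II (fun z => Xf z * V z * (n2t q u z + n2 q u z)) := by
    rw [epw, esum]
    push_cast at k0 k1 k2
    nlinarith [k0, k1, k2]
  refine hfin.trans ?_
  calc (CV + 4) * II (fun z => Xf z * V z * (n2t q u z + n2 q u z))
      ≤ (CV + 4) * (K1 * supN q g M Γ U t) := mul_le_mul_of_nonneg_left ha (by linarith)
    _ = (CV + 4) * K1 * supN q g M Γ U t := by ring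

end

end Claimed.Agent.R324.Core
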