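/-
Row 324 (S0582), PDE core, module W (architect helper427; W0, WC, W1, W2: helper217).   Blueprint 7.3 (origin/helper232:docs/R324_blueprint.md).   FILE TBa
   Λ = -t,  X = Xf y = 1 - y²,  X̃ = Xt y,  ℓ² = ell2 q t = (q-1)/100 Λ^(2γ),  γ = gaF q = 8/bAl q,  2 < bAl q < 3 (`bAl_bounds`, q ≥ 100),  r̂² = rh2 = ℓ² + X̃,  Θ = Th = Λ + X̃   (Core/Defs.lean).
   tt f = -X f',  ttp f = tt f + y f;   pointwise rules and the class `SmI` (smooth near [-1,1]): Core/W/TtCalc.lean.     𝕀 = II: Core/W/Ibp.lean.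
W0 (d): the class `TB C V` of admissible weights:   V smooth near [-1,1],  V > 0,  |tt V| ≤ C V,  |tt² V| ≤ C V   on [-1,1].      This file: definition, second order rules for tt, trivial closure properties.
* `SmI.ev_diff`:  `ContDiffAt.eventually` needs a finite order:  `((hf y hy).of_le (by simp) : ContDiffAt ℝ 1 f y).eventually (by simp)` gives ∀ᶠ z, ContDiffAt ℝ 1 f z;  `.differentiableAt`.
* `tt_ev_mul` etc.:  `filter_upwards [hf.ev_diff hy, hg.ev_diff hy] with z h1 h2 using tt_mul h1 h2`.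
* `tt_tt_mul`:  `tt_congr (tt_ev_mul ..)`, then `tt_add`, `tt_mul` for the functions tt f, g, f, tt g (`SmI.tt`, `SmI.differentiableAt`, `SmI.mul`); ring.
* `tt_tt_inv`:  tt (1/f) = -tt f * (1/f)² near y;  or  `tt_ev_inv` + `tt_div`/`tt_mul`, `tt_pow`;  field_simp; ring.
* `TB.congr`:  SmI.congr;  values: `EventuallyEq.eq_of_nhds`;  `tt_congr`;   for tt²: tt W =ᶠ tt V near y  (`EventuallyEq.deriv`: h.deriv : deriv W =ᶠ deriv V; then `filter_upwards`), `tt_congr`.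
-/
import Claimed.Agent.R324.Core.W.Wt

set_option autoImplicit false

namespace Claimed.Agent.R324.Core

open Set Filter Topology MeasureTheory
open scoped ContDiff

noncomputable section

/-- admissible weights. -/
structure TB (C : ℝ) (V : ℝ → ℝ) : Prop where
  sm : SmI V
  pos : ∀ y ∈ Icc (-1 : ℝ) 1, 0 < V y
  t1 : ∀ y ∈ Icc (-1 : ℝ) 1, |tt V y| ≤ C * V y
  t2 : ∀ y ∈ Icc (-1 : ℝ) 1, |tt (tt V) y| ≤ C * V y

variable {C C' : ℝ} {V W f g : ℝ → ℝ} {q Γ t y : ℝ}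

/-- a function of class `SmI` is differentiable near every point of `[-1,1]`. -/
theorem SmI.ev_diff (hf : SmI f) (hy : y ∈ Icc (-1 : ℝ) 1) : ∀ᶠ z in 𝓝 y, DifferentiableAt ℝ f z := by
  have h1 : ContDiffAt ℝ 1 f y := (hf y hy).of_le (by simp)
  filter_upwards [h1.eventually (by simp)] with z hz
  exact hz.differentiableAt (by simp)

theorem tt_ev_congr (h : g =ᶠ[𝓝 y] f) : tt g =ᶠ[𝓝 y] tt f := by
  filter_upwards [h.eventually_nhds] with z hz
  exact tt_congr hz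

theorem tt_ev_mul (hf : SmI f) (hg : SmI g) (hy : y ∈ Icc (-1 : ℝ) 1) :
    tt (fun z => f z * g z) =ᶠ[𝓝 y] fun z => tt f z * g z + f z * tt g z := by
  filter_upwards [hf.ev_diff hy, hg.ev_diff hy] with z h1 h2 using tt_mul h1 h2

theorem tt_tt_mul (hf : SmI f) (hg : SmI g) (hy : y ∈ Icc (-1 : ℝ) 1) :
    tt (tt (fun z => f z * g z)) y = tt (tt f) y * g y + 2 * tt f y * tt g y + f y * tt (tt g) y := by
  rw [tt_congr (tt_ev_mul hf hg hy),
    tt_add ((hf.tt.mul hg).differentiableAt hy) ((hf.mul hg.tt).differentiableAt hy),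
    tt_mul (hf.tt.differentiableAt hy) (hg.differentiableAt hy),
    tt_mul (hf.differentiableAt hy) (hg.tt.differentiableAt hy)]
  ring

theorem tt_tt_add (hf : SmI f) (hg : SmI g) (hy : y ∈ Icc (-1 : ℝ) 1) :
    tt (tt (fun z => f z + g z)) y = tt (tt f) y + tt (tt g) y := by
  have h1 : tt (fun z => f z + g z) =ᶠ[𝓝 y] fun z => tt f z + tt g z := by
    filter_upwards [hf.ev_diff hy, hg.ev_diff hy] with z h1 h2 using tt_add h1 h2
  rw [tt_congr h1, tt_add (hf.tt.differentiableAt hy) (hg.tt.differentiableAt hy)]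

theorem tt_tt_const_mul (c : ℝ) (hf : SmI f) (hy : y ∈ Icc (-1 : ℝ) 1) :
    tt (tt (fun z => c * f z)) y = c * tt (tt f) y := by
  have h1 : tt (fun z => c * f z) =ᶠ[𝓝 y] fun z => c * tt f z := by
    filter_upwards [hf.ev_diff hy] with z h1 using tt_const_mul c h1
  rw [tt_congr h1, tt_const_mul c (hf.tt.differentiableAt hy)]

theorem tt_tt_inv (hf : SmI f) (hy : y ∈ Icc (-1 : ℝ) 1) (h0 : f y ≠ 0) :
    tt (tt (fun z => (f z)⁻¹)) y = -tt (tt f) y / f y ^ 2 + 2 * tt f y ^ 2 / f y ^ 3 := by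
  have hc : ∀ᶠ z in 𝓝 y, f z ≠ 0 := (hf y hy).continuousAt.eventually_ne h0
  have h1 : tt (fun z => (f z)⁻¹) =ᶠ[𝓝 y] fun z => -tt f z / f z ^ 2 := by
    filter_upwards [hf.ev_diff hy, hc] with z h1 h2 using tt_inv h1 h2
  rw [tt_congr h1, tt_div (hf.tt.neg.differentiableAt hy) ((hf.pow 2).differentiableAt hy)
    (pow_ne_zero 2 h0), tt_neg, tt_pow (hf.differentiableAt hy)]
  field_simp
  ring

/-- `tt² X = 4 y² X - 2 X²`. -/
theorem tt_tt_Xf (y : ℝ) : tt (tt Xf) y = 4 * y ^ 2 * Xf y - 2 * Xf y ^ 2 := by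
  have h1 : tt Xf = fun z => (2 * z) * Xf z := funext tt_Xf
  have h2 : DifferentiableAt ℝ (fun z : ℝ => 2 * z) y := by fun_prop
  rw [h1, tt_mul h2 (hasDerivAt_Xf y).differentiableAt, tt_Xf,
    tt_const_mul 2 (f := fun z => z) differentiableAt_fun_id, tt_id]
  ring

theorem TB.nonneg_C (h : TB C V) : 0 ≤ C := by
  have h1 := h.t1 0 (by norm_num)
  have h2 := h.pos 0 (by norm_num)
  by_contra hc
  push Not at hc
  have := abs_nonneg (tt V 0)
  nlinarith

theorem TB.mono (h : TB C V) (hC : C ≤ C') : TB C' V :=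
  ⟨h.sm, h.pos, fun y hy => (h.t1 y hy).trans (mul_le_mul_of_nonneg_right hC (h.pos y hy).le),
    fun y hy => (h.t2 y hy).trans (mul_le_mul_of_nonneg_right hC (h.pos y hy).le)⟩

theorem TB.congr (h : TB C V) (hW : ∀ y ∈ Icc (-1 : ℝ) 1, W =ᶠ[𝓝 y] V) : TB C W := by
  refine ⟨h.sm.congr hW, fun y hy => ?_, fun y hy => ?_, fun y hy => ?_⟩
  · rw [(hW y hy).eq_of_nhds]
    exact h.pos y hy
  · rw [(hW y hy).eq_of_nhds, tt_congr (hW y hy)]
    exact h.t1 y hy
  · rw [(hW y hy).eq_of_nhds, tt_congr (tt_ev_congr (hW y hy))]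
    exact h.t2 y hy

theorem tb_const {c : ℝ} (hc : 0 < c) : TB 0 (fun _ => c) := by
  have h1 : tt (fun _ : ℝ => c) = fun _ => 0 := funext (tt_const c)
  refine ⟨smI_const c, fun _ _ => hc, fun y _ => ?_, fun y _ => ?_⟩
  · rw [tt_const]
    simp
  · rw [h1, tt_const]
    simp

theorem TB.const_mul (h : TB C V) {c : ℝ} (hc : 0 < c) : TB C (fun y => c * V y) := by
  refine ⟨h.sm.const_mul c, fun y hy => mul_pos hc (h.pos y hy), fun y hy => ?_, fun y hy => ?_⟩
  · rw [tt_const_mul c (h.sm.differentiableAt hy), abs_mul, abs_of_pos hc]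
    have := mul_le_mul_of_nonneg_left (h.t1 y hy) hc.le
    linarith
  · rw [tt_tt_const_mul c h.sm hy, abs_mul, abs_of_pos hc]
    have := mul_le_mul_of_nonneg_left (h.t2 y hy) hc.le
    linarith

end

end Claimed.Agent.R324.Core
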