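/-
Row 324 (S0582), PDE core, module W (architect helper427; W0, WC, W1, W2: helper217).   Blueprint 7.3 (origin/helper232:docs/R324_blueprint.md).   FILE TBb
   Λ = -t,  X = Xf y = 1 - y²,  X̃ = Xt y,  ℓ² = ell2 q t = (q-1)/100 Λ^(2γ),  γ = gaF q = 8/bAl q,  2 < bAl q < 3 (`bAl_bounds`, q ≥ 100),  r̂² = rh2 = ℓ² + X̃,  Θ = Th = Λ + X̃   (Core/Defs.lean).
   tt f = -X f',  ttp f = tt f + y f;   pointwise rules and the class `SmI` (smooth near [-1,1]): Core/W/TtCalc.lean.     𝕀 = II: Core/W/Ibp.lean.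
W0 (d): closure of `TB` under products, powers, inverses, quotients, square roots;  the weight X V.       Second order rules: Core/W/TBa.lean (`tt_tt_mul`, `tt_tt_inv`, `tt_tt_Xf`), first order: Core/W/TtCalc.lean.
* `TB.mul`:   tt(VW) = tt V W + V tt W;   tt²(VW) = tt²V W + 2 tt V tt W + V tt²W;   |tt V| ≤ C V etc.;  constants:  C + C' ≤ C + 2CC' + C' (`TB.nonneg_C`).     (abs_add_le, abs_mul, nlinarith / gcongr.)
* `TB.inv`:   tt(1/V) = -tt V/V²;   tt²(1/V) = -tt²V/V² + 2 (tt V)²/V³;   constants C, C + 2C².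
* `TB.pow`:   induction with `TB.mul` (`pow_succ`; n = 0: `tb_const one_pos`).
* `TB.sqrt`:  √V is SmI (`SmI.sqrt`);  s := √V satisfies s * s = V on a neighbourhood?  Simpler: apply `tt_mul`/`tt_tt_mul` to s·s = V (as functions near y: V > 0 only on [-1,1], so use instead `tt_comp` with φ = √ at V y ≠ 0, `Real.hasDerivAt_sqrt`):
              tt s = tt V/(2 s),    and from V = s² (`TB.congr`-type argument is not needed: `Real.sq_sqrt` holds where V ≥ 0; near y ∈ [-1,1] V > 0 by continuity: `ContinuousAt.eventually_lt`)  tt² V = 2 (tt s)² + 2 s tt² s.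
* `TB.X_mul`: tt(XV) = 2yXV + X tt V;    tt²(XV) = (4y² - 2X) X V + 4 y X tt V + X tt² V;   |y| ≤ 1, 0 ≤ X ≤ 1, |4y² - 2X| ≤ 4.
-/
import Claimed.Agent.R324.Core.W.TBa

set_option autoImplicit false

namespace Claimed.Agent.R324.Core

open Set Filter Topology MeasureTheory
open scoped ContDiff

noncomputable section

variable {C C' : ℝ} {V W : ℝ → ℝ} {q Γ t y : ℝ}


theorem TB.mul (h : TB C V) (h' : TB C' W) : TB (C + 2 * C * C' + C') (fun y => V y * W y) := by
  have hC := h.nonneg_C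
  have hC' := h'.nonneg_C
  refine ⟨h.sm.mul h'.sm, fun y hy => mul_pos (h.pos y hy) (h'.pos y hy), fun y hy => ?_,
    fun y hy => ?_⟩
  · rw [tt_mul (h.sm.differentiableAt hy) (h'.sm.differentiableAt hy)]
    have hv := h.pos y hy
    have hw := h'.pos y hy
    have a1 := h.t1 y hy
    have b1 := h'.t1 y hy
    have k1 : |Core.tt V y * W y| ≤ C * V y * W y := by
      rw [abs_mul, abs_of_pos hw]
      exact mul_le_mul_of_nonneg_right a1 hw.le
    have k2 : |V y * Core.tt W y| ≤ V y * (C' * W y) := by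
      rw [abs_mul, abs_of_pos hv]
      exact mul_le_mul_of_nonneg_left b1 hv.le
    have k3 : 0 ≤ 2 * C * C' * (V y * W y) := by positivity
    calc |Core.tt V y * W y + V y * Core.tt W y| ≤ |Core.tt V y * W y| + |V y * Core.tt W y| :=
          abs_add_le _ _
      _ ≤ C * V y * W y + V y * (C' * W y) := add_le_add k1 k2
      _ ≤ (C + 2 * C * C' + C') * (V y * W y) := by nlinarith
  · rw [tt_tt_mul h.sm h'.sm hy]
    have hv := h.pos y hy
    have hw := h'.pos y hy
    have a1 := h.t1 y hy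
    have b1 := h'.t1 y hy
    have a2 := h.t2 y hy
    have b2 := h'.t2 y hy
    have k1 : |Core.tt (Core.tt V) y * W y| ≤ C * V y * W y := by
      rw [abs_mul, abs_of_pos hw]
      exact mul_le_mul_of_nonneg_right a2 hw.le
    have k2 : |V y * Core.tt (Core.tt W) y| ≤ V y * (C' * W y) := by
      rw [abs_mul, abs_of_pos hv]
      exact mul_le_mul_of_nonneg_left b2 hv.le
    have k3 : |2 * Core.tt V y * Core.tt W y| ≤ 2 * (C * V y) * (C' * W y) := by
      rw [abs_mul, abs_mul, abs_of_pos (by norm_num : (0 : ℝ) < 2)]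
      exact mul_le_mul (mul_le_mul_of_nonneg_left a1 (by norm_num)) b1 (abs_nonneg _)
        (by positivity)
    calc |Core.tt (Core.tt V) y * W y + 2 * Core.tt V y * Core.tt W y
          + V y * Core.tt (Core.tt W) y|
        ≤ |Core.tt (Core.tt V) y * W y + 2 * Core.tt V y * Core.tt W y|
          + |V y * Core.tt (Core.tt W) y| := abs_add_le _ _
      _ ≤ |Core.tt (Core.tt V) y * W y| + |2 * Core.tt V y * Core.tt W y|
          + |V y * Core.tt (Core.tt W) y| := by gcongr; exact abs_add_le _ _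
      _ ≤ C * V y * W y + 2 * (C * V y) * (C' * W y) + V y * (C' * W y) :=
          add_le_add (add_le_add k1 k3) k2
      _ = (C + 2 * C * C' + C') * (V y * W y) := by ring

theorem TB.inv (h : TB C V) : TB (C + 2 * C ^ 2) (fun y => (V y)⁻¹) := by
  have hC := h.nonneg_C
  refine ⟨h.sm.inv fun y hy => (h.pos y hy).ne', fun y hy => inv_pos.2 (h.pos y hy),
    fun y hy => ?_, fun y hy => ?_⟩
  · have hv := h.pos y hy
    have a1 := h.t1 y hy
    rw [tt_inv (h.sm.differentiableAt hy) hv.ne', abs_div, abs_neg,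
      abs_of_pos (by positivity : 0 < V y ^ 2)]
    rw [div_le_iff₀ (by positivity)]
    have e : (C + 2 * C ^ 2) * (V y)⁻¹ * V y ^ 2 = (C + 2 * C ^ 2) * V y := by
      field_simp
    rw [e]
    nlinarith [mul_nonneg (sq_nonneg C) hv.le]
  · have hv := h.pos y hy
    have a1 := h.t1 y hy
    have a2 := h.t2 y hy
    rw [tt_tt_inv h.sm hy hv.ne']
    have k1 : |-Core.tt (Core.tt V) y / V y ^ 2| ≤ C * (V y)⁻¹ := by
      rw [abs_div, abs_neg, abs_of_pos (by positivity : 0 < V y ^ 2), div_le_iff₀ (by positivity)]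
      have e : C * (V y)⁻¹ * V y ^ 2 = C * V y := by field_simp
      rw [e]; exact a2
    have k2 : |2 * Core.tt V y ^ 2 / V y ^ 3| ≤ 2 * C ^ 2 * (V y)⁻¹ := by
      rw [abs_div, abs_of_pos (by positivity : 0 < V y ^ 3), div_le_iff₀ (by positivity),
        abs_mul, abs_of_pos (by norm_num : (0 : ℝ) < 2), abs_pow]
      have e : 2 * C ^ 2 * (V y)⁻¹ * V y ^ 3 = 2 * (C * V y) ^ 2 := by field_simp
      rw [e]
      have := pow_le_pow_left₀ (abs_nonneg _) a1 2
      linarith
    calc |-Core.tt (Core.tt V) y / V y ^ 2 + 2 * Core.tt V y ^ 2 / V y ^ 3|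
        ≤ |-Core.tt (Core.tt V) y / V y ^ 2| + |2 * Core.tt V y ^ 2 / V y ^ 3| := abs_add_le _ _
      _ ≤ C * (V y)⁻¹ + 2 * C ^ 2 * (V y)⁻¹ := add_le_add k1 k2
      _ = (C + 2 * C ^ 2) * (V y)⁻¹ := by ring

/-- the constant of `V ^ n`. -/
def tbPow (C : ℝ) : ℕ → ℝ
  | 0 => 0
  | n + 1 => tbPow C n + 2 * tbPow C n * C + C

theorem TB.pow (h : TB C V) (n : ℕ) : TB (tbPow C n) (fun y => V y ^ n) := by
  induction n with
  | zero =>
    have := tb_const (c := 1) one_pos
    simpa [tbPow] using this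
  | succ n ih =>
    have := ih.mul h
    simpa only [pow_succ, tbPow] using this

theorem TB.div (h : TB C V) (h' : TB C' W) :
    TB (C + 2 * C * (C' + 2 * C' ^ 2) + (C' + 2 * C' ^ 2)) (fun y => V y / W y) := by
  have := h.mul h'.inv
  simpa only [div_eq_mul_inv] using this

/-- hygiene. -/
theorem core_w_tbb_hygiene : True := by
  have := @tbPow.eq_1
  have := @tbPow.eq_2
  trivial

end

end Claimed.Agent.R324.Core
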