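/-
Row 324 (S0582), PDE core, module W (architect helper427; W0, WC, W1, W2: helper217).   Blueprint 7.3 (origin/helper232:docs/R324_blueprint.md).   FILE TBc
   Λ = -t,  X = Xf y = 1 - y²,  X̃ = Xt y,  ℓ² = ell2 q t = (q-1)/100 Λ^(2γ),  γ = gaF q = 8/bAl q,  2 < bAl q < 3 (`bAl_bounds`, q ≥ 100),  r̂² = rh2 = ℓ² + X̃,  Θ = Th = Λ + X̃   (Core/Defs.lean).
   tt f = -X f',  ttp f = tt f + y f;   pointwise rules and the class `SmI` (smooth near [-1,1]): Core/W/TtCalc.lean.     𝕀 = II: Core/W/Ibp.lean.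
W0 (d): square roots of weights of class `TB`;  the weight X V.       Second order rules: Core/W/TBa.lean (`tt_tt_mul`, `tt_tt_inv`, `tt_tt_Xf`), first order: Core/W/TtCalc.lean.
* `TB.sqrt`:  s := √V is SmI (`SmI.sqrt`), s > 0 on [-1,1].   Near y ∈ [-1,1]: V > 0 (continuity: `ContinuousAt.eventually_lt`/`eventually_gt`), so V =ᶠ s·s (`Real.mul_self_sqrt`).   `tt_congr`, `tt_ev_congr`, `tt_mul`, `tt_tt_mul` for s·s:
              tt V = 2 s tt s,      tt² V = 2 (tt s)² + 2 s tt² s    ⟹   |tt s| ≤ (C/2) s,    |tt² s| ≤ (C/2 + C²/4) s.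
* `TB.X_mul`: tt(XV) = 2yXV + X tt V (`tt_mul`, `tt_Xf`);    tt²(XV) = (4y² - 2X) X V + 4 y X tt V + X tt² V (`tt_tt_mul`, `tt_tt_Xf`);   |y| ≤ 1, 0 ≤ X ≤ 1, |4y² - 2X| ≤ 4.
-/
import Claimed.Agent.R324.Core.W.TBa

set_option autoImplicit false

namespace Claimed.Agent.R324.Core

open Set Filter Topology MeasureTheory
open scoped ContDiff

noncomputable section

variable {C C' : ℝ} {V W : ℝ → ℝ} {q Γ t y : ℝ}


/-- `√V`:   tt √V = tt V/(2√V),   tt² √V = tt² V/(2√V) - (tt V)²/(4 V √V). -/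
theorem TB.sqrt (h : TB C V) : TB (C + C ^ 2) (fun y => Real.sqrt (V y)) := by
  have hs : SmI (fun y => Real.sqrt (V y)) := h.sm.sqrt (fun y hy => (h.pos y hy).ne')
  have hC := h.nonneg_C
  have key : ∀ y ∈ Icc (-1 : ℝ) 1,
      V =ᶠ[𝓝 y] fun z => Real.sqrt (V z) * Real.sqrt (V z) := by
    intro y hy
    have hc : ContinuousAt V y := (h.sm y hy).continuousAt
    have hp : ∀ᶠ z in 𝓝 y, 0 < V z := hc.eventually (lt_mem_nhds (h.pos y hy))
    filter_upwards [hp] with z hz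
    exact (Real.mul_self_sqrt hz.le).symm
  have e1 : ∀ y ∈ Icc (-1 : ℝ) 1, Core.tt V y =
      Core.tt (fun y => Real.sqrt (V y)) y * Real.sqrt (V y)
        + Real.sqrt (V y) * Core.tt (fun y => Real.sqrt (V y)) y := by
    intro y hy
    rw [tt_congr (key y hy)]
    exact tt_mul (hs.differentiableAt hy) (hs.differentiableAt hy)
  have e2 : ∀ y ∈ Icc (-1 : ℝ) 1, Core.tt (Core.tt V) y =
      Core.tt (Core.tt (fun y => Real.sqrt (V y))) y * Real.sqrt (V y)
        + 2 * Core.tt (fun y => Real.sqrt (V y)) y * Core.tt (fun y => Real.sqrt (V y)) y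
        + Real.sqrt (V y) * Core.tt (Core.tt (fun y => Real.sqrt (V y))) y := by
    intro y hy
    rw [tt_congr (tt_ev_congr (key y hy))]
    exact tt_tt_mul hs hs hy
  have b1 : ∀ y ∈ Icc (-1 : ℝ) 1,
      |Core.tt (fun y => Real.sqrt (V y)) y| ≤ C / 2 * Real.sqrt (V y) := by
    intro y hy
    have ha : 0 < Real.sqrt (V y) := Real.sqrt_pos.2 (h.pos y hy)
    have hV : V y = Real.sqrt (V y) * Real.sqrt (V y) := (Real.mul_self_sqrt (h.pos y hy).le).symm
    have h1 := h.t1 y hy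
    rw [e1 y hy] at h1
    generalize Core.tt (fun y => Real.sqrt (V y)) y = u at h1 ⊢
    generalize Real.sqrt (V y) = a at h1 ha hV ⊢
    rw [hV] at h1
    have h2 : u * a + a * u = 2 * a * u := by ring
    rw [h2, abs_mul, abs_of_pos (by positivity : (0:ℝ) < 2 * a)] at h1
    have h3 : 2 * a * |u| ≤ 2 * a * (C / 2 * a) := by nlinarith
    exact le_of_mul_le_mul_left h3 (by positivity)
  refine ⟨hs, fun y hy => Real.sqrt_pos.2 (h.pos y hy), fun y hy => ?_, fun y hy => ?_⟩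
  · have ha : 0 < Real.sqrt (V y) := Real.sqrt_pos.2 (h.pos y hy)
    refine (b1 y hy).trans ?_
    apply mul_le_mul_of_nonneg_right _ ha.le
    nlinarith [sq_nonneg C]
  · have ha : 0 < Real.sqrt (V y) := Real.sqrt_pos.2 (h.pos y hy)
    have hV : V y = Real.sqrt (V y) * Real.sqrt (V y) := (Real.mul_self_sqrt (h.pos y hy).le).symm
    have h1 := h.t2 y hy
    have hb := b1 y hy
    rw [e2 y hy] at h1
    generalize Core.tt (Core.tt (fun y => Real.sqrt (V y))) y = w at h1 ⊢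
    generalize Core.tt (fun y => Real.sqrt (V y)) y = u at h1 hb
    generalize Real.sqrt (V y) = a at h1 ha hb hV ⊢
    rw [hV] at h1
    have hu2 : u * u ≤ (C / 2 * a) * (C / 2 * a) := by
      have := abs_mul_abs_self u
      have h0 := abs_nonneg u
      nlinarith
    have h4 : 2 * a * |w| ≤ 2 * a * ((C / 2 + C ^ 2 / 4) * a) := by
      have h5 : 2 * a * |w| = |2 * a * w| := by
        rw [abs_mul, abs_of_pos (by positivity : (0:ℝ) < 2 * a)]
      rw [h5]
      rw [abs_le] at h1 ⊢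
      constructor <;> nlinarith [mul_self_nonneg u]
    have h6 : |w| ≤ (C / 2 + C ^ 2 / 4) * a := le_of_mul_le_mul_left h4 (by positivity)
    refine h6.trans ?_
    apply mul_le_mul_of_nonneg_right _ ha.le
    nlinarith [sq_nonneg C]

/-- `X V` is NOT in the class (it vanishes at the poles) but satisfies the same bounds. -/
theorem TB.X_mul (h : TB C V) : ∀ y ∈ Icc (-1 : ℝ) 1,
    |tt (fun z => Xf z * V z) y| ≤ (C + 2) * (Xf y * V y) ∧
    |tt (tt (fun z => Xf z * V z)) y| ≤ (5 * C + 6) * (Xf y * V y) := by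
  intro y hy
  have hC := h.nonneg_C
  have hV := h.pos y hy
  have h1 := h.t1 y hy
  have h2 := h.t2 y hy
  have hX0 : 0 ≤ Xf y := by
    unfold Xf
    nlinarith [hy.1, hy.2]
  have hX1 : Xf y = 1 - y ^ 2 := rfl
  have hy2 : y ^ 2 ≤ 1 := by nlinarith [hy.1, hy.2]
  have e1 : tt (fun z => Xf z * V z) y = 2 * y * Xf y * V y + Xf y * tt V y := by
    rw [tt_mul (smI_Xf.differentiableAt hy) (h.sm.differentiableAt hy), tt_Xf]
  have e2 : tt (tt (fun z => Xf z * V z)) y =
      (4 * y ^ 2 * Xf y - 2 * Xf y ^ 2) * V y + 2 * (2 * y * Xf y) * tt V y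
        + Xf y * tt (tt V) y := by
    rw [tt_tt_mul smI_Xf h.sm hy, tt_tt_Xf, tt_Xf]
  rw [e1, e2]
  generalize tt (tt V) y = w at h2 ⊢
  generalize tt V y = u at h1 ⊢
  generalize V y = v at hV h1 h2 ⊢
  generalize Xf y = X at hX0 hX1 ⊢
  have hXv : 0 ≤ X * v := mul_nonneg hX0 hV.le
  rw [abs_le] at h1 h2
  have hyl := hy.1
  have hyr := hy.2
  have a1 : -(X * v) ≤ y * (X * v) ∧ y * (X * v) ≤ X * v := by
    constructor <;> nlinarith
  have a2 : -(C * (X * v)) ≤ X * u ∧ X * u ≤ C * (X * v) := by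
    constructor <;> nlinarith
  have a3 : -(C * (X * v)) ≤ X * w ∧ X * w ≤ C * (X * v) := by
    constructor <;> nlinarith
  have a4 : -(C * (X * v)) ≤ y * (X * u) ∧ y * (X * u) ≤ C * (X * v) := by
    have hCXv : 0 ≤ C * (X * v) := mul_nonneg hC hXv
    have : |y * (X * u)| ≤ C * (X * v) := by
      rw [abs_mul]
      have hy1 : |y| ≤ 1 := abs_le.2 ⟨hyl, hyr⟩
      have hxu : |X * u| ≤ C * (X * v) := abs_le.2 a2
      calc |y| * |X * u| ≤ 1 * (C * (X * v)) :=
            mul_le_mul hy1 hxu (abs_nonneg _) (by norm_num)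
        _ = C * (X * v) := one_mul _
    exact abs_le.1 this
  have a5 : -(4 * (X * v)) ≤ (4 * y ^ 2 - 2 * X) * (X * v) ∧
      (4 * y ^ 2 - 2 * X) * (X * v) ≤ 4 * (X * v) := by
    constructor <;> nlinarith [sq_nonneg y]
  constructor
  · rw [abs_le]
    constructor <;> nlinarith [a1.1, a1.2, a2.1, a2.2]
  · rw [abs_le]
    constructor <;> nlinarith [a3.1, a3.2, a4.1, a4.2, a5.1, a5.2]

end

end Claimed.Agent.R324.Core
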