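/-
Row 324 (S0582), PDE core, module W (architect helper427; W0, WC, W1, W2: helper217).   Blueprint 7.3 (origin/helper232:docs/R324_blueprint.md).   FILE TBd
   Λ = -t,  X = Xf y = 1 - y²,  X̃ = Xt y,  ℓ² = ell2 q t = (q-1)/100 Λ^(2γ),  γ = gaF q = 8/bAl q,  2 < bAl q < 3 (`bAl_bounds`, q ≥ 100),  r̂² = rh2 = ℓ² + X̃,  Θ = Th = Λ + X̃   (Core/Defs.lean).
   tt f = -X f',  ttp f = tt f + y f;   pointwise rules and the class `SmI` (smooth near [-1,1]): Core/W/TtCalc.lean.     𝕀 = II: Core/W/Ibp.lean.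
W0 (d): the base case c + X̃.
* `w0_tt_Xt`:  for y ∈ (1/2,1]: Xt = Xf near y (`Xt_eq`, `Ioi_mem_nhds`), `tt_congr`, `tt_ev_congr`; tt Xf = 2yX (`tt_Xf`), tt² Xf = 4y²X - 2X² (`tt_tt_Xf`), so |tt Xt| ≤ 2 Xt, |tt² Xt| ≤ 6 Xt.
               For y ∈ [-1,1/2]: Xt ≥ 3/4 (`Xt_mem`), and tt Xt, tt² Xt are bounded on [-1,1] (`smI_of_contDiff w0_contDiff_Xt`, `SmI.tt`, `SmI.bdd`): |..| ≤ K ≤ (4K/3) Xt.
* `w0_tb_base`:  tt(c + Xt) = tt Xt (`tt_add`, `tt_const`; second order `tt_tt_add`);  0 ≤ Xt ≤ c + Xt (`Xt_nonneg`).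
-/
import Claimed.Agent.R324.Core.W.TBa

set_option autoImplicit false

namespace Claimed.Agent.R324.Core

open Set Filter Topology MeasureTheory
open scoped ContDiff

noncomputable section

variable {C C' : ℝ} {V W : ℝ → ℝ} {q Γ t y : ℝ}


theorem w0_tt_Xt : ∃ K : ℝ, 0 ≤ K ∧ ∀ y ∈ Icc (-1 : ℝ) 1, |tt Xt y| ≤ K * Xt y ∧ |tt (tt Xt) y| ≤ K * Xt y := by
  have hsm : SmI Xt := smI_of_contDiff w0_contDiff_Xt
  obtain ⟨K1, hK1, h1⟩ := hsm.tt.bdd
  obtain ⟨K2, hK2, h2⟩ := hsm.tt.tt.bdd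
  refine ⟨6 + 4 / 3 * (K1 + K2), by positivity, fun y hy => ?_⟩
  rcases le_or_gt y (1 / 2) with h | h
  · have hX := (Xt_mem h hy.1).1
    have a1 := h1 y hy
    have a2 := h2 y hy
    have hb : K1 + K2 ≤ (6 + 4 / 3 * (K1 + K2)) * Xt y := by nlinarith
    exact ⟨by linarith, by linarith⟩
  · have hev : Xt =ᶠ[𝓝 y] Xf := by
      filter_upwards [Ioi_mem_nhds h] with z hz
      exact Xt_eq (le_of_lt hz)
    have e1 : tt Xt y = 2 * y * Xf y := by rw [tt_congr hev, tt_Xf]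
    have e2 : tt (tt Xt) y = 4 * y ^ 2 * Xf y - 2 * Xf y ^ 2 := by
      rw [tt_congr (tt_ev_congr hev), tt_tt_Xf]
    have hXe : Xt y = Xf y := Xt_eq h.le
    have hX0 : 0 ≤ Xf y := w0_Xf_nonneg hy
    have hX1 : Xf y ≤ 1 := by
      unfold Xf
      nlinarith
    have hKX : 6 * Xf y ≤ (6 + 4 / 3 * (K1 + K2)) * Xf y :=
      mul_le_mul_of_nonneg_right (by linarith) hX0
    have b1 : y * Xf y ≤ Xf y := by nlinarith [hy.2]
    have b1' : 0 ≤ y * Xf y := mul_nonneg (by linarith) hX0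
    have b2 : y ^ 2 * Xf y ≤ Xf y := by nlinarith [hy.2]
    have b2' : 0 ≤ y ^ 2 * Xf y := mul_nonneg (sq_nonneg _) hX0
    have b3 : Xf y ^ 2 ≤ Xf y := by nlinarith
    have b3' : 0 ≤ Xf y ^ 2 := sq_nonneg _
    rw [e1, e2, hXe]
    constructor
    · rw [abs_le]
      constructor <;> nlinarith
    · rw [abs_le]
      constructor <;> nlinarith

theorem w0_tb_base : ∃ K : ℝ, 0 ≤ K ∧ ∀ c : ℝ, 0 < c → TB K (fun y => c + Xt y) := by
  obtain ⟨K, hK, h⟩ := w0_tt_Xt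
  have hsm : SmI Xt := smI_of_contDiff w0_contDiff_Xt
  refine ⟨K, hK, fun c hc => ⟨(smI_const c).add hsm, fun y hy => ?_, fun y hy => ?_, fun y hy => ?_⟩⟩
  · have := (Xt_nonneg hy.1 hy.2).1
    show 0 < c + Xt y
    linarith
  · rw [tt_add (differentiableAt_const c) (hsm.differentiableAt hy), tt_const, zero_add]
    exact ((h y hy).1).trans (mul_le_mul_of_nonneg_left (by linarith) hK)
  · have e0 : tt (tt (fun _ : ℝ => c)) y = 0 := by
      have e1 : tt (fun _ : ℝ => c) = fun _ => 0 := funext (tt_const c)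
      rw [e1, tt_const]
    rw [tt_tt_add (smI_const c) hsm hy, e0, zero_add]
    exact ((h y hy).2).trans (mul_le_mul_of_nonneg_left (by linarith) hK)

end

end Claimed.Agent.R324.Core
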