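/-
Row 324 (S0582), PDE core, module W (architect helper427; W0, WC, W1, W2: helper217).   Blueprint 7.3 (origin/helper232:docs/R324_blueprint.md).   FILE TBe
   Λ = -t,  X = Xf y = 1 - y²,  X̃ = Xt y,  ℓ² = ell2 q t = (q-1)/100 Λ^(2γ),  γ = gaF q = 8/bAl q,  2 < bAl q < 3 (`bAl_bounds`, q ≥ 100),  r̂² = rh2 = ℓ² + X̃,  Θ = Th = Λ + X̃   (Core/Defs.lean).
   tt f = -X f',  ttp f = tt f + y f;   pointwise rules and the class `SmI` (smooth near [-1,1]): Core/W/TtCalc.lean.     𝕀 = II: Core/W/Ibp.lean.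
W0 (d): wL a M q Γ t,  wH a M q t ∈ TB C  with C = C(a,M) INDEPENDENT of q, Γ ≥ 0, t < 0.
*  rh2 q t = ell2 q t + Xt, (1+Γ)Λ + Xt, Th t = Λ + Xt are of the form c + Xt, c > 0 (`w0_ell2_pos`): `w0_tb_base`;  then `TB.pow`, `TB.mul`, `TB.div`.    The functions agree definitionally after `unfold wL rh2 Th` (use `show TB _ (fun y => ...)` or `TB.congr` with `Filter.EventuallyEq.rfl`/`Eventually.of_forall`).
-/
import Claimed.Agent.R324.Core.W.TBb
import Claimed.Agent.R324.Core.W.TBd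

set_option autoImplicit false

namespace Claimed.Agent.R324.Core

open Set Filter Topology MeasureTheory
open scoped ContDiff

noncomputable section

variable {C C' : ℝ} {V W : ℝ → ℝ} {q Γ t y : ℝ}


/-- powers of `r̂²` and of `Θ`. -/
theorem w0_tb_rh2 : ∃ C : ℝ, 0 ≤ C ∧ ∀ q t : ℝ, 1 < q → t < 0 → TB C (rh2 q t) := by
  obtain ⟨K, hK, h⟩ := w0_tb_base
  exact ⟨K, hK, fun q t hq ht => h (ell2 q t) (w0_ell2_pos hq ht)⟩

theorem w0_tb_Th : ∃ C : ℝ, 0 ≤ C ∧ ∀ t : ℝ, t < 0 → TB C (Th t) := by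
  obtain ⟨K, hK, h⟩ := w0_tb_base
  exact ⟨K, hK, fun t ht => h (-t) (by linarith)⟩

/-- **W0 (d)**, light weights. -/
theorem w0_tb_wL (a M : ℕ) : ∃ C : ℝ, 0 ≤ C ∧ ∀ q Γ t : ℝ, 1 < q → 0 ≤ Γ → t < 0 → TB C (wL a M q Γ t) := by
  obtain ⟨K, hK, h⟩ := w0_tb_base
  have hall : ∀ q Γ t : ℝ, 1 < q → 0 ≤ Γ → t < 0 →
      TB ((tbPow K a + 2 * tbPow K a * K + K)
        + 2 * (tbPow K a + 2 * tbPow K a * K + K) * (tbPow K (M + 1) + 2 * tbPow K (M + 1) ^ 2)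
        + (tbPow K (M + 1) + 2 * tbPow K (M + 1) ^ 2)) (wL a M q Γ t) := by
    intro q Γ t hq hΓ ht
    have h1 : TB K (fun y => rh2 q t y) := h (ell2 q t) (w0_ell2_pos hq ht)
    have h2 : TB K (fun y => (1 + Γ) * (-t) + Xt y) :=
      h _ (mul_pos (by linarith) (by linarith))
    have h3 : TB K (fun y => Th t y) := h (-t) (by linarith)
    exact ((h1.pow a).mul h2).div (h3.pow (M + 1))
  exact ⟨_, (hall 2 0 (-1) (by norm_num) le_rfl (by norm_num)).nonneg_C, hall⟩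

/-- **W0 (d)**, heavy weights. -/
theorem w0_tb_wH (a M : ℕ) : ∃ C : ℝ, 0 ≤ C ∧ ∀ q t : ℝ, 1 < q → t < 0 → TB C (wH a M q t) := by
  obtain ⟨K, hK, h⟩ := w0_tb_base
  have hall : ∀ q t : ℝ, 1 < q → t < 0 →
      TB (tbPow K a + 2 * tbPow K a * (tbPow K M + 2 * tbPow K M ^ 2)
        + (tbPow K M + 2 * tbPow K M ^ 2)) (wH a M q t) := by
    intro q t hq ht
    have h1 : TB K (fun y => rh2 q t y) := h (ell2 q t) (w0_ell2_pos hq ht)
    have h3 : TB K (fun y => Th t y) := h (-t) (by linarith)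
    exact (h1.pow a).div (h3.pow M)
  exact ⟨_, (hall 2 (-1) (by norm_num) (by norm_num)).nonneg_C, hall⟩

end

end Claimed.Agent.R324.Core
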