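/-
Row 324 (S0582), PDE core, module W (architect helper427; W0, WC, W1, W2: helper217).   Blueprint 7.3 (origin/helper232:docs/R324_blueprint.md).   FILE TBf
   Λ = -t,  X = Xf y = 1 - y²,  X̃ = Xt y,  ℓ² = ell2 q t = (q-1)/100 Λ^(2γ),  γ = gaF q = 8/bAl q,  2 < bAl q < 3 (`bAl_bounds`, q ≥ 100),  r̂² = rh2 = ℓ² + X̃,  Θ = Th = Λ + X̃   (Core/Defs.lean).
   tt f = -X f',  ttp f = tt f + y f;   pointwise rules and the class `SmI` (smooth near [-1,1]): Core/W/TtCalc.lean.     𝕀 = II: Core/W/Ibp.lean.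
W0 (d): explicit logarithmic derivatives of the weights.
* on (1/2,1] everything is a function of Xf: near y, Xt = Xf (`Xt_eq`, `Ioi_mem_nhds`), so wL a M q Γ t =ᶠ fun z => (ell2 q t + Xf z)^a * ((1+Γ)(-t) + Xf z)/(-t + Xf z)^(M+1);  `tt_congr`, `tt_mul, tt_pow, tt_div, tt_add, tt_const`, tt Xf = 2 y Xf (`tt_Xf`), field_simp, ring.     (a = 0: `tt_pow` has the exponent a - 1 in ℕ: treat a = 0 separately or use `cases a`.)
* on y < 0 the weights are locally constant in y (`w0_Xt_S`, `Iio_mem_nhds`): `tt_congr`, `tt_const`.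
-/
import Claimed.Agent.R324.Core.W.TBa

set_option autoImplicit false

namespace Claimed.Agent.R324.Core

open Set Filter Topology MeasureTheory
open scoped ContDiff

noncomputable section

variable {C C' : ℝ} {V W : ℝ → ℝ} {q Γ t y : ℝ}


theorem w0_TBf_pw (a : ℕ) {u : ℝ} (hu : u ≠ 0) : (a : ℝ) * u ^ (a - 1) = a * u ^ a / u := by
  cases a with
  | zero => simp
  | succ k =>
    simp only [Nat.add_sub_cancel, pow_succ]
    field_simp

/-- general logarithmic derivative of `(A+X)^a (B+X) / (D+X)^m`. -/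
theorem w0_TBf_aux (a m : ℕ) (A B D : ℝ) (hA : A + Xf y ≠ 0) (hB : B + Xf y ≠ 0) (hD : D + Xf y ≠ 0) :
    tt (fun z => (A + Xf z) ^ a * (B + Xf z) / (D + Xf z) ^ m) y
      = 2 * y * (a * Xf y / (A + Xf y) + Xf y / (B + Xf y) - m * Xf y / (D + Xf y))
        * ((A + Xf y) ^ a * (B + Xf y) / (D + Xf y) ^ m) := by
  have hX := hasDerivAt_Xf y
  have h1 : HasDerivAt (fun z => (A + Xf z) ^ a) (a * (A + Xf y) ^ a / (A + Xf y) * (-2 * y)) y := by
    have h := (hX.const_add A).fun_pow a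
    rw [w0_TBf_pw a hA] at h
    exact h
  have h3 : HasDerivAt (fun z => (D + Xf z) ^ m) (m * (D + Xf y) ^ m / (D + Xf y) * (-2 * y)) y := by
    have h := (hX.const_add D).fun_pow m
    rw [w0_TBf_pw m hD] at h
    exact h
  have h2 : HasDerivAt (fun z => B + Xf z) (-2 * y) y := hX.const_add B
  have hDm : (D + Xf y) ^ m ≠ 0 := pow_ne_zero _ hD
  have h := ((h1.mul h2).div h3 hDm).deriv
  have h' : deriv (fun z => (A + Xf z) ^ a * (B + Xf z) / (D + Xf z) ^ m) y = _ := h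
  rw [tt_eq_Xf, h']
  simp only [Pi.mul_apply]
  field_simp
  ring

/-- the same without the middle factor. -/
theorem w0_TBf_aux' (a m : ℕ) (A D : ℝ) (hA : A + Xf y ≠ 0) (hD : D + Xf y ≠ 0) :
    tt (fun z => (A + Xf z) ^ a / (D + Xf z) ^ m) y
      = 2 * y * (a * Xf y / (A + Xf y) - m * Xf y / (D + Xf y))
        * ((A + Xf y) ^ a / (D + Xf y) ^ m) := by
  have hX := hasDerivAt_Xf y
  have h1 : HasDerivAt (fun z => (A + Xf z) ^ a) (a * (A + Xf y) ^ a / (A + Xf y) * (-2 * y)) y := by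
    have h := (hX.const_add A).fun_pow a
    rw [w0_TBf_pw a hA] at h
    exact h
  have h3 : HasDerivAt (fun z => (D + Xf z) ^ m) (m * (D + Xf y) ^ m / (D + Xf y) * (-2 * y)) y := by
    have h := (hX.const_add D).fun_pow m
    rw [w0_TBf_pw m hD] at h
    exact h
  have hDm : (D + Xf y) ^ m ≠ 0 := pow_ne_zero _ hD
  have h := (h1.div h3 hDm).deriv
  have h' : deriv (fun z => (A + Xf z) ^ a / (D + Xf z) ^ m) y = _ := h
  rw [tt_eq_Xf, h']
  field_simp
  ring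

theorem w0_TBf_ell2_pos (hq : 1 < q) (ht : t < 0) : 0 < ell2 q t := by
  unfold ell2 lam2
  have h1 : 0 < (-t) ^ (2 * gaF q) := Real.rpow_pos_of_pos (by linarith) _
  have h2 : 0 < (q - 1) / 100 := by linarith
  exact mul_pos h2 h1

theorem w0_TBf_Xf_nonneg (hy : y ∈ Ioc (1 / 2 : ℝ) 1) : 0 ≤ Xf y := by
  unfold Xf
  nlinarith [hy.1, hy.2]

theorem w0_TBf_ev (hy : y ∈ Ioc (1 / 2 : ℝ) 1) : ∀ᶠ z in 𝓝 y, Xt z = Xf z := by
  filter_upwards [Ioi_mem_nhds hy.1] with z hz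
  exact Xt_eq (le_of_lt hz)

theorem w0_tt_wL_N (a M : ℕ) (hq : 1 < q) (hΓ : 0 ≤ Γ) (ht : t < 0) (hy : y ∈ Ioc (1 / 2 : ℝ) 1) :
    tt (wL a M q Γ t) y = 2 * y * (a * Xf y / rh2 q t y + Xf y / ((1 + Γ) * (-t) + Xf y)
      - (M + 1) * Xf y / Th t y) * wL a M q Γ t y := by
  have hX := w0_TBf_Xf_nonneg hy
  have hl := w0_TBf_ell2_pos hq ht
  have hXt : Xt y = Xf y := Xt_eq hy.1.le
  have hev : wL a M q Γ t =ᶠ[𝓝 y]
      fun z => (ell2 q t + Xf z) ^ a * ((1 + Γ) * (-t) + Xf z) / (-t + Xf z) ^ (M + 1) := by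
    filter_upwards [w0_TBf_ev hy] with z hz
    simp only [wL, rh2, Th, hz]
  have hB : 0 < (1 + Γ) * (-t) := mul_pos (by linarith) (by linarith)
  rw [tt_congr hev, w0_TBf_aux a (M + 1) (ell2 q t) ((1 + Γ) * (-t)) (-t) (by positivity)
    (by positivity) (by have : 0 < -t := by linarith
                        positivity)]
  simp only [wL, rh2, Th, hXt]
  push_cast
  ring

theorem w0_tt_wH_N (a M : ℕ) (hq : 1 < q) (ht : t < 0) (hy : y ∈ Ioc (1 / 2 : ℝ) 1) :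
    tt (wH a M q t) y = 2 * y * (a * Xf y / rh2 q t y - M * Xf y / Th t y) * wH a M q t y := by
  have hX := w0_TBf_Xf_nonneg hy
  have hl := w0_TBf_ell2_pos hq ht
  have hXt : Xt y = Xf y := Xt_eq hy.1.le
  have hev : wH a M q t =ᶠ[𝓝 y] fun z => (ell2 q t + Xf z) ^ a / (-t + Xf z) ^ M := by
    filter_upwards [w0_TBf_ev hy] with z hz
    simp only [wH, rh2, Th, hz]
  rw [tt_congr hev, w0_TBf_aux' a M (ell2 q t) (-t) (by positivity)
    (by have : 0 < -t := by linarith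
        positivity)]
  simp only [wH, rh2, Th, hXt]

theorem w0_tt_wL_S (a M : ℕ) (q Γ t : ℝ) (hy : y < 0) : tt (wL a M q Γ t) y = 0 := by
  have hev : wL a M q Γ t =ᶠ[𝓝 y] fun _ => (ell2 q t + 15 / 16) ^ a * ((1 + Γ) * (-t) + 15 / 16)
      / (-t + 15 / 16) ^ (M + 1) := by
    filter_upwards [Iio_mem_nhds hy] with z hz
    simp only [wL, rh2, Th, w0_Xt_S (le_of_lt hz)]
  rw [tt_congr hev, tt_const]

theorem w0_tt_wH_S (a M : ℕ) (q t : ℝ) (hy : y < 0) : tt (wH a M q t) y = 0 := by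
  have hev : wH a M q t =ᶠ[𝓝 y] fun _ => (ell2 q t + 15 / 16) ^ a / (-t + 15 / 16) ^ M := by
    filter_upwards [Iio_mem_nhds hy] with z hz
    simp only [wH, rh2, Th, w0_Xt_S (le_of_lt hz)]
  rw [tt_congr hev, tt_const]

end

end Claimed.Agent.R324.Core
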