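/-
Row 324 (S0582), PDE core, module W (architect helper427; W0, WC, W1, W2: helper217).   Blueprint 7.3 (origin/helper232:docs/R324_blueprint.md).   FILE WtC
   Λ = -t,  X = Xf y = 1 - y²,  X̃ = Xt y,  ℓ² = ell2 q t = (q-1)/100 Λ^(2γ),  γ = gaF q = 8/bAl q,  2 < bAl q < 3 (`bAl_bounds`, q ≥ 100),  r̂² = rh2 = ℓ² + X̃,  Θ = Th = Λ + X̃   (Core/Defs.lean).
   tt f = -X f',  ttp f = tt f + y f;   pointwise rules and the class `SmI` (smooth near [-1,1]): Core/W/TtCalc.lean.     𝕀 = II: Core/W/Ibp.lean.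
W0 (c).
* `w0_rh7`:  x := Θ/2 ∈ (0,1].   Case X̃ ≥ Λ:  r̂² ≥ X̃ ≥ x, so r̂⁶ r̂ ≥ x³ √x ≥ x⁴ ≥ x^28  (√x ≥ x on [0,1]).
             Case X̃ ≤ Λ:  x ≤ Λ,  r̂² ≥ ℓ² = c Λ^(2γ), c = (q-1)/100 ≥ 99/100;   (ℓ²)³ √(ℓ²) = c³ √c Λ^(7γ) (√ = rpow 1/2: `Real.sqrt_eq_rpow`; `Real.rpow_mul`, `Real.rpow_add`, `Real.mul_rpow`), 7γ = 56/α ≤ 28 ⟹ Λ^(7γ) ≥ Λ^28 ≥ x^28.       c₀ := min 1 (c³√c) / 2^28.
-/
import Claimed.Agent.R324.Core.W.WtB

set_option autoImplicit false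

namespace Claimed.Agent.R324.Core

open Set Filter Topology MeasureTheory
open scoped ContDiff

noncomputable section

variable {q Γ t y : ℝ} {a M : ℕ}

/-! ### (c) -/

/-- `r̂⁷ ≥ c Θ^28`. -/
theorem w0_rh7 (hq : 100 ≤ q) : ∃ c : ℝ, 0 < c ∧ ∀ t : ℝ, t < 0 → -t ≤ 100 / q → ∀ y ∈ Icc (-1 : ℝ) 1,
    c * (Th t y) ^ 28 ≤ (rh2 q t y) ^ 3 * Real.sqrt (rh2 q t y) := by
  refine ⟨(99 / 100) ^ 3 * Real.sqrt (99 / 100) / 2 ^ 28, by positivity, fun t ht hΛ y hy => ?_⟩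
  have hq1 : 100 / q ≤ 1 := by
    rw [div_le_one (by linarith)]
    exact hq
  have hL1 : -t ≤ 1 := hΛ.trans hq1
  have hL0 : 0 < -t := by linarith
  obtain ⟨hX0, hX1⟩ := Xt_nonneg hy.1 hy.2
  have hTh : Th t y = -t + Xt y := rfl
  obtain ⟨x, hx⟩ : ∃ x : ℝ, x = Th t y / 2 := ⟨_, rfl⟩
  have hx0 : 0 < x := by rw [hx, hTh]; linarith
  have hx1 : x ≤ 1 := by rw [hx, hTh]; linarith
  have hkey : 99 / 100 * x ^ 8 ≤ rh2 q t y := by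
    have hell : 0 < ell2 q t := w0_ell2_pos (by linarith) ht
    have hx8 : 0 < x ^ 8 := by positivity
    rcases le_total (-t) (Xt y) with h | h
    · have h1 : x ≤ Xt y := by rw [hx, hTh]; linarith
      have h2 : x ^ 8 ≤ x := by
        calc x ^ 8 ≤ x ^ 1 := pow_le_pow_of_le_one hx0.le hx1 (by norm_num)
          _ = x := pow_one x
      unfold rh2
      linarith
    · have h1 : x ≤ -t := by rw [hx, hTh]; linarith
      have hg : 2 * gaF q ≤ 8 := by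
        have hb := (bAl_bounds hq).1
        unfold gaF
        rw [← mul_div_assoc, div_le_iff₀ (by linarith)]
        linarith
      have h2 : (-t) ^ (8 : ℝ) ≤ (-t) ^ (2 * gaF q) := Real.rpow_le_rpow_of_exponent_ge hL0 hL1 hg
      have h4 : (-t) ^ (8 : ℝ) = (-t) ^ 8 := by
        rw [show (8 : ℝ) = ((8 : ℕ) : ℝ) by norm_num, Real.rpow_natCast]
      have h3 : x ^ 8 ≤ (-t) ^ 8 := pow_le_pow_left₀ hx0.le h1 8
      have hc : (99 : ℝ) / 100 ≤ (q - 1) / 100 := by linarith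
      have h5 : x ^ 8 ≤ (-t) ^ (2 * gaF q) := by rw [h4] at h2; exact h3.trans h2
      have h6 : 99 / 100 * x ^ 8 ≤ (q - 1) / 100 * (-t) ^ (2 * gaF q) :=
        mul_le_mul hc h5 hx8.le (by linarith)
      unfold rh2 ell2 lam2
      linarith
  have hr0 : (0 : ℝ) ≤ 99 / 100 * x ^ 8 := by positivity
  have h3 : (99 / 100 * x ^ 8) ^ 3 ≤ (rh2 q t y) ^ 3 := pow_le_pow_left₀ hr0 hkey 3
  have h4 : Real.sqrt (99 / 100 * x ^ 8) ≤ Real.sqrt (rh2 q t y) := Real.sqrt_le_sqrt hkey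
  have h5 : Real.sqrt (99 / 100 * x ^ 8) = Real.sqrt (99 / 100) * x ^ 4 := by
    rw [Real.sqrt_mul (by norm_num), show x ^ 8 = (x ^ 4) ^ 2 by ring, Real.sqrt_sq (by positivity)]
  rw [h5] at h4
  have hT : Th t y = 2 * x := by rw [hx]; ring
  calc (99 / 100) ^ 3 * Real.sqrt (99 / 100) / 2 ^ 28 * (Th t y) ^ 28
      = (99 / 100 * x ^ 8) ^ 3 * (Real.sqrt (99 / 100) * x ^ 4) := by rw [hT]; ring
    _ ≤ (rh2 q t y) ^ 3 * Real.sqrt (rh2 q t y) :=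
        mul_le_mul h3 h4 (by positivity) (pow_nonneg (hr0.trans hkey) 3)

/-- `r̂⁷ ≥ c Θ^30`. -/
theorem w0_rh7' (hq : 100 ≤ q) : ∃ c : ℝ, 0 < c ∧ ∀ t : ℝ, t < 0 → -t ≤ 100 / q → ∀ y ∈ Icc (-1 : ℝ) 1,
    c * (Th t y) ^ 30 ≤ (rh2 q t y) ^ 3 * Real.sqrt (rh2 q t y) := by
  obtain ⟨c, hc, h⟩ := w0_rh7 hq
  refine ⟨c / 4, by positivity, fun t ht hΛ y hy => le_trans ?_ (h t ht hΛ y hy)⟩
  have h1 : -1 ≤ t := by
    have : 100 / q ≤ 1 := by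
      rw [div_le_one (by linarith)]
      exact hq
    linarith
  have h2 := w0_Th_le_two h1 hy
  have h3 := w0_Th_pos ht hy
  have h4 : (Th t y) ^ 30 = (Th t y) ^ 28 * (Th t y) ^ 2 := by ring
  have h5 : (Th t y) ^ 2 ≤ 4 := by nlinarith
  have h6 : 0 < (Th t y) ^ 28 := by positivity
  rw [h4]
  nlinarith [mul_le_mul_of_nonneg_left h5 h6.le]

end

end Claimed.Agent.R324.Core
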