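/-
Row 324 (S0582), PDE core, module W (architect helper427; W0, WC, W1, W2: helper217).   Blueprint 7.3 (origin/helper232:docs/R324_blueprint.md).   FILE WtF
   Λ = -t,  X = Xf y = 1 - y²,  X̃ = Xt y,  ℓ² = ell2 q t = (q-1)/100 Λ^(2γ),  γ = gaF q = 8/bAl q,  2 < bAl q < 3 (`bAl_bounds`, q ≥ 100),  r̂² = rh2 = ℓ² + X̃,  Θ = Th = Λ + X̃   (Core/Defs.lean).
   tt f = -X f',  ttp f = tt f + y f;   pointwise rules and the class `SmI` (smooth near [-1,1]): Core/W/TtCalc.lean.     𝕀 = II: Core/W/Ibp.lean.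
W0 (f).
* `w0_ii_inv_Th`:  Θ ≥ Λ + (3/4) X = Λ + (3/4) sin² ϑ (`w0_Xf_le_Xt`; Xf (cos ϑ) = sin² ϑ);  split [0,π/2], [π/2,π] (substitution ϑ ↦ π - ϑ);  sin ϑ ≥ 2ϑ/π on [0,π/2] (`Real.mul_le_sin`);
      ∫_0^{π/2} dϑ/(Λ + c ϑ²) ≤ ∫_0^{√Λ} dϑ/Λ + ∫_{√Λ}^{π/2} dϑ/(c ϑ²)   or   arctan (`integral_one_div_one_add_sq`, `intervalIntegral.integral_comp_mul_left`).
-/
import Claimed.Agent.R324.Core.W.WtB

set_option autoImplicit false

namespace Claimed.Agent.R324.Core

open Set Filter Topology MeasureTheory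
open scoped ContDiff

noncomputable section

variable {q Γ t y : ℝ} {a M : ℕ}

/-! ### (f) -/

/-- the comparison function and its primitive -/
theorem w0_wtf_prim {a : ℝ} (ha : 0 < a) (x : ℝ) :
    HasDerivAt (fun x => Real.pi / a * Real.arctan (x / (Real.pi * a))) (1 / (a ^ 2 + (x / Real.pi) ^ 2)) x := by
  have hpi := Real.pi_pos
  have h1 : HasDerivAt (fun x : ℝ => x / (Real.pi * a)) (1 / (Real.pi * a)) x :=
    (hasDerivAt_id x).div_const (Real.pi * a)
  have h2 := (h1.arctan).const_mul (Real.pi / a)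
  have e : 1 / (a ^ 2 + (x / Real.pi) ^ 2) =
      Real.pi / a * (1 / (1 + (x / (Real.pi * a)) ^ 2) * (1 / (Real.pi * a))) := by
    have h3 : 0 < a ^ 2 + (x / Real.pi) ^ 2 := by positivity
    have h4 : 0 < 1 + (x / (Real.pi * a)) ^ 2 := by positivity
    have h5 : a ^ 2 + (x / Real.pi) ^ 2 = a ^ 2 * (1 + (x / (Real.pi * a)) ^ 2) := by
      field_simp
    rw [h5]
    field_simp
  rw [e]
  exact h2

theorem w0_wtf_int {a : ℝ} (ha : 0 < a) :
    ∫ x in (0 : ℝ)..Real.pi, 1 / (a ^ 2 + (x / Real.pi) ^ 2) ≤ Real.pi ^ 2 / 2 / a := by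
  have hpi := Real.pi_pos
  have hc : Continuous (fun x : ℝ => 1 / (a ^ 2 + (x / Real.pi) ^ 2)) :=
    continuous_const.div (by fun_prop) (fun x => ne_of_gt (by positivity))
  rw [intervalIntegral.integral_eq_sub_of_hasDerivAt (fun x _ => w0_wtf_prim ha x) (hc.intervalIntegrable _ _)]
  have h1 : Real.arctan (Real.pi / (Real.pi * a)) ≤ Real.pi / 2 := (Real.arctan_lt_pi_div_two _).le
  have h2 : Real.pi / a * Real.arctan (Real.pi / (Real.pi * a)) ≤ Real.pi / a * (Real.pi / 2) :=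
    mul_le_mul_of_nonneg_left h1 (by positivity)
  have h3 : Real.pi / a * (Real.pi / 2) = Real.pi ^ 2 / 2 / a := by
    field_simp
  simp only [zero_div, Real.arctan_zero, mul_zero, sub_zero]
  linarith

theorem w0_wtf_half {t x : ℝ} (ht : t < 0) (y : ℝ) (hy : y ∈ Icc (-1 : ℝ) 1) (hx0 : 0 ≤ x) (hx : x ≤ Real.pi / 2)
    (hs : Xf y = Real.sin x ^ 2) : 1 / Th t y ≤ 1 / (Real.sqrt (-t) ^ 2 + (x / Real.pi) ^ 2) := by
  have hpi := Real.pi_pos
  have h1 : 2 / Real.pi * x ≤ Real.sin x := Real.mul_le_sin hx0 hx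
  have h2 : Xf y ≤ 4 / 3 * Xt y := w0_Xf_le_Xt hy
  have h3 : Real.sqrt (-t) ^ 2 = -t := Real.sq_sqrt (by linarith)
  have h4 : 0 ≤ 2 / Real.pi * x := by positivity
  have h5 : (2 / Real.pi * x) ^ 2 ≤ Real.sin x ^ 2 := pow_le_pow_left₀ h4 h1 2
  have h6 : (2 / Real.pi * x) ^ 2 = 4 * (x / Real.pi) ^ 2 := by
    field_simp
    ring
  have h7 : 0 ≤ (x / Real.pi) ^ 2 := by positivity
  rw [h3]
  apply one_div_le_one_div_of_le
  · have : 0 < -t := by linarith
    positivity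
  · unfold Th
    nlinarith

theorem w0_ii_inv_Th : ∃ C : ℝ, 0 < C ∧ ∀ t ∈ Ico (-1 : ℝ) 0, II (fun y => 1 / Th t y) ≤ C / Real.sqrt (-t) := by
  have hpi := Real.pi_pos
  refine ⟨Real.pi ^ 2, by positivity, ?_⟩
  intro t ht
  have ht0 : t < 0 := ht.2
  obtain ⟨a, ha⟩ : ∃ a : ℝ, a = Real.sqrt (-t) := ⟨_, rfl⟩
  have ha0 : 0 < a := by rw [ha]; exact Real.sqrt_pos.2 (by linarith)
  have hcTh : Continuous (fun y => Th t y) := by
    unfold Th
    exact continuous_const.add w0_contDiff_Xt.continuous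
  have hCI : CI (fun y => 1 / Th t y) :=
    continuousOn_const.div hcTh.continuousOn (fun y hy => (w0_Th_pos ht0 hy).ne')
  have hc : Continuous (fun x : ℝ => 1 / (a ^ 2 + (x / Real.pi) ^ 2)) :=
    continuous_const.div (by fun_prop) (fun x => ne_of_gt (by positivity))
  have hc' : Continuous (fun x : ℝ => 1 / (a ^ 2 + ((Real.pi - x) / Real.pi) ^ 2)) :=
    continuous_const.div (by fun_prop) (fun x => ne_of_gt (by positivity))
  have hmono : II (fun y => 1 / Th t y) ≤ ∫ x in (0 : ℝ)..Real.pi,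
      (1 / (a ^ 2 + (x / Real.pi) ^ 2) + 1 / (a ^ 2 + ((Real.pi - x) / Real.pi) ^ 2)) := by
    unfold II
    refine intervalIntegral.integral_mono_on hpi.le (ii_integrable hCI _ _)
      ((hc.add hc').intervalIntegrable _ _) ?_
    intro x hx
    have hp1 : 0 ≤ 1 / (a ^ 2 + (x / Real.pi) ^ 2) := by positivity
    have hp2 : 0 ≤ 1 / (a ^ 2 + ((Real.pi - x) / Real.pi) ^ 2) := by positivity
    have hXf : Xf (Real.cos x) = Real.sin x ^ 2 := by
      unfold Xf
      nlinarith [Real.sin_sq_add_cos_sq x]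
    rcases le_total x (Real.pi / 2) with h | h
    · have := w0_wtf_half ht0 (Real.cos x) (cos_mem_Icc x) hx.1 h hXf
      rw [← ha] at this
      linarith
    · have hXf' : Xf (Real.cos x) = Real.sin (Real.pi - x) ^ 2 := by
        rw [Real.sin_pi_sub]; exact hXf
      have := w0_wtf_half ht0 (Real.cos x) (cos_mem_Icc x) (x := Real.pi - x) (by linarith [hx.2]) (by linarith) hXf'
      rw [← ha] at this
      linarith
  have hsplit : ∫ x in (0 : ℝ)..Real.pi,
      (1 / (a ^ 2 + (x / Real.pi) ^ 2) + 1 / (a ^ 2 + ((Real.pi - x) / Real.pi) ^ 2)) =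
      (∫ x in (0 : ℝ)..Real.pi, 1 / (a ^ 2 + (x / Real.pi) ^ 2)) +
        ∫ x in (0 : ℝ)..Real.pi, 1 / (a ^ 2 + (x / Real.pi) ^ 2) := by
    rw [intervalIntegral.integral_add (hc.intervalIntegrable _ _) (hc'.intervalIntegrable _ _)]
    congr 1
    have := intervalIntegral.integral_comp_sub_left (a := (0 : ℝ)) (b := Real.pi)
      (fun x : ℝ => 1 / (a ^ 2 + (x / Real.pi) ^ 2)) Real.pi
    simpa using this
  have hint := w0_wtf_int ha0
  rw [← ha]
  have hfin : Real.pi ^ 2 / 2 / a + Real.pi ^ 2 / 2 / a = Real.pi ^ 2 / a := by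
    field_simp
    ring
  linarith

end

end Claimed.Agent.R324.Core
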